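import Crest.Agent.N067.M.Defs

/-! # Row 67, FLUX: the test lemma and the geometry of WEDGE (helper46) -/

set_option autoImplicit false
set_option linter.unusedVariables false

open InnerProductSpace Set Metric
open scoped RealInnerProductSpace Gradient

namespace Crest.Agent.N067.M.Wd

open Crest.Agent.R077

variable {n : ℕ} {β : Bo} {v : EE n → ℝ}

theorem gp_anti {N L y y' : ℝ} (hN : 0 ≤ N) (hL : 0 < L) (h0 : 0 ≤ y) (h : y ≤ y') :
    gp N L y' ≤ gp N L y := by
  unfold gp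
  have : y ^ 2 ≤ y' ^ 2 := by gcongr
  gcongr

theorem gp_ge {N L a : ℝ} (hN : 0 ≤ N) (hN1 : N ≤ 1) (hL : 0 < L) :
    a - (1 - N) * |a| - a ^ 2 / (2 * L) ≤ gp N L (L - a) := by
  have e : gp N L (L - a) = N * a - N * (a ^ 2 / (2 * L)) := by unfold gp; field_simp; ring
  have h1 : N * (a ^ 2 / (2 * L)) ≤ a ^ 2 / (2 * L) := mul_le_of_le_one_left (by positivity) hN1
  have h2 := mul_le_mul_of_nonneg_left (le_abs_self a) (sub_nonneg.2 hN1)
  rw [e]; linarith

theorem rt_le {ρm r : ℝ} {y : EE n} (h : |dd v y| < r) (hf : ¬ Fit β v y r) : rt β v ρm y ≤ r :=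
  csInf_le ⟨min 0 ρm, by
    rintro s (hs | hs)
    · exact (min_le_left _ _).trans ((abs_nonneg _).trans hs.1.le)
    · exact (min_le_right _ _).trans (le_of_eq hs.symm)⟩ (Or.inl ⟨h, hf⟩)

theorem NN_le (hv : Sol v) (y : EE n) : NN v y ≤ 1 := hv.norm_grad_dd_le y

theorem NN_nonneg (v : EE n → ℝ) (y : EE n) : 0 ≤ NN v y := norm_nonneg _

theorem one_sub_NN (hv : Sol v) (y : EE n) : 1 - NN v y ≤ tt v y := by
  have h1 := NN_le hv y
  have h2 := NN_nonneg v y
  have h3 : tt v y = 1 - NN v y ^ 2 := rfl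
  nlinarith

theorem norm_nu {y : EE n} (h : 0 < NN v y) : ‖nu v y‖ = 1 := by
  rw [nu, norm_smul, norm_inv, Real.norm_of_nonneg h.le]
  exact inv_mul_cancel₀ h.ne'

theorem cen_eq (v : EE n → ℝ) (y : EE n) (r : ℝ) (w : EE n) :
    cen v y r w = bs v y + r • nu v y + r • w := by
  unfold cen bs; rw [sub_smul]; abel

/-- the paraboloid at a point of depth `m` in the body -/
theorem le_PP (hv : Sol v) {y w z : EE n} {r m : ℝ} (hr : dd v y < r)
    (hm : ‖z - cen v y r w‖ + β.η * r ≤ r - m) (hr0 : 0 ≤ r) :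
    m - tt v y * |m - dd v y| - (m - dd v y) ^ 2 / (2 * (r - dd v y)) ≤ PP β v y r w z := by
  have h1 := gp_ge (a := m - dd v y) (NN_nonneg v y) (NN_le hv y) (sub_pos.2 hr)
  have h2 := gp_anti (NN_nonneg v y) (sub_pos.2 hr) (y := ‖z - cen v y r w‖ + β.η * r)
    (y' := r - dd v y - (m - dd v y)) (add_nonneg (norm_nonneg _) (mul_nonneg β.η0.le hr0))
    (by linarith)
  have h3 := mul_le_mul_of_nonneg_right (one_sub_NN hv y) (abs_nonneg (m - dd v y))
  unfold PP; linarith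

/-- **TEST**: a point of depth `m` in the body of size `r` at `y` where `d` is below `m` -/
theorem test (hv : Sol v) {y w z : EE n} {r m : ℝ} (ρm : ℝ) (hw : w ∈ Core β (nu v y))
    (hr : |dd v y| < r) (hm : ‖z - cen v y r w‖ + β.η * r ≤ r - m)
    (hd : dd v z < m - tt v y * |m - dd v y| - (m - dd v y) ^ 2 / (2 * (r - dd v y))) :
    rt β v ρm y ≤ r :=
  rt_le hr fun hf => absurd ((le_PP hv ((le_abs_self _).trans_lt hr) hm
    ((abs_nonneg _).trans hr.le)).trans (hf w hw z)) (not_le.2 hd)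

/-- the orthogonal projection to a hyperplane -/
theorem proj {e : EE n} (he : ‖e‖ = 1) (b c : EE n) :
    ∃ p : EE n, ⟪p - b, e⟫ = 0 ∧ ‖p - b‖ ≤ 2 * ‖c - b‖ ∧ ‖p - c‖ = |⟪c - b, e⟫| := by
  refine ⟨c - ⟪c - b, e⟫ • e, ?_, ?_, ?_⟩
  · rw [sub_right_comm, inner_sub_left, real_inner_smul_left, real_inner_self_eq_norm_sq, he]; ring
  · rw [sub_right_comm]
    refine (norm_sub_le _ _).trans ?_
    have := abs_real_inner_le_norm (c - b) e
    rw [norm_smul, he, Real.norm_eq_abs]; rw [he] at this; linarith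
  · rw [sub_sub_cancel_left, norm_neg, norm_smul, he, mul_one, Real.norm_eq_abs]



theorem abs_inner_le {a e : EE n} {A : ℝ} (ha : ‖a‖ ≤ A) (he : ‖e‖ = 1) : |⟪a, e⟫| ≤ A := by
  have := abs_real_inner_le_norm a e
  rw [he, mul_one] at this; exact this.trans ha

/-- the top point of the body of size `r` on the base `b`, in the direction `om` -/
def top (β : Bo) (b ν w om : EE n) (r : ℝ) : EE n := b + r • ν + r • w + ((1 - β.η) * r) • om

theorem norm_top {b ν w om : EE n} {r : ℝ} (hν : ‖ν‖ = 1) (hom : ‖om‖ = 1) (hw : w ∈ Core β ν)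
    (hr : 0 ≤ r) : ‖top β b ν w om r - b‖ ≤ 2 * r := by
  have e : top β b ν w om r - b = r • ν + r • w + ((1 - β.η) * r) • om := by unfold top; abel
  have h1 := β.η1
  rw [e]
  refine (norm_add₃_le).trans ?_
  rw [norm_smul, norm_smul, norm_smul, hν, hom, Real.norm_of_nonneg hr,
    Real.norm_of_nonneg (mul_nonneg (by linarith) hr)]
  nlinarith [mul_le_mul_of_nonneg_left hw.1 hr]





end Crest.Agent.N067.M.Wd
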