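import Crest.Agent.N067.M.ChS

/-!
# Row 67 (helper26): the pointwise form of FLUX, definitions and measure theory
-/

set_option autoImplicit false
set_option linter.dupNamespace false

open MeasureTheory Laplacian InnerProductSpace Topology Filter Set Metric
open scoped RealInnerProductSpace Gradient ENNReal

namespace Crest.Agent.N067.M

open Crest.Agent.R077 Crest.Agent.N067.V Crest.Agent.N067.Y

noncomputable section

variable {n : ℕ}


/-- the first integer step along the normal at which `v` is negative -/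
def mm (v : EE n → ℝ) (y : EE n) : ℕ := sInf {k : ℕ | 2 ≤ k ∧ v (y + (k : ℝ) • nn v y) < 0}

/-- the partner across the gap -/
def Phi (v : EE n → ℝ) (y : EE n) : EE n := y + (mm v y : ℝ) • nn v y

namespace Dat

variable (D : Dat n)

/-- the integrand of `FluxStmt` -/
def cost (th : EE n → ℝ) (x : EE n) : ℝ := D.dens x * (2 * D.ch x * D.chd x * th x *
  (-(SignType.sign (dd D.v x) * ⟪nn D.v x, ∇ D.rp x⟫)))

/-- the integrand of `Kept` -/
def kept (th : EE n → ℝ) (x : EE n) : ℝ :=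
  D.ch x ^ 2 * D.dens x * (th x * ‖∇ D.rp x‖ ^ 2 / D.rp x)

/-- the amount `c` at `x` is charged to a shallow ball -/
def Chg (Ph : EE n → EE n) (c e : ℝ) (x : EE n) : Prop :=
  ∃ y, ∀ y' ∈ ball y (1 / 4), |dd D.v y'| ≤ 1 ∧
    c * (1 + ‖x - Ph y'‖) ^ (n + 1) ≤ e * (D.Gain y' * D.W y' ^ 2)

/-- the inner integral of the pair gain -/
def gam (ε T : ℝ) (x : EE n) : ℝ≥0∞ :=
  ∫⁻ y in {y | Opp D.v ε T 0 x y ∧ 0 < ⟪y - x, nn D.v x⟫}, ENNReal.ofReal
    (9 * psi D.v x ^ 2 * Ker.Gk 2 (x - y) * psi D.v y ^ 2 *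
      ((D.Z x * D.W x + D.Z y * D.W y) ^ 2 / 2))

/-- the main case -/
def Main (lam ε T δ c : ℝ) (x : EE n) : Prop :=
  0 ≤ dd D.v x ∧ ∃ A : ℝ, c ≤ 2 * D.ch x * D.chd x * A ∧
    ENNReal.ofReal A ≤ ENNReal.ofReal ((1 + 8 * ε) * lam / (2 * √2)) *
      ∫⁻ a in Icc (-T) T, D.gam ε T (pr D.v a x) ∧
    ∀ a, |a| ≤ T → |dd D.v (pr D.v a x) - a| ≤ δ ∧
      ‖ft D.v x - ft D.v (pr D.v a x)‖ ≤ δ * ph0 D.v x

end Dat

/-- shifts along the normal (helper89) -/
def ShiftStmt (n : ℕ) : Prop := ∀ ε : ℝ, 0 < ε → ∃ η : ℝ, 0 < η ∧ ∀ v : EE n → ℝ, Sol v →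
  ∀ (h : ℝ) (g : EE n → ℝ≥0∞), Measurable g →
    ∫⁻ x in {x | ∀ y ∈ closedBall x (2 * |h|), |h| * Bn v y ≤ η}, g (x - h • nn v x) ≤
      ENNReal.ofReal (1 + ε) * ∫⁻ x, g x


theorem continuous_nn {v : EE n → ℝ} (hv : Sol v) : Continuous (nn v) := by
  have := (hv.dd_sm.continuous_fderiv (by simp))
  unfold nn gradient
  fun_prop

theorem measurable_Phi {v : EE n → ℝ} (hv : Sol v) : Measurable (Phi v) := by
  have h1 := continuous_nn hv
  have h2 := hv.sm.continuous
  have hs : ∀ k : ℕ, MeasurableSet {y | 2 ≤ k ∧ v (y + (k : ℝ) • nn v y) < 0} := fun k => by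
    have : IsOpen {y | v (y + (k : ℝ) • nn v y) < 0} := isOpen_lt (by fun_prop) continuous_const
    exact (MeasurableSet.const (2 ≤ k)).inter this.measurableSet
  have h3 : Measurable (mm v) := by
    refine measurable_to_countable' fun k => ?_
    have : mm v ⁻¹' {k} = ({y | 2 ≤ k ∧ v (y + (k : ℝ) • nn v y) < 0} ∩
        ⋂ j : ℕ, ⋂ _ : j < k, {y | 2 ≤ j ∧ v (y + (j : ℝ) • nn v y) < 0}ᶜ) ∪
        ({_y | k = 0} ∩ ⋂ j : ℕ, {y | 2 ≤ j ∧ v (y + (j : ℝ) • nn v y) < 0}ᶜ) := by
      ext y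
      simp only [mem_preimage, mem_singleton_iff, mem_union, mem_inter_iff, mem_iInter,
        mem_compl_iff, mem_ofPred_eq, mm]
      constructor
      · rintro rfl
        rcases eq_empty_or_nonempty {k : ℕ | 2 ≤ k ∧ v (y + (k : ℝ) • nn v y) < 0} with h | h
        · exact Or.inr ⟨by rw [h, Nat.sInf_empty], fun j hj => (h ▸ hj : j ∈ (∅ : Set ℕ))⟩
        · exact Or.inl ⟨Nat.sInf_mem h, fun j hj => Nat.notMem_of_lt_sInf hj⟩
      · rintro (⟨h, h'⟩ | ⟨rfl, h⟩)
        · exact le_antisymm (Nat.sInf_le h) (le_csInf ⟨k, h⟩ fun j hj => not_lt.1 fun a => h' j a hj)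
        · exact Nat.sInf_eq_zero.2 (Or.inr (eq_empty_of_forall_notMem h))
    rw [this]
    exact ((hs k).inter (MeasurableSet.iInter fun j => MeasurableSet.iInter fun _ =>
      (hs j).compl)).union ((MeasurableSet.const _).inter
        (MeasurableSet.iInter fun j => (hs j).compl))
  exact measurable_id.add (((measurable_from_top (f := fun k : ℕ => (k : ℝ))).comp h3).smul
    h1.measurable)

/-- charging through a measurable map -/
theorem charge_map (n : ℕ) {r0 : ℝ} (hr : 0 < r0) : ∃ A : ℝ, 0 < A ∧ ∀ (S T : Set (EE n))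
    (c g : EE n → ℝ) (Ph : EE n → EE n), MeasurableSet T → Measurable g → Measurable Ph →
    (∀ x ∈ S, ∃ y, ∀ y' ∈ ball y r0, y' ∈ T ∧ c x * (1 + ‖x - Ph y'‖) ^ (n + 1) ≤ g y') →
    ∫⁻ x in S, ENNReal.ofReal (c x) ≤ ENNReal.ofReal A * ∫⁻ y in T, ENNReal.ofReal (g y) := by
  set om := volume (ball (0 : EE n) r0)
  have o0 : om ≠ 0 := (measure_ball_pos _ _ hr).ne'
  have o1 : om ≠ ∞ := measure_ball_lt_top.ne
  set κ : EE n → ℝ≥0∞ := fun p => om⁻¹ * ENNReal.ofReal ((1 + ‖p‖) ^ (-((n + 1 : ℕ) : ℝ)))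
  have hm : Measurable fun p : EE n => ENNReal.ofReal ((1 + ‖p‖) ^ (-((n + 1 : ℕ) : ℝ))) := by
    fun_prop
  have hκ : Measurable κ := hm.const_mul _
  have hI : ∫⁻ p, κ p ≠ ∞ := by
    rw [lintegral_const_mul _ hm]
    exact ENNReal.mul_ne_top (ENNReal.inv_ne_top.2 o0)
      (finite_integral_one_add_norm (by simp)).ne
  refine ⟨(∫⁻ p, κ p).toReal + 1, by positivity, fun S T c g Ph hT hg hP h => ?_⟩
  have hg' : Measurable (T.indicator fun y => ENNReal.ofReal (g y)) :=
    hg.ennreal_ofReal.indicator hT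
  set G := T.indicator fun y => ENNReal.ofReal (g y)
  have hm2 : Measurable fun z : EE n × EE n => κ (z.1 - Ph z.2) * G z.2 :=
    (hκ.comp (measurable_fst.sub (hP.comp measurable_snd))).mul (hg'.comp measurable_snd)
  have h1 : ∀ x ∈ S, ENNReal.ofReal (c x) ≤ ∫⁻ y', κ (x - Ph y') * G y' := fun x hx => by
    obtain ⟨y, hy⟩ := h x hx
    calc ENNReal.ofReal (c x) = ∫⁻ _ in ball y r0, om⁻¹ * ENNReal.ofReal (c x) := by
          rw [setLIntegral_const, Measure.addHaar_ball_center, mul_right_comm,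
            ENNReal.inv_mul_cancel o0 o1, one_mul]
      _ ≤ ∫⁻ y' in ball y r0, κ (x - Ph y') * G y' := by
          refine setLIntegral_mono' measurableSet_ball fun y' hy' => ?_
          have h0 : 0 < 1 + ‖x - Ph y'‖ := by positivity
          rw [show G y' = _ from indicator_of_mem (hy y' hy').1 _, mul_assoc,
            ← ENNReal.ofReal_mul (by positivity), Real.rpow_neg h0.le, Real.rpow_natCast]
          refine mul_le_mul_right (ENNReal.ofReal_le_ofReal ?_) _
          rw [← div_eq_inv_mul, le_div_iff₀ (by positivity)]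
          exact (hy y' hy').2
      _ ≤ _ := setLIntegral_le_lintegral _ _
  refine (setLIntegral_mono hm2.lintegral_prod_right' h1).trans
    ((setLIntegral_le_lintegral _ _).trans ?_)
  rw [lintegral_lintegral_swap hm2.aemeasurable]
  have h2 : ∀ y, ∫⁻ x, κ (x - Ph y) * G y = (∫⁻ p, κ p) * G y := fun y => by
    rw [← lintegral_sub_right_eq_self κ (Ph y)]
    exact lintegral_mul_const (f := fun x => κ (x - Ph y)) (G y) (by fun_prop)
  simp only [h2]
  rw [lintegral_const_mul _ hg', lintegral_indicator hT]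
  refine mul_le_mul_left ?_ _
  rw [← ENNReal.ofReal_toReal hI, ENNReal.toReal_ofReal ENNReal.toReal_nonneg]
  exact ENNReal.ofReal_le_ofReal (by linarith)

/-- the profile of the cut -/
def kc (u : ℝ) : ℝ := 2 * Real.smoothTransition (1 - u) * deriv Real.smoothTransition (1 - u)

theorem continuous_dST : Continuous (deriv Real.smoothTransition) :=
  (Real.smoothTransition.contDiff (n := 1)).continuous_deriv le_rfl

theorem continuous_kc : Continuous kc := by
  have := continuous_dST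
  have := Real.smoothTransition.continuous
  unfold kc
  fun_prop

theorem kc_nonneg (u : ℝ) : 0 ≤ kc u :=
  mul_nonneg (mul_nonneg zero_le_two (Real.smoothTransition.nonneg _))
    Real.smoothTransition.monotone.deriv_nonneg

theorem int_kc : ∫ u in (-1 : ℝ)..2, kc u = 1 := by
  have hd : ∀ u ∈ uIcc (-1 : ℝ) 2,
      HasDerivAt (fun u => -(Real.smoothTransition (1 - u) ^ 2)) (kc u) u := fun u _ => by
    have h1 : HasDerivAt Real.smoothTransition (deriv Real.smoothTransition (1 - u)) (1 - u) :=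
      ((Real.smoothTransition.contDiff (n := 1)).differentiable one_ne_zero _).hasDerivAt
    have h2 := ((h1.comp u ((hasDerivAt_id' u).const_sub 1)).pow 2).neg
    exact h2.congr_deriv (by simp [kc])
  rw [intervalIntegral.integral_eq_sub_of_hasDerivAt hd (continuous_kc.intervalIntegrable _ _),
    Real.smoothTransition.zero_of_nonpos (by norm_num),
    Real.smoothTransition.one_of_one_le (by norm_num)]
  norm_num

theorem exists_kc_le : ∃ L : ℝ, 1 ≤ L ∧ ∀ u ∈ Icc (0 : ℝ) 1, kc u ≤ L := by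
  obtain ⟨L, hL⟩ := isCompact_Icc.bddAbove_image (continuous_kc.continuousOn (s := Icc (0 : ℝ) 1))
  exact ⟨max L 1, le_max_right _ _, fun u hu => le_max_of_le_left (hL ⟨u, hu, rfl⟩)⟩

/-- the majorant of the profile -/
theorem exists_kb {η : ℝ} (hη : 0 < η) : ∃ δ : ℝ, 0 < δ ∧ δ ≤ 1 ∧ ∃ kb : ℝ → ℝ≥0∞, Measurable kb ∧
    ∫⁻ u, kb u ≤ ENNReal.ofReal (1 + η) ∧
    ∀ u u', u ∈ Icc (0 : ℝ) 1 → |u - u'| ≤ δ → ENNReal.ofReal (kc u) ≤ kb u' := by
  obtain ⟨δ, hδ, h⟩ := Metric.uniformContinuousOn_iff_le.1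
    ((isCompact_Icc (a := (-1 : ℝ)) (b := 2)).uniformContinuousOn_of_continuous
      continuous_kc.continuousOn) (η / 3) (by positivity)
  have hc : Continuous fun u => kc u + η / 3 := continuous_kc.add continuous_const
  refine ⟨min δ 1, lt_min hδ one_pos, min_le_right _ _,
    (Icc (-1) 2).indicator fun u => ENNReal.ofReal (kc u + η / 3),
    hc.measurable.ennreal_ofReal.indicator measurableSet_Icc, ?_, fun u u' hu h1 => ?_⟩
  · rw [lintegral_indicator measurableSet_Icc, ← ofReal_integral_eq_lintegral_ofReal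
      (hc.integrableOn_Icc) (Eventually.of_forall fun u => by
        have := kc_nonneg u; show 0 ≤ kc u + η / 3; positivity),
      integral_Icc_eq_integral_Ioc, ← intervalIntegral.integral_of_le (by norm_num),
      intervalIntegral.integral_add (continuous_kc.intervalIntegrable _ _)
        (continuous_const.intervalIntegrable _ _), int_kc, intervalIntegral.integral_const]
    refine ENNReal.ofReal_le_ofReal (le_of_eq ?_)
    rw [smul_eq_mul]; ring
  · obtain ⟨a1, a2⟩ := abs_le.1 (h1.trans (min_le_right _ _))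
    have hu' : u' ∈ Icc (-1 : ℝ) 2 := ⟨by linarith [hu.1], by linarith [hu.2]⟩
    have h2 := h u ⟨by linarith [hu.1], by linarith [hu.2]⟩ u' hu' (h1.trans (min_le_left _ _))
    rw [indicator_of_mem hu']
    exact ENNReal.ofReal_le_ofReal (by linarith [(abs_le.1 h2).2])

/-- Tonelli for the shifts -/
theorem sharp {p : EE n → ℝ → EE n} (hp : Measurable fun z : EE n × ℝ => p z.1 z.2)
    {A : Set (EE n × ℝ)} (hA : MeasurableSet A) {J : ℝ≥0∞}
    (hsh : ∀ (h : ℝ) (g : EE n → ℝ≥0∞), Measurable g →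
      ∫⁻ x in {x | (x, h) ∈ A}, g (p x h) ≤ J * ∫⁻ x, g x)
    {b : EE n → ℝ} (hb : Measurable b) {γ : EE n → ℝ≥0∞} (hγ : Measurable γ) {kb : ℝ → ℝ≥0∞}
    (hk : Measurable kb) {V : Set (EE n)} {c : EE n → ℝ≥0∞}
    (hV : ∀ x ∈ V, c x ≤ ∫⁻ h in {h | (x, h) ∈ A}, kb (b (p x h) + h) * γ (p x h)) :
    ∫⁻ x in V, c x ≤ J * ((∫⁻ u, kb u) * ∫⁻ x, γ x) := by
  set F : EE n × ℝ → ℝ≥0∞ := A.indicator fun z => kb (b (p z.1 z.2) + z.2) * γ (p z.1 z.2)
  have hF : Measurable F :=
    ((hk.comp ((hb.comp hp).add measurable_snd)).mul (hγ.comp hp)).indicator hA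
  have hG : Measurable fun z : EE n × ℝ => kb (b z.1 + z.2) * γ z.1 :=
    (hk.comp ((hb.comp measurable_fst).add measurable_snd)).mul (hγ.comp measurable_fst)
  have h1 : ∀ x ∈ V, c x ≤ ∫⁻ h, F (x, h) := fun x hx => (hV x hx).trans_eq (by
    rw [← lintegral_indicator (s := {h | (x, h) ∈ A}) (measurable_prodMk_left hA)]; rfl)
  refine (setLIntegral_mono hF.lintegral_prod_right' h1).trans
    ((setLIntegral_le_lintegral _ _).trans ?_)
  rw [lintegral_lintegral_swap (f := fun x h => F (x, h)) hF.aemeasurable]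
  have h2 : ∀ h, ∫⁻ x, F (x, h) ≤ J * ∫⁻ x, kb (b x + h) * γ x := fun h =>
    le_of_eq_of_le (by
      rw [← lintegral_indicator (s := {x | (x, h) ∈ A}) (measurable_prodMk_right hA)]; rfl)
      (hsh h (fun x => kb (b x + h) * γ x) (hG.comp measurable_prodMk_right))
  refine (lintegral_mono h2).trans_eq ?_
  rw [lintegral_const_mul _ hG.lintegral_prod_left',
    ← lintegral_lintegral_swap (f := fun x h => kb (b x + h) * γ x) hG.aemeasurable,
    ← lintegral_const_mul _ hγ]
  congr 1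
  refine lintegral_congr fun x => ?_
  rw [lintegral_mul_const (f := fun h => kb (b x + h)) _ (hk.comp (measurable_const_add _)),
    lintegral_add_left_eq_self]

end

end Crest.Agent.N067.M
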