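import Crest.Agent.N067.M.FlatU
import Crest.Agent.N067.U.Ue

/-!
# Row 67 (helper1): lower bounds of `t`

If a paraboloid of opening `c` does not fit below `d` at `x` then on the chord there is a first
point `y` with `|B| ≥ δ c`, and `|x - y| + |d y| ≤ |d x| + (2 + 8 δ) / c`.  The sharp Harnack
inequality of `q = ψ t` gives the bound.
-/

set_option autoImplicit false
set_option linter.dupNamespace false

open MeasureTheory Laplacian InnerProductSpace Topology Filter Set Metric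
open scoped RealInnerProductSpace Gradient ContDiff ENNReal

namespace Crest.Agent.N067.M

open Crest.Agent.R077 Crest.Agent.N067.V Crest.Agent.N067.Y

noncomputable section

variable {n : ℕ} {v : EE n → ℝ} {x : EE n}

/-- one-dimensional Taylor bound from below -/
theorem taylor_low {g g1 g2 : ℝ → ℝ} (h1 : ∀ s, HasDerivAt g (g1 s) s)
    (h2 : ∀ s, HasDerivAt g1 (g2 s) s) {m τ : ℝ} (hτ : 0 ≤ τ)
    (h : ∀ s ∈ Ioo 0 τ, -m ≤ g2 s) : g 0 + g1 0 * τ - m * τ ^ 2 / 2 ≤ g τ := by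
  have a1 : ∀ s, HasDerivAt (fun s => g1 s + m * s) (g2 s + m) s := fun s =>
    ((h2 s).add ((hasDerivAt_id s).const_mul m)).congr_deriv (by rw [mul_one])
  have m1 : MonotoneOn (fun s => g1 s + m * s) (Icc 0 τ) :=
    monotoneOn_of_deriv_nonneg (convex_Icc 0 τ)
      (fun s _ => (a1 s).continuousAt.continuousWithinAt)
      (fun s _ => (a1 s).differentiableAt.differentiableWithinAt) fun s hs => by
        rw [interior_Icc] at hs
        rw [(a1 s).deriv]
        linarith [h s hs]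
  have a2 : ∀ s, HasDerivAt (fun s => g s - g1 0 * s + m * s ^ 2 / 2) (g1 s - g1 0 + m * s) s :=
    fun s => by
      have := ((h1 s).sub ((hasDerivAt_id s).const_mul (g1 0))).add
        (((hasDerivAt_pow 2 s).const_mul m).div_const 2)
      refine (this.congr_deriv ?_)
      simp only [Nat.cast_ofNat, Nat.add_one_sub_one, pow_one]
      ring
  have m2 : MonotoneOn (fun s => g s - g1 0 * s + m * s ^ 2 / 2) (Icc 0 τ) :=
    monotoneOn_of_deriv_nonneg (convex_Icc 0 τ)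
      (fun s _ => (a2 s).continuousAt.continuousWithinAt)
      (fun s _ => (a2 s).differentiableAt.differentiableWithinAt) fun s hs => by
        rw [interior_Icc] at hs
        rw [(a2 s).deriv]
        have := m1 ⟨le_rfl, hτ⟩ ⟨hs.1.le, hs.2.le⟩ hs.1.le
        simp only [mul_zero, add_zero] at this
        linarith
  have := m2 ⟨le_rfl, hτ⟩ ⟨hτ, le_rfl⟩ hτ
  simp only [mul_zero, sub_zero, ne_eq, OfNat.ofNat_ne_zero, not_false_eq_true, zero_pow,
    zero_div, add_zero] at this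
  linarith

/-- the first curved point of a failing chord -/
theorem first_curved {g g1 g2 : ℝ → ℝ} (h1 : ∀ s, HasDerivAt g (g1 s) s)
    (h2 : ∀ s, HasDerivAt g1 (g2 s) s) (c2 : Continuous g2) (lip : ∀ a b, |g a - g b| ≤ |a - b|)
    (hα : |g1 0| ≤ 1) {c δ s : ℝ} (hc : 0 < c) (hδ : 0 < δ) (hδ1 : δ ≤ 1) (hs : 0 ≤ s)
    (h : c / 2 * s ^ 2 < g 0 + g1 0 * s - g s) :
    ∃ τ, 0 ≤ τ ∧ g2 τ ≤ -(δ * c) ∧ τ + |g τ| ≤ |g 0| + (2 + 8 * δ) / c := by
  set S := {τ ∈ Icc 0 s | g2 τ ≤ -(δ * c)} with hS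
  have hne : S.Nonempty := by
    by_contra hS0
    have := taylor_low h1 h2 (m := c) hs fun τ hτ => by
      by_contra hlt
      exact hS0 ⟨τ, ⟨hτ.1.le, hτ.2.le⟩, by nlinarith [not_le.1 hlt]⟩
    linarith
  have hcp : IsCompact S := isCompact_Icc.inter_right (isClosed_le c2 continuous_const)
  obtain ⟨τ, ⟨⟨h0, hτs⟩, hg⟩, hmin⟩ := hcp.exists_isLeast hne
  refine ⟨τ, h0, hg, ?_⟩
  have lo := taylor_low h1 h2 (m := δ * c) h0 fun σ hσ => by
    by_contra hlt
    exact absurd (hmin ⟨⟨hσ.1.le, hσ.2.le.trans hτs⟩, (not_le.1 hlt).le⟩) (not_le.2 hσ.2)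
  obtain ⟨a1, a2⟩ := abs_le.1 hα
  set α := g1 0
  have l1 := (abs_le.1 (lip 0 s)).2
  rw [zero_sub, abs_neg, abs_of_nonneg hs] at l1
  have l2 := (abs_le.1 (lip τ s)).2
  rw [abs_of_nonpos (by linarith : τ - s ≤ 0)] at l2
  have hs0 : 0 < s := hs.lt_of_ne fun e => by subst e; simp at h
  have hcs : c * s ≤ 2 * (1 + α) := by
    by_contra hlt
    nlinarith [not_le.1 hlt]
  have hcτ : c * τ ≤ 2 * (1 + α) := by nlinarith
  have hcτ0 : 0 ≤ c * τ := by positivity
  rw [← sub_le_iff_le_add', le_div_iff₀ hc]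
  have g1' := le_abs_self (g 0)
  have g2' := neg_abs_le (g 0)
  rcases abs_cases (g τ) with ⟨e, _⟩ | ⟨e, _⟩ <;> rw [e]
  · have : (τ + g τ - |g 0|) * c ≤ ((1 + α) * s - c / 2 * s ^ 2) * c :=
      mul_le_mul_of_nonneg_right (by linarith) hc.le
    nlinarith [sq_nonneg (c * s - (1 + α))]
  · have : (τ + -g τ - |g 0|) * c ≤ ((1 - α) * τ + δ * c * τ ^ 2 / 2) * c :=
      mul_le_mul_of_nonneg_right (by linarith) hc.le
    have b1 : (1 - α) * (c * τ) ≤ 2 := by nlinarith [sq_nonneg α]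
    have b2 : (c * τ) ^ 2 ≤ 16 := by nlinarith
    nlinarith

/-- the core estimate -/
theorem tl_core (n : ℕ) {a : ℝ} (ha : √2 < a) : ∃ K : ℝ, 1 ≤ K ∧ ∀ v : EE n → ℝ, Sol v →
    ∀ (x p : EE n) (c δ : ℝ), 0 < c → 0 < δ → δ ≤ 1 → c / 2 * ‖p‖ ^ 2 < tay (dd v) p x →
      (δ * c) ^ 2 ≤ K * Real.exp (a * (|dd v x| + (2 + 8 * δ) / c)) * qq v x := by
  obtain ⟨C, hC, hB⟩ := hk_B n 0
  obtain ⟨K, hK, hq⟩ := hk_q_rate n ha
  refine ⟨C ^ 2 * K + 1, by nlinarith [mul_nonneg (sq_nonneg C) hK], ?_⟩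
  intro v hv x p c δ hc hδ hδ1 h
  have hp : p ≠ 0 := fun e => by subst e; simp [tay] at h
  have hs : 0 < ‖p‖ := norm_pos_iff.2 hp
  set e : EE n := ‖p‖⁻¹ • p with he
  have e1 : ‖e‖ = 1 := by rw [he, norm_smul, norm_inv, norm_norm, inv_mul_cancel₀ hs.ne']
  have ep : ‖p‖ • e = p := by rw [he, smul_smul, mul_inv_cancel₀ hs.ne', one_smul]
  have dl : ∀ s : ℝ, HasDerivAt (fun s : ℝ => x + s • e) e s := fun s => by
    simpa using ((hasDerivAt_id s).smul_const e).const_add x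
  have sm := hv.dd_sm
  have h1 : ∀ s : ℝ, HasDerivAt (fun s : ℝ => dd v (x + s • e)) (dr e (dd v) (x + s • e)) s :=
    fun s => ((sm.differentiable (by simp) _).hasFDerivAt).comp_hasDerivAt s (dl s)
  have h2 : ∀ s : ℝ, HasDerivAt (fun s : ℝ => dr e (dd v) (x + s • e))
      (dr e (dr e (dd v)) (x + s • e)) s :=
    fun s => (((dr_sm sm e).differentiable (by simp) _).hasFDerivAt).comp_hasDerivAt s (dl s)
  have c2 : Continuous fun s : ℝ => dr e (dr e (dd v)) (x + s • e) :=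
    (dr_sm (dr_sm sm e) e).continuous.comp (by fun_prop)
  obtain ⟨τ, h0, hg, hτ⟩ := first_curved h1 h2 c2 (fun a b => by
      refine (hv.abs_dd_sub_le _ _).trans (le_of_eq ?_)
      rw [add_sub_add_left_eq_sub, ← sub_smul, norm_smul, e1, mul_one, Real.norm_eq_abs])
    (by
      rw [zero_smul, add_zero, dr, ← inner_grad]
      exact (abs_real_inner_le_norm _ _).trans (by
        rw [e1, mul_one]; exact hv.norm_grad_dd_le x)) hc hδ hδ1 hs.le (by
      rw [zero_smul, add_zero, ep, dr, mul_comm _ ‖p‖, ← smul_eq_mul ‖p‖, ← map_smul, ep]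
      exact h)
  simp only [zero_smul, add_zero] at hτ
  set y := x + τ • e with hy
  have hxy : dist y x = τ := by
    rw [dist_eq_norm, hy, add_sub_cancel_left, norm_smul, e1, mul_one, Real.norm_of_nonneg h0]
  have b1 : δ * c ≤ C * √(tt v y) := by
    have e2 : dr e (dr e (dd v)) y = hb (dd v) y e e := fderiv_dr (c2_of sm y) e e
    have e3 : |hb (dd v) y e e| ≤ ‖hb (dd v) y‖ := by
      simpa [e1] using (hb (dd v) y).le_opNorm₂ e e
    have e4 := hB v hv y
    rw [zero_add, ← norm_hb] at e4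
    rw [e2] at hg
    linarith [neg_abs_le (hb (dd v) y e e)]
  have b2 : (δ * c) ^ 2 ≤ C ^ 2 * tt v y := by
    have := pow_le_pow_left₀ (by positivity) b1 2
    rwa [mul_pow C, Real.sq_sqrt (hv.tt_nonneg y)] at this
  have b3 : tt v y ≤ Real.exp (a * |dd v y|) * qq v y := by
    have e1 := hv.exp_le_psi y
    have e2 : 1 ≤ Real.exp (a * |dd v y|) * psi v y := by
      refine le_trans ?_ (mul_le_mul_of_nonneg_left e1 (Real.exp_pos _).le)
      rw [← Real.exp_add]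
      exact Real.one_le_exp (by nlinarith [abs_nonneg (dd v y)])
    rw [qq, ← mul_assoc]
    nlinarith [hv.tt_nonneg y]
  have b4 := hq v hv y x
  rw [hxy] at b4
  have a0 : 0 < a := sqrt2_pos.trans ha
  have b5 : Real.exp (a * |dd v y|) * Real.exp (a * τ) ≤
      Real.exp (a * (|dd v x| + (2 + 8 * δ) / c)) := by
    rw [← Real.exp_add]
    exact Real.exp_le_exp.2 (by nlinarith)
  have q0 := hv.qq_nonneg x
  set E := Real.exp (a * (|dd v x| + (2 + 8 * δ) / c))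
  have E0 : 0 < E := Real.exp_pos _
  calc (δ * c) ^ 2 ≤ C ^ 2 * (Real.exp (a * |dd v y|) * (K * Real.exp (a * τ) * qq v x)) :=
        b2.trans (mul_le_mul_of_nonneg_left (b3.trans
          (mul_le_mul_of_nonneg_left b4 (Real.exp_pos _).le)) (sq_nonneg C))
    _ = C ^ 2 * K * (Real.exp (a * |dd v y|) * Real.exp (a * τ)) * qq v x := by ring
    _ ≤ C ^ 2 * K * E * qq v x := by gcongr
    _ ≤ (C ^ 2 * K + 1) * E * qq v x := by gcongr; linarith

theorem qq_le_tt (hv : Sol v) (x : EE n) : qq v x ≤ tt v x := by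
  have := psi_le_one v x
  have := hv.tt_nonneg x
  rw [qq]; nlinarith

/-- the core estimate in terms of `φ₊` -/
theorem tl_phi (n : ℕ) {a : ℝ} (ha : √2 < a) : ∃ K : ℝ, 1 ≤ K ∧ ∀ v : EE n → ℝ, Sol v →
    ∀ (x : EE n) (c δ : ℝ), 0 < c → 0 < δ → δ ≤ 1 → c < phi (dd v) x →
      (δ * c) ^ 2 ≤ K * Real.exp (a * (|dd v x| + (2 + 8 * δ) / c)) * qq v x := by
  obtain ⟨K, hK, h⟩ := tl_core n ha
  refine ⟨K, hK, fun v hv x c δ hc hδ hδ1 hlt => ?_⟩
  have := (phi_le_iff (x := x) hv hc.le).not.1 (not_le.2 hlt)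
  push Not at this
  obtain ⟨p, hp⟩ := this
  exact h v hv x p c δ hc hδ hδ1 hp

/-- crude lower bound of `q` at every depth -/
theorem qlo (n : ℕ) : ∃ C : ℝ, 1 ≤ C ∧ ∀ v : EE n → ℝ, Sol v → ∀ x, 0 < ph0 v x →
    Real.exp (-(C / ph0 v x) - C * (1 + |dd v x|)) ≤ qq v x := by
  have h2 : √2 < (2 : ℝ) := by
    rw [Real.sqrt_lt' two_pos]; norm_num
  obtain ⟨K, hK, h⟩ := tl_phi n h2
  refine ⟨4 * K + 42, by linarith, fun v hv x h0 => ?_⟩
  set φ := ph0 v x with hφ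
  have key : (1 * (φ / 2)) ^ 2 ≤ K * Real.exp (2 * (|dd v x| + (2 + 8 * 1) / (φ / 2))) * qq v x := by
    rcases le_total (phi (dd v) x) (phi (dd (ng v)) x) with hle | hle
    · have e : φ = phi (dd (ng v)) x := max_eq_right hle
      have := h (ng v) (sol_ng hv) x (φ / 2) 1 (by positivity) one_pos le_rfl (by linarith)
      rwa [dd_ng hv, abs_neg, qq, psi_ng, tt_ng hv] at this
    · have e : φ = phi (dd v) x := max_eq_left hle
      exact h v hv x (φ / 2) 1 (by positivity) one_pos le_rfl (by linarith)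
  set D := |dd v x|
  have D0 : 0 ≤ D := abs_nonneg _
  have e1 : Real.exp (-(1 / φ)) ≤ φ := by
    rw [Real.exp_neg, inv_le_comm₀ (Real.exp_pos _) h0]
    have := Real.add_one_le_exp (1 / φ)
    rw [one_div] at this ⊢
    linarith
  have e2 : 4 * K ≤ Real.exp (4 * K) := by linarith [Real.add_one_le_exp (4 * K)]
  set E := Real.exp (2 * (D + (2 + 8 * 1) / (φ / 2)))
  have E0 : 0 < E := Real.exp_pos _
  refine le_of_mul_le_mul_left (le_trans ?_ key) (by positivity : 0 < K * E)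
  have e3 : Real.exp (4 * K) * E * Real.exp (-((4 * K + 42) / φ) - (4 * K + 42) * (1 + D)) ≤
      Real.exp (-(1 / φ)) ^ 2 := by
    rw [← Real.exp_add, ← Real.exp_add, ← Real.exp_nat_mul]
    refine Real.exp_le_exp.2 ?_
    have i0 : 0 < φ⁻¹ := inv_pos.2 h0
    have e5 : (2 + 8 * 1) / (φ / 2) = 20 * φ⁻¹ := by field_simp; norm_num
    rw [e5, div_eq_mul_inv (4 * K + 42), one_div]
    push_cast
    nlinarith [mul_nonneg (by linarith : 0 ≤ K) D0, mul_pos (by linarith : 0 < K) i0]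
  have e4 := pow_le_pow_left₀ (Real.exp_pos _).le e1 2
  set F := Real.exp (-((4 * K + 42) / φ) - (4 * K + 42) * (1 + D))
  have F0 : 0 < F := Real.exp_pos _
  nlinarith [mul_le_mul_of_nonneg_right e2 (mul_pos E0 F0).le]

/-- the field `tlo` of `FLStmt` -/
theorem tlo (n : ℕ) (T : ℝ) : ∃ C : ℝ, 1 ≤ C ∧ ∀ v : EE n → ℝ, Sol v → ∀ x, 0 < ph0 v x →
    |dd v x| ≤ T → Real.exp (-(C / ph0 v x) - C) ≤ tt v x := by
  obtain ⟨C, hC, h⟩ := qlo n
  refine ⟨C * (1 + |T|), by nlinarith [abs_nonneg T], fun v hv x h0 hT => ?_⟩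
  refine le_trans (Real.exp_le_exp.2 ?_) ((h v hv x h0).trans (qq_le_tt hv x))
  have e1 : C / ph0 v x ≤ C * (1 + |T|) / ph0 v x :=
    div_le_div_of_nonneg_right (by nlinarith [abs_nonneg T]) h0.le
  have e2 : C * (1 + |dd v x|) ≤ C * (1 + |T|) :=
    mul_le_mul_of_nonneg_left (by linarith [le_abs_self T]) (by linarith)
  linarith

/-- a failing size gives a failing paraboloid -/
theorem lt_phi_of_not_fit (hv : Sol v) {β : Bo} {r : ℝ} (hN : 0 < NN v x) (hr : |dd v x| < r)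
    (h : ¬ Fit β v x r) : NN v x / (r - dd v x) < phi (dd v) x := by
  have hL : 0 < r - dd v x := by linarith [le_abs_self (dd v x)]
  have hr0 : 0 < r := (abs_nonneg _).trans_lt hr
  by_contra hle
  refine h fun w hw z => ?_
  have h1 := (phi_le_iff hv (div_pos hN hL).le).1 (not_lt.1 hle) (z - x)
  set L := r - dd v x with hLe
  set p := z - x with hp
  have hν : ‖nu v x‖ = 1 := by
    rw [nu, norm_smul, norm_inv, Real.norm_of_nonneg hN.le]
    exact inv_mul_cancel₀ hN.ne'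
  have e1 : ‖p - L • nu v x‖ ≤ ‖z - cen v x r w‖ + β.η * r := by
    have : p - L • nu v x = (z - cen v x r w) + r • w := by
      rw [hp, cen, ← hLe]; abel
    rw [this]
    refine (norm_add_le _ _).trans (add_le_add le_rfl ?_)
    rw [norm_smul, Real.norm_of_nonneg hr0.le, mul_comm]
    exact mul_le_mul_of_nonneg_right hw.1 hr0.le
  have e2 := pow_le_pow_left₀ (norm_nonneg _) e1 2
  rw [norm_sub_sq_real, norm_smul, hν, real_inner_smul_right, Real.norm_of_nonneg hL.le,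
    mul_one] at e2
  have e3 : fderiv ℝ (dd v) x p = NN v x * ⟪p, nu v x⟫ := by
    rw [nu, real_inner_smul_right, ← mul_assoc, mul_inv_cancel₀ hN.ne', one_mul, real_inner_comm,
      nn, inner_grad]
  rw [tay, e3, hp, add_sub_cancel, ← hp] at h1
  rw [PP, gp, ← hLe]
  have e4 : NN v x * (L ^ 2 - (‖z - cen v x r w‖ + β.η * r) ^ 2) / (2 * L) ≤
      NN v x * ⟪p, nu v x⟫ - NN v x / L / 2 * ‖p‖ ^ 2 := by
    rw [div_le_iff₀ (by positivity)]
    have : (NN v x * ⟪p, nu v x⟫ - NN v x / L / 2 * ‖p‖ ^ 2) * (2 * L) =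
        NN v x * (2 * (L * ⟪p, nu v x⟫) - ‖p‖ ^ 2) := by field_simp
    rw [this]
    exact mul_le_mul_of_nonneg_left (by linarith) hN.le
  linarith

theorem exists_fail {β : Bo} {ρm e : ℝ} (h : rt β v ρm x < ρm) (he : 0 < e) :
    ∃ r, |dd v x| < r ∧ ¬ Fit β v x r ∧ r < rt β v ρm x + e := by
  obtain ⟨r, hr, hlt⟩ := exists_lt_of_csInf_lt (s := {r | |dd v x| < r ∧ ¬ Fit β v x r} ∪ {ρm})
    ⟨ρm, Or.inr rfl⟩ (lt_min h (lt_add_of_pos_right _ he))
  rcases hr with hr | hr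
  · exact ⟨r, hr.1, hr.2, hlt.trans_le (min_le_right _ _)⟩
  · exact absurd (hlt.trans_le (min_le_left _ _)) (by rw [mem_singleton_iff.1 hr]; exact lt_irrefl _)

theorem tl_num0 {δ N L r T' : ℝ} (δ0 : 0 < δ) (δ1 : δ ≤ 1 / 16) (N3 : 1 - δ ≤ N) (L0 : 0 < L)
    (Lr : L ≤ r + T') (rT : T' ≤ r) (T1 : 1 ≤ T') :
    1 / (N / L) ≤ (1 + 2 * δ) * (r + T') ∧ 1 ≤ 4 * r * (N / L) := by
  have ic : 1 / (N / L) ≤ (1 + 2 * δ) * (r + T') := by
    rw [one_div_div, div_le_iff₀ (by linarith)]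
    have : 1 ≤ (1 + 2 * δ) * N := by nlinarith
    nlinarith
  have c0 : 0 < N / L := div_pos (by linarith) L0
  refine ⟨ic, ?_⟩
  rw [div_le_iff₀ c0] at ic
  have : (1 + 2 * δ) * (r + T') ≤ 4 * r := by nlinarith
  nlinarith

theorem tl_num {δ ε K T' D r c t : ℝ} (δ0 : 0 < δ) (δ1 : δ ≤ 1 / 16) (δε : 16 * δ ≤ ε) (hε : 0 < ε)
    (hK : 1 ≤ K) (T1 : 1 ≤ T') (d1 : D ≤ T' - 1) (r1 : 1 ≤ r)
    (rA : K * Real.exp ((3 + 3 * (2 + ε)) * T') * 96 / (δ ^ 2 * ε ^ 3) ≤ r)
    (ic : 1 / c ≤ (1 + 2 * δ) * (r + T')) (cr : 1 ≤ 4 * r * c)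
    (key : (δ * c) ^ 2 ≤ K * Real.exp (√2 * (1 + δ) * (D + (2 + 8 * δ) / c)) * t) :
    Real.exp (-(2 * √2 * (1 + ε) * r)) ≤ t := by
  have s1 : 1 < √2 := by rw [Real.lt_sqrt one_pos.le]; norm_num
  have s2 : √2 < (2 : ℝ) := by rw [Real.sqrt_lt' two_pos]; norm_num
  have ex : √2 * (1 + δ) * (D + (2 + 8 * δ) / c) - 2 * √2 * (1 + ε) * r ≤
      (3 + 3 * (2 + ε)) * T' - ε * r := by
    have e1 : (1 + δ) * ((2 + 8 * δ) * (1 + 2 * δ)) ≤ 2 + ε := by nlinarith [mul_pos δ0 δ0]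
    have e2 : (2 + 8 * δ) / c ≤ (2 + 8 * δ) * (1 + 2 * δ) * (r + T') := by
      rw [div_eq_mul_one_div, mul_assoc]
      exact mul_le_mul_of_nonneg_left ic (by linarith)
    have e3 : (1 + δ) * ((2 + 8 * δ) / c) ≤ (2 + ε) * (r + T') := by
      refine (mul_le_mul_of_nonneg_left e2 (by linarith)).trans ?_
      rw [← mul_assoc]
      exact mul_le_mul_of_nonneg_right e1 (by linarith)
    have e4 : (1 + δ) * D ≤ 3 / 2 * T' := by nlinarith
    have e5 : √2 * ((1 + δ) * D + (1 + δ) * ((2 + 8 * δ) / c)) ≤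
        √2 * (3 / 2 * T' + (2 + ε) * (r + T')) :=
      mul_le_mul_of_nonneg_left (by linarith) (by linarith)
    have e6 : √2 * T' ≤ 2 * T' := by nlinarith
    have e7 : ε * r ≤ √2 * (ε * r) := le_mul_of_one_le_left (by positivity) s1.le
    have e8 : ε * (√2 * T') ≤ ε * (2 * T') := mul_le_mul_of_nonneg_left e6 hε.le
    nlinarith [mul_pos hε (by linarith : 0 < T')]
  set E := Real.exp (√2 * (1 + δ) * (D + (2 + 8 * δ) / c))
  have E0 : 0 < E := Real.exp_pos _
  refine le_of_mul_le_mul_left (le_trans ?_ key) (by positivity : 0 < K * E)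
  have f1 : E * Real.exp (-(2 * √2 * (1 + ε) * r)) ≤
      Real.exp ((3 + 3 * (2 + ε)) * T') * Real.exp (-(ε * r)) := by
    rw [← Real.exp_add, ← Real.exp_add]
    exact Real.exp_le_exp.2 (by linarith)
  have f2 : Real.exp (-(ε * r)) ≤ 6 / (ε * r) ^ 3 := by
    have := Real.pow_div_factorial_le_exp (ε * r) (by positivity) 3
    rw [Real.exp_neg, inv_le_comm₀ (Real.exp_pos _) (by positivity), inv_div]
    simpa [Nat.factorial] using this
  set G := Real.exp ((3 + 3 * (2 + ε)) * T')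
  have G0 : 0 < G := Real.exp_pos _
  have f3 : K * (G * (6 / (ε * r) ^ 3)) = K * G * 96 / (δ ^ 2 * ε ^ 3) / r * (δ / (4 * r)) ^ 2 := by
    field_simp; norm_num
  have f4 : δ / (4 * r) ≤ δ * c := by
    rw [div_le_iff₀ (by positivity)]; nlinarith
  calc K * E * Real.exp (-(2 * √2 * (1 + ε) * r)) ≤ K * (G * (6 / (ε * r) ^ 3)) := by
        rw [mul_assoc]
        exact mul_le_mul_of_nonneg_left (f1.trans (mul_le_mul_of_nonneg_left f2 G0.le))
          (by linarith)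
    _ ≤ 1 * (δ * c) ^ 2 := by
        rw [f3]
        exact mul_le_mul ((div_le_one (by linarith)).2 rA)
          (pow_le_pow_left₀ (by positivity) f4 2) (by positivity) zero_le_one
    _ = _ := one_mul _

/-- the sharp lower bound at depth at most `T` -/
theorem tlow' (n : ℕ) (ε T : ℝ) (hε : 0 < ε) : ∃ M : ℝ, 1 ≤ M ∧ ∀ (β : Bo) (v : EE n → ℝ) (ρm : ℝ),
    Sol v → Stable v → ∀ x, ph0 v x ≤ 1 / M → |dd v x| ≤ T → rt β v ρm x < ρm →
      Real.exp (-(2 * √2 * (1 + ε) * rt β v ρm x)) ≤ tt v x := by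
  obtain ⟨δ, δ0, δ1, δε⟩ : ∃ δ : ℝ, 0 < δ ∧ δ ≤ 1 / 16 ∧ 16 * δ ≤ ε :=
    ⟨min ε 1 / 16, by positivity, by linarith [min_le_right ε 1], by linarith [min_le_left ε 1]⟩
  have s1 : 1 < √2 := by rw [Real.lt_sqrt one_pos.le]; norm_num
  have s2 : √2 < (2 : ℝ) := by rw [Real.sqrt_lt' two_pos]; norm_num
  obtain ⟨K, hK, h⟩ := tl_phi n (a := √2 * (1 + δ)) (by nlinarith)
  obtain ⟨k0, hk, hN⟩ := flatU n
  set T' := |T| + 1 with hT'
  have T1 : 1 ≤ T' := by linarith [abs_nonneg T]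
  set A := K * Real.exp ((3 + 3 * (2 + ε)) * T') * 96 / (δ ^ 2 * ε ^ 3) with hA
  have A0 : 0 < A := by positivity
  set r0 := A + T' + 1 / δ with hr0
  have i0 : 0 < 1 / δ := by positivity
  refine ⟨2 * (r0 + T') + 1 / k0 + 1, by have : 0 < 1 / k0 := by positivity
                                         linarith, ?_⟩
  intro β v ρm hv hs x hx hT hρ
  set M := 2 * (r0 + T') + 1 / k0 + 1 with hM
  have ik : 0 < 1 / k0 := by positivity
  have M0 : 0 < M := by linarith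
  have N2 : 1 / 2 ≤ NN v x := hN v hv hs x (hx.trans (by
    rw [div_le_comm₀ M0 hk]; linarith))
  have N1 := NN_le_one hv x
  obtain ⟨r', h1, h2, h3⟩ := exists_fail hρ one_pos
  set r := rt β v ρm x
  have hφ := lt_phi_of_not_fit hv (by linarith) h1 h2
  set L := r' - dd v x with hL
  have d1 : |dd v x| ≤ T' - 1 := by linarith [le_abs_self T]
  obtain ⟨d2, d3⟩ := abs_le.1 d1
  have L0 : 0 < L := by linarith [le_abs_self (dd v x)]
  have LM : M / 2 ≤ L := by
    have e1 : NN v x / L ≤ 1 / M := hφ.le.trans ((le_max_left _ _).trans hx)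
    rw [div_le_div_iff₀ L0 M0] at e1
    nlinarith
  have Lr : L ≤ r + T' := by linarith
  have rr : r0 ≤ r := by linarith
  have rA : A ≤ r := by linarith
  have rT : T' ≤ r := by linarith
  have rδ : 1 / δ ≤ r := by linarith
  have r1 : 1 ≤ r := by linarith
  rcases le_total δ (tt v x) with ht | ht
  · refine le_trans ?_ ht
    rw [Real.exp_neg, inv_le_comm₀ (Real.exp_pos _) δ0, ← one_div]
    have := Real.add_one_le_exp (2 * √2 * (1 + ε) * r)
    have : r ≤ 2 * √2 * (1 + ε) * r := le_mul_of_one_le_left (by linarith) (by nlinarith)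
    linarith
  set c := NN v x / L with hc
  have c0 : 0 < c := div_pos (by linarith) L0
  have key := (h v hv x c δ c0 δ0 (by linarith) hφ).trans
    (mul_le_mul_of_nonneg_left (qq_le_tt hv x) (by positivity))
  have N3 : 1 - δ ≤ NN v x := by
    rw [tt_eq] at ht
    linarith [mul_le_of_le_one_left (NN_nonneg v x) N1, sq (NN v x)]
  obtain ⟨ic, cr⟩ := tl_num0 δ0 δ1 N3 L0 Lr rT T1
  exact tl_num δ0 δ1 δε hε hK T1 d1 r1 rA ic cr key


end

end Crest.Agent.N067.M
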