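import Crest.Agent.N067.F.Flat1
import Crest.Agent.N067.Y.GE
import Crest.Agent.N067.M.TLow
import Crest.Agent.N067.U.Ue

-- ▼ part N067/F/Flat2
section

/-!
# Row 67, block FLAT (helper72), part 2: `t ψ^δ ≤ C κ²` near a flat point (no logarithm)
-/

set_option autoImplicit false

open MeasureTheory Laplacian InnerProductSpace Topology Filter Set Metric
open scoped RealInnerProductSpace ContDiff Gradient

namespace Crest.Agent.N067

open Crest.Agent.R077 V Y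

noncomputable section

variable {n : ℕ} {v : EE n → ℝ}

/-- `Y = ψ^δ t` is a subsolution with a gap where the slope is at least `1/4` -/
theorem Sol.lap_Y (h : Sol v) {δ : ℝ} (h0 : 0 < δ) (h1 : δ ≤ 1 / 16) {y : EE n}
    (hN : tt v y ≤ 15 / 16) :
    δ * (pb (δ - 1) v y * tt v y) - 2 * hsq (dd v) y ≤ (Δ fun z => pb (δ - 1) v z * tt v z) y
      + 2 * √2 * (δ - 1) * v y * gin (dd v) (fun z => pb (δ - 1) v z * tt v z) y := by
  have h2 := h.Lm_tt y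
  have p0 := pb_pos h (δ - 1) y
  have p1 : pb (δ - 1) v y ≤ 1 :=
    Real.rpow_le_one (h.psi_pos y).le (psi_le_one v y) (by linarith)
  have t0 := h.tt_nonneg y
  have s0 := h.psi_pos y
  have e : v y ^ 2 = 1 - psi v y := by rw [psi]; ring
  have s1 := psi_le_one v y
  rw [lap_pb_mul h _ (h.tt_cd 2),
    show Lm v (tt v) y = 2 * (psi v y * tt v y * (1 - tt v y) - hsq (dd v) y) by
      unfold qq at h2; linarith, e]
  have k1 : δ ≤ (2 - δ) * psi v y * (1 - tt v y) + 2 * δ * (2 - δ) * (1 - psi v y) * (1 - tt v y)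
      + 2 * δ * (1 - psi v y) * tt v y := by
    have a1 : δ * psi v y ≤ (2 - δ) * psi v y * (1 - tt v y) := by
      have : δ ≤ (2 - δ) * (1 - tt v y) := by nlinarith
      nlinarith
    have a2 : 0 ≤ δ * (1 - psi v y) := mul_nonneg h0.le (by linarith)
    have a3 : 1 ≤ 2 * (2 - δ) * (1 - tt v y) + 2 * tt v y := by nlinarith
    nlinarith [mul_le_mul_of_nonneg_left a3 a2]
  have k2 := mul_le_mul_of_nonneg_left k1 (mul_nonneg p0.le t0)
  have k3 := mul_le_mul_of_nonneg_right p1 (hsq_nonneg (dd v) y)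
  nlinarith

theorem Sol.abs_drift (h : Sol v) {δ : ℝ} (h0 : 0 < δ) (h1 : δ ≤ 1) (z : EE n) :
    |2 * √2 * (δ - 1) * v z| ≤ 3 := by
  have a1 : √2 ≤ 3 / 2 := Real.sqrt_le_iff.2 ⟨by norm_num, by norm_num⟩
  rw [abs_mul, abs_mul, abs_of_pos (by positivity : 0 < 2 * √2),
    abs_of_nonpos (by linarith : δ - 1 ≤ 0)]
  have a2 := mul_le_mul (show 2 * √2 ≤ 3 by linarith) (show -(δ - 1) ≤ 1 by linarith)
    (by linarith) (by norm_num)
  exact (mul_le_mul a2 (h.lt z).le (abs_nonneg _) (by norm_num)).trans_eq (by norm_num)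

theorem tsq_alg {a R r δ Y H L b g m c : ℝ} (ha : 0 ≤ a) (hR : 0 ≤ R) (hδ : 0 < δ) (hc : 0 ≤ c)
    (k1 : δ * Y - 2 * H ≤ L + b * (a * (2 * (R + r ^ 2) * g))) (k6 : b * g ≤ 6 * r)
    (R2 : 4 * m + 8 + 12 * r ≤ δ / 2 * (R + r ^ 2)) (hW : a * (R + r ^ 2) ^ 2 < Y)
    (hH : H ≤ 4 * c) (hA : δ * (a * (R + r ^ 2) ^ 2) = 64 * c) :
    a * (2 * (R + r ^ 2) * (0 + 2 * m) + 2 * (4 * r ^ 2)) - L < 0 := by
  have a0 : 0 ≤ a * (R + r ^ 2) := by positivity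
  have m1 := mul_le_mul_of_nonneg_left k6 a0
  have m2 := mul_le_mul_of_nonneg_left R2 a0
  have m3 := mul_lt_mul_of_pos_left hW hδ
  have m5 : 0 ≤ a * R := by positivity
  linarith

theorem flat_tsq0 (n : ℕ) {δ : ℝ} (h0 : 0 < δ) (h1 : δ ≤ 1 / 16) : ∃ C : ℝ, 1 ≤ C ∧
    ∀ (v : EE n → ℝ) (κ : ℝ) (x : EE n), Sol v → Flat v κ x → 1 / 2 ≤ ‖∇ (dd v) x‖ → ∀ y,
      pb (δ - 1) v y * tt v y ≤ C * (κ * (1 + ‖y - x‖) ^ 2) ^ 2 := by
  obtain ⟨C, hC, hb⟩ := flat_bd n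
  obtain ⟨R, hR⟩ : ∃ R : ℝ, R = 1 + 2 / δ * (4 * n + 8 + 72 / δ) := ⟨_, rfl⟩
  have R1 : 1 ≤ R := by rw [hR]; exact le_add_of_nonneg_right (by positivity)
  have R2 : ∀ r : ℝ, 4 * n + 8 + 12 * r ≤ δ / 2 * (R + r ^ 2) := fun r => by
    have e : δ / 2 * R = δ / 2 + (4 * n + 8 + 72 / δ) := by rw [hR]; field_simp
    have : 12 * r ≤ δ / 2 * r ^ 2 + 72 / δ := by
      rw [← sub_nonneg, show δ / 2 * r ^ 2 + 72 / δ - 12 * r = (δ * r - 12) ^ 2 / (2 * δ) by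
        field_simp; ring]
      positivity
    nlinarith
  obtain ⟨A, hA⟩ : ∃ A : ℝ, A = 64 * C ^ 2 / δ := ⟨_, rfl⟩
  have C2 : 1 ≤ C ^ 2 := one_le_pow₀ hC
  have A1 : δ * A = 64 * C ^ 2 := by rw [hA]; field_simp
  have A0 : 0 ≤ A := by rw [hA]; positivity
  have A2 : 64 * C ^ 2 ≤ A := by nlinarith
  refine ⟨A * R ^ 2, one_le_mul_of_one_le_of_one_le (by linarith) (one_le_pow₀ R1),
    fun v κ x h hF hN y => ?_⟩
  have Y1 : ∀ z, pb (δ - 1) v z * tt v z ≤ tt v z := fun z => mul_le_of_le_one_left (h.tt_nonneg z)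
    (Real.rpow_le_one (h.psi_pos z).le (psi_le_one v z) (by linarith))
  rcases (hF.nonneg hN).eq_or_lt with hκ | hκ
  · have := (hb v κ x h hF hN y).2.1
    rw [← hκ] at this ⊢
    simpa using (Y1 y).trans this
  have cf : ContDiff ℝ 2 fun z : EE n => R + ‖z - x‖ ^ 2 := contDiff_const.add (contDiff_sq x)
  have cY : ContDiff ℝ 2 fun z => pb (δ - 1) v z * tt v z := (pb_cd h _ 2).mul (h.tt_cd 2)
  have cE : ContDiff ℝ 2 fun z : EE n => A * κ ^ 2 * (R + ‖z - x‖ ^ 2) ^ 2 :=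
    contDiff_const.mul (cf.pow 2)
  have key := mp_ball (W := fun z => A * κ ^ 2 * (R + ‖z - x‖ ^ 2) ^ 2 - pb (δ - 1) v z * tt v z)
    (cE.sub cY) (y := x) (r := 1 + 1 / κ + ‖y - x‖) (fun z hz => ?_) (fun z _ hW hg => ?_) y
    (le_add_of_nonneg_left (by positivity))
  · have h2 : R + ‖y - x‖ ^ 2 ≤ R * (1 + ‖y - x‖) ^ 2 := by nlinarith [norm_nonneg (y - x)]
    have h3 := pow_le_pow_left₀ (by positivity) h2 2
    have h4 := mul_le_mul_of_nonneg_left h3 (show 0 ≤ A * κ ^ 2 by positivity)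
    linarith
  · have h2 : 0 < 1 / κ := by positivity
    have h3 : 1 / κ ≤ R + ‖z - x‖ ^ 2 := by rw [hz]; nlinarith [norm_nonneg (y - x)]
    rw [div_le_iff₀ hκ] at h3
    have h4 : 1 ≤ ((R + ‖z - x‖ ^ 2) * κ) ^ 2 := one_le_pow₀ h3
    have h5 := mul_le_mul (show 1 ≤ A by linarith) h4 zero_le_one A0
    linarith [Y1 z, tt_le_one v z]
  · obtain ⟨b1, -, -, b4⟩ := hb v κ x h hF hN z
    set r := ‖z - x‖ with hr
    have r0 : 0 ≤ r := norm_nonneg _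
    have f0 : 0 < R + r ^ 2 := by positivity
    have g1 : (1 + r) ^ 2 ≤ 2 * (R + r ^ 2) := by nlinarith [sq_nonneg (r - 1)]
    have g2 : C * (κ * (1 + r) ^ 2) ≤ 2 * C * κ * (R + r ^ 2) := by
      have := mul_le_mul_of_nonneg_left g1 (show 0 ≤ C * κ by positivity)
      linarith
    have g3 : (2 * C * κ * (R + r ^ 2)) ^ 2 ≤ (1 / 4) ^ 2 := by
      have := mul_le_mul_of_nonneg_right A2 (sq_nonneg (κ * (R + r ^ 2)))
      linarith [Y1 z, tt_le_one v z]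
    have g4 := abs_le_of_sq_le_sq' g3 (by norm_num)
    have g5 : 1 / 4 ≤ ‖∇ (dd v) z‖ := by
      linarith [norm_sub_norm_le (∇ (dd v) x) (∇ (dd v) z), norm_sub_rev (∇ (dd v) x) (∇ (dd v) z),
        g4.2]
    have k1 := h.lap_Y h0 h1 (y := z) (by rw [tt]; nlinarith)
    have dE := cE.differentiable (by simp) z
    have dY := cY.differentiable (by simp) z
    have df := cf.differentiable (by simp) z
    have k2 : gin (dd v) (fun z => pb (δ - 1) v z * tt v z) z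
        = A * κ ^ 2 * (2 * (R + r ^ 2) * gin (dd v) (fun z : EE n => R + ‖z - x‖ ^ 2) z) := by
      simp only [gin, Finset.mul_sum]
      refine Finset.sum_congr rfl fun i _ => ?_
      have := hg i
      rw [pdv_sub dE dY, pdv_const_mul (df.fun_pow 2), pdv_sq df, sub_eq_zero] at this
      rw [← this]
      ring
    have k3 : gsq (fun z : EE n => R + ‖z - x‖ ^ 2) z = 4 * r ^ 2 := by
      rw [← gsq_normSq]
      simp only [gsq, add_comm R, pdv_add_const]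
    have k4 : |gin (dd v) (fun z : EE n => R + ‖z - x‖ ^ 2) z| ≤ 2 * r := by
      refine abs_le_of_sq_le_sq' ?_ (by positivity) |> abs_le.2
      refine (gin_sq_le _ _ _).trans ?_
      rw [k3]
      nlinarith [h.gsq_dd_le z, sq_nonneg r]
    have k6 : 2 * √2 * (δ - 1) * v z * gin (dd v) (fun z : EE n => R + ‖z - x‖ ^ 2) z ≤ 6 * r := by
      refine (le_abs_self _).trans ?_
      rw [abs_mul]
      linarith [mul_le_mul (h.abs_drift h0 (by linarith) z) k4 (abs_nonneg _) (by norm_num)]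
    rw [lap_sub' cE.contDiffAt cY.contDiffAt, lap_const_mul (cf.pow 2).contDiffAt,
      lap_sq cf.contDiffAt, k3, lap_add' contDiffAt_const (contDiff_sq x).contDiffAt, lap_const,
      lap_normSq]
    rw [k2] at k1
    exact tsq_alg (c := C ^ 2 * (κ * (R + r ^ 2)) ^ 2) (by positivity) (by linarith) h0
      (by positivity) k1 k6 (R2 r) (sub_neg.1 hW)
      ((b4.trans (pow_le_pow_left₀ (by positivity) g2 2)).trans_eq (by ring))
      (by linear_combination (κ * (R + r ^ 2)) ^ 2 * A1)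

/-- `t ψ^δ ≤ C κ² (1 + |y - x|)⁴` -/
theorem flat_tsq (n : ℕ) {δ : ℝ} (h0 : 0 < δ) : ∃ C : ℝ, 1 ≤ C ∧
    ∀ (v : EE n → ℝ) (κ : ℝ) (x : EE n), Sol v → Flat v κ x → 1 / 2 ≤ ‖∇ (dd v) x‖ → ∀ y,
      tt v y * psi v y ^ δ ≤ C * (κ * (1 + ‖y - x‖) ^ 2) ^ 2 := by
  obtain ⟨C, hC, h1⟩ := flat_tsq0 n (δ := min δ (1 / 16)) (lt_min h0 (by norm_num)) (min_le_right _ _)
  refine ⟨C, hC, fun v κ x h hF hN y => le_trans ?_ (h1 v κ x h hF hN y)⟩
  rw [mul_comm, pb, add_sub_cancel]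
  exact mul_le_mul_of_nonneg_right (Real.rpow_le_rpow_of_exponent_ge (h.psi_pos y) (psi_le_one v y)
    (min_le_left _ _)) (h.tt_nonneg y)

end

end Crest.Agent.N067
end

-- ▼ part N067/M/FL0

/-!
# Row 67, block FL (helper72): the fields of `FLStmt` for stable solutions
-/

set_option autoImplicit false
set_option linter.dupNamespace false

open MeasureTheory Laplacian InnerProductSpace Topology Filter Set Metric
open scoped RealInnerProductSpace Gradient ContDiff ENNReal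

namespace Crest.Agent.N067.M

open Crest.Agent.R077 Crest.Agent.N067.V Crest.Agent.N067.Y

noncomputable section

variable {n : ℕ} {v : EE n → ℝ}

theorem flat_ph0 (hv : Sol v) (x : EE n) : Flat v (ph0 v x) x :=
  (flat_iff hv (ph0_nonneg hv x)).2 (by linarith [ph0_nonneg hv x])

theorem exists_ph0_bd (n : ℕ) : ∃ C : ℝ, 1 ≤ C ∧ ∀ v : EE n → ℝ, Sol v → ∀ x, ph0 v x ≤ C := by
  obtain ⟨C, h⟩ := exists_phi_bd n
  exact ⟨C + 1, by linarith [C.2], fun v hv x => max_le (((h v hv).1 x).trans (by linarith))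
    (((h _ (sol_ng hv)).1 x).trans (by linarith))⟩

/-- a bound which holds at flat points with slope `≥ 1/2`, for a bounded quantity, holds for `ph0` -/
theorem of_flat {F : (EE n → ℝ) → EE n → EE n → ℝ} (k : ℕ)
    (hB : ∃ B : ℝ, ∀ v, Sol v → ∀ x y, F v x y ≤ B)
    (hF : ∃ C : ℝ, 0 ≤ C ∧ ∀ (v : EE n → ℝ) (κ : ℝ) (x : EE n), Sol v → Flat v κ x →
      1 / 2 ≤ ‖∇ (dd v) x‖ → ∀ y, F v x y ≤ C * (κ * (1 + ‖y - x‖) ^ 2) ^ k) :
    ∃ C : ℝ, 1 ≤ C ∧ ∀ v, Sol v → Stable v → ∀ x y,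
      F v x y ≤ C * ((1 + ‖x - y‖) ^ 2 * ph0 v x) ^ k := by
  obtain ⟨B, hB⟩ := hB
  obtain ⟨C, hC, hF⟩ := hF
  obtain ⟨k0, p0, h0⟩ := flatU n
  refine ⟨1 + C + |B| / k0 ^ k, by linarith [show 0 ≤ |B| / k0 ^ k by positivity],
    fun v hv hs x y => ?_⟩
  have h1 := ph0_nonneg hv x
  have h2 : 0 ≤ ((1 + ‖x - y‖) ^ 2 * ph0 v x) ^ k := by positivity
  have h3 : 0 ≤ |B| / k0 ^ k := by positivity
  rcases le_total (ph0 v x) k0 with h | h
  · have := hF v _ x hv (flat_ph0 hv x) (h0 v hv hs x h) y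
    rw [norm_sub_rev, mul_comm (ph0 v x)] at this
    nlinarith
  · have h4 : k0 ^ k ≤ ((1 + ‖x - y‖) ^ 2 * ph0 v x) ^ k := pow_le_pow_left₀ p0.le (h.trans
      (le_mul_of_one_le_left h1 (one_le_pow₀ (le_add_of_nonneg_right (norm_nonneg _))))) k
    have h5 := mul_le_mul_of_nonneg_left h4 h3
    rw [div_mul_cancel₀ _ (by positivity)] at h5
    nlinarith [hB v hv x y, le_abs_self B]

theorem fl_ph0 (n : ℕ) : ∃ C : ℝ, 1 ≤ C ∧ ∀ v : EE n → ℝ, Sol v → Stable v → ∀ x y,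
    ph0 v y ≤ C * ((1 + ‖x - y‖) ^ 2 * ph0 v x) := by
  obtain ⟨B, -, hB⟩ := exists_ph0_bd n
  obtain ⟨C, hC, h⟩ := flat_near n
  simpa only [pow_one] using of_flat (F := fun v _ y => ph0 v y) 1 ⟨B, fun v hv _ => hB v hv⟩
    ⟨2 * C, by positivity, fun v κ x hv hF hN y => by
      have := hF.nonneg hN
      rw [pow_one, mul_assoc]
      exact (flat_iff hv (by positivity)).1 (h v κ x hv hF hN y)⟩

theorem fl_tt (n : ℕ) : ∃ C : ℝ, 1 ≤ C ∧ ∀ v : EE n → ℝ, Sol v → Stable v → ∀ x y,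
    tt v y ≤ C * ((1 + ‖x - y‖) ^ 2 * ph0 v x) := by
  obtain ⟨C, hC, h⟩ := flat_bd n
  simpa only [pow_one] using of_flat (F := fun v _ y => tt v y) 1 ⟨1, fun v _ _ => tt_le_one v⟩
    ⟨C, by linarith, fun v κ x hv hF hN y => by rw [pow_one]; exact (h v κ x hv hF hN y).2.1⟩

theorem fl_nn (n : ℕ) : ∃ C : ℝ, 1 ≤ C ∧ ∀ v : EE n → ℝ, Sol v → Stable v → ∀ x y,
    ‖nn v y - nn v x‖ ≤ C * ((1 + ‖x - y‖) ^ 2 * ph0 v x) := by
  obtain ⟨C, hC, h⟩ := flat_bd n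
  simpa only [pow_one] using of_flat (F := fun v x y => ‖nn v y - nn v x‖) 1
    ⟨2, fun v hv x y => (norm_sub_le _ _).trans (by
      linarith [hv.norm_grad_dd_le x, hv.norm_grad_dd_le y, show nn v x = ∇ (dd v) x from rfl,
        NN_le_one hv x, NN_le_one hv y, show NN v x = ‖nn v x‖ from rfl,
        show NN v y = ‖nn v y‖ from rfl])⟩
    ⟨C, by linarith, fun v κ x hv hF hN y => by rw [pow_one]; exact (h v κ x hv hF hN y).1⟩


theorem fl_Bn (n : ℕ) : ∃ C : ℝ, 1 ≤ C ∧ ∀ v : EE n → ℝ, Sol v → Stable v → ∀ x y,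
    Bn v y ≤ C * ((1 + ‖x - y‖) ^ 2 * ph0 v x) := by
  obtain ⟨K, hK, hB⟩ := hk_hsq n
  obtain ⟨C, hC, h⟩ := flat_bd n
  simpa only [pow_one] using of_flat (F := fun v _ y => Bn v y) 1
    ⟨√K, fun v hv _ y => Real.sqrt_le_sqrt
      ((hB v hv y).trans (mul_le_of_le_one_right hK (tt_le_one v y)))⟩
    ⟨C, by linarith, fun v κ x hv hF hN y => by
      have := hF.nonneg hN
      rw [pow_one]
      exact Real.sqrt_le_iff.2 ⟨by positivity, (h v κ x hv hF hN y).2.2.2⟩⟩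

theorem fl_cmp (n : ℕ) : ∃ C : ℝ, 1 ≤ C ∧ ∀ v : EE n → ℝ, Sol v → Stable v → ∀ x y,
    ph0 v y ≤ C * (1 + ‖x - y‖) ^ 2 * ph0 v x ∧ tt v x ≤ C * ph0 v x ∧
    ‖nn v y - nn v x‖ ≤ C * (1 + ‖x - y‖) ^ 2 * ph0 v x ∧
    Bn v y ≤ C * (1 + ‖x - y‖) ^ 2 * ph0 v x := by
  obtain ⟨C1, p1, h1⟩ := fl_ph0 n
  obtain ⟨C2, p2, h2⟩ := fl_tt n
  obtain ⟨C3, p3, h3⟩ := fl_nn n
  obtain ⟨C4, p4, h4⟩ := fl_Bn n
  refine ⟨C1 + C2 + C3 + C4, by linarith, fun v hv hs x y => ?_⟩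
  have h0 := ph0_nonneg hv x
  have h5 := h2 v hv hs x x
  rw [sub_self, norm_zero, add_zero, one_pow, one_mul] at h5
  simp only [mul_assoc]
  exact ⟨(h1 v hv hs x y).trans (by gcongr; linarith), h5.trans (by gcongr; linarith),
    (h3 v hv hs x y).trans (by gcongr; linarith), (h4 v hv hs x y).trans (by gcongr; linarith)⟩

/-- `t ψ^δ` at all points -/
theorem fl_tsq' (n : ℕ) {δ : ℝ} (hδ : 0 < δ) : ∃ C : ℝ, 1 ≤ C ∧ ∀ v : EE n → ℝ, Sol v → Stable v →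
    ∀ x y, tt v y * psi v y ^ δ ≤ C * ((1 + ‖x - y‖) ^ 2 * ph0 v x) ^ 2 := by
  obtain ⟨C, hC, h⟩ := flat_tsq n hδ
  exact of_flat (F := fun v _ y => tt v y * psi v y ^ δ) 2
    ⟨1, fun v hv _ y => mul_le_one₀ (tt_le_one v y) (Real.rpow_nonneg (hv.psi_pos y).le _)
      (Real.rpow_le_one (hv.psi_pos y).le (psi_le_one v y) hδ.le)⟩ ⟨C, by linarith, h⟩

theorem fl_tsq (n : ℕ) (δ : ℝ) (hδ : 0 < δ) : ∃ C : ℝ, 1 ≤ C ∧ ∀ v : EE n → ℝ, Sol v → Stable v →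
    ∀ x, tt v x * psi v x ^ δ ≤ C * ph0 v x ^ 2 := by
  obtain ⟨C, hC, h⟩ := fl_tsq' n hδ
  exact ⟨C, hC, fun v hv hs x => by simpa using h v hv hs x x⟩

/-- `t y ≤ C e^{δ |d y|} (1 + |x - y|)⁴ ph0(x)²` -/
theorem fl_tt_exp (n : ℕ) {δ : ℝ} (hδ : 0 < δ) : ∃ C : ℝ, 1 ≤ C ∧ ∀ v : EE n → ℝ, Sol v →
    Stable v → ∀ x y,
      tt v y ≤ C * Real.exp (δ * |dd v y|) * ((1 + ‖x - y‖) ^ 2 * ph0 v x) ^ 2 := by
  obtain ⟨C, hC, h⟩ := fl_tsq' n (δ := δ / √2) (by positivity)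
  refine ⟨C, hC, fun v hv hs x y => ?_⟩
  have h1 := Real.rpow_le_rpow (Real.exp_pos _).le (hv.exp_le_psi y) (show 0 ≤ δ / √2 by positivity)
  rw [← Real.exp_mul, show -(√2 * |dd v y|) * (δ / √2) = -(δ * |dd v y|) by field_simp,
    Real.exp_neg] at h1
  have h2 := (mul_le_mul_of_nonneg_left h1 (hv.tt_nonneg y)).trans (h v hv hs x y)
  rw [mul_inv_le_iff₀ (Real.exp_pos _)] at h2
  linarith

/-- `t ≤ ph0^a` at logarithmic distance, any `a < 2` -/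
theorem fl_tup' (n : ℕ) (C2 : ℝ) {a : ℝ} (ha : a < 2) : ∃ M : ℝ, 1 ≤ M ∧ ∀ v : EE n → ℝ, Sol v →
    Stable v → ∀ x y, 0 < ph0 v x → ph0 v x ≤ 1 / M → |dd v x| ≤ C2 * Real.log (1 / ph0 v x) →
      ‖x - y‖ ≤ C2 * Real.log (1 / ph0 v x) → tt v y ≤ ph0 v x ^ a := by
  obtain ⟨c, c0, hc⟩ : ∃ c : ℝ, 0 < c ∧ C2 ≤ c := ⟨|C2| + 1, by positivity, by
    linarith [le_abs_self C2]⟩
  obtain ⟨e, e0, he⟩ : ∃ e : ℝ, 0 < e ∧ a = 2 - 3 * e := ⟨(2 - a) / 3, by linarith, by ring⟩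
  obtain ⟨C, hC, h⟩ := fl_tt_exp n (δ := e / (2 * c)) (by positivity)
  obtain ⟨K, hK, hp⟩ := poly_le_exp 4 (by norm_num) (ε := e / c) (by positivity)
  refine ⟨Real.exp (C * K / e), Real.one_le_exp (by positivity),
    fun v hv hs x y h0 hM hd hxy => ?_⟩
  obtain ⟨L, hL⟩ : ∃ L, L = Real.log (1 / ph0 v x) := ⟨_, rfl⟩
  have eL : ph0 v x = Real.exp (-L) := by
    rw [hL, one_div, Real.log_inv, neg_neg, Real.exp_log h0]
  rw [← hL] at hd hxy
  have hL1 : C * K / e ≤ L := by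
    rw [eL, one_div, ← Real.exp_neg, Real.exp_le_exp] at hM; linarith
  have L0 : 0 ≤ L := le_trans (by positivity) hL1
  have k0 : C2 * L ≤ c * L := mul_le_mul_of_nonneg_right hc L0
  have k1 : |dd v y| ≤ 2 * c * L := by
    linarith [hv.abs_dd_sub_le x y, abs_sub_abs_le_abs_sub (dd v y) (dd v x),
      abs_sub_comm (dd v y) (dd v x)]
  have k2 : Real.exp (e / (2 * c) * |dd v y|) ≤ Real.exp (e * L) := Real.exp_le_exp.2
    ((mul_le_mul_of_nonneg_left k1 (by positivity)).trans_eq (by field_simp))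
  have k3 : (1 + ‖x - y‖) ^ 4 ≤ K * Real.exp (e * L) := by
    have := hp (c * L) (by positivity)
    rw [show e / c * (c * L) = e * L by field_simp, show (4 : ℝ) = (4 : ℕ) by norm_num,
      Real.rpow_natCast] at this
    exact (pow_le_pow_left₀ (by positivity) (by linarith) 4).trans this
  have k4 : C * K ≤ Real.exp (e * L) := by
    rw [div_le_iff₀ e0] at hL1
    linarith [Real.add_one_le_exp (e * L)]
  calc tt v y ≤ C * Real.exp (e * L) * ((1 + ‖x - y‖) ^ 4 * ph0 v x ^ 2) := by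
        refine (h v hv hs x y).trans ?_
        rw [mul_pow, ← pow_mul]
        gcongr
    _ ≤ C * Real.exp (e * L) * (K * Real.exp (e * L) * ph0 v x ^ 2) := by gcongr
    _ = C * K * (Real.exp (e * L) * Real.exp (e * L) * ph0 v x ^ 2) := by ring
    _ ≤ Real.exp (e * L) * (Real.exp (e * L) * Real.exp (e * L) * ph0 v x ^ 2) := by gcongr
    _ = ph0 v x ^ a := by
        rw [eL, ← Real.exp_mul, sq]
        simp only [← Real.exp_add]
        congr 1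
        rw [he]; ring



end

end Crest.Agent.N067.M
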