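import Crest.Agent.N067.M.ChS
import Crest.Agent.N067.M.Asm0
import Crest.Agent.N067.M.FDefs

-- ▼ part N067/M/TH
section

/-!
# Row 67 (helper28): the pair rule TH, sharp comparisons of `Z` and `W`
-/

set_option autoImplicit false
set_option linter.dupNamespace false
set_option linter.unusedSectionVars false

open MeasureTheory Laplacian InnerProductSpace Topology Filter Set Metric
open scoped RealInnerProductSpace Gradient ContDiff ENNReal

namespace Crest.Agent.N067.M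

open Crest.Agent.R077 Crest.Agent.N067.V Crest.Agent.N067.Y

noncomputable section

variable {n : ℕ} {v : EE n → ℝ} {x y : EE n} {D : Dat n} {K lam κ0 C1 rs : ℝ} {β : Bo}

namespace Dat.Ok

variable (O : D.Ok K lam C1 rs)
include O

/-- `W` is almost constant at the scale `1 / lw` -/
theorem W_near {δ : ℝ} (h : ‖x - y‖ * D.lw x ≤ δ) (h1 : δ ≤ 1 / 2) :
    D.W y ≤ Real.exp (2 * K * δ) * D.W x ∧ D.W x ≤ Real.exp (2 * K * δ) * D.W y := by
  have l0 := (O.lwpos x).1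
  have K0 : 0 ≤ K := by linarith [O.K1]
  have hd := O.Wcd.differentiable one_ne_zero
  have key : ∀ z ∈ segment ℝ x y, ‖fderiv ℝ D.W z‖ ≤ 2 * K * D.lw x * D.W z := fun z hz => by
    have a1 : ‖x - z‖ ≤ ‖x - y‖ := by
      have := dist_add_dist_of_mem_segment hz
      rw [dist_eq_norm, dist_eq_norm x y] at this
      linarith [dist_nonneg (x := z) (y := y)]
    have a2 := O.lwlip x z
    have lz := (O.lwpos z).1
    have a3 : D.lw z ≤ 2 * D.lw x := by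
      have a4 : ‖x - z‖ ≤ 1 / D.lw x / 2 := by
        rw [div_div, le_div_iff₀ (by positivity)]
        nlinarith [mul_le_mul_of_nonneg_right a1 l0.le]
      have a5 : 1 / (2 * D.lw x) ≤ 1 / D.lw z := by rw [mul_comm, ← div_div]; linarith
      exact (one_div_le_one_div (by positivity) lz).1 a5
    rw [← St.norm_grad]
    exact (O.Wlip z).trans (mul_le_mul_of_nonneg_right (by nlinarith) (O.Wpos z).le)
  have e : 2 * K * D.lw x * ‖y - x‖ ≤ 2 * K * δ := by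
    rw [norm_sub_rev, mul_assoc, mul_comm (D.lw x)]
    exact mul_le_mul_of_nonneg_left h (by positivity)
  refine ⟨(le_exp_mul_of_log_grad (fun z _ => hd z) key).trans (mul_le_mul_of_nonneg_right
    (Real.exp_le_exp.2 e) (O.Wpos x).le), (le_exp_mul_of_log_grad (fun z _ => hd z)
      (by rwa [segment_symm])).trans (mul_le_mul_of_nonneg_right
        (Real.exp_le_exp.2 (by rwa [norm_sub_rev])) (O.Wpos y).le)⟩

theorem z_exp {U V a : ℝ} (hU : 0 < U) (ha : 0 ≤ a) (h : Real.exp (-a) * U ≤ V) :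
    Real.exp (-(2 * a)) * D.ζ U ≤ D.ζ V := by
  have h0 := Real.exp_pos (-a)
  have h1 := O.z_sq hU h0.le (Real.exp_le_one_iff.2 (by linarith))
  rw [← Real.exp_nat_mul, Nat.cast_ofNat, mul_neg] at h1
  exact h1.trans (O.zmono (mul_pos h0 hU).le (mem_Ici.2 ((mul_pos h0 hU).le.trans h)) h)

variable (B : D.Bas)
include B

/-- **TH**, the pair rule -/
theorem th_pair (hl : 0 < lam) {th : EE n → ℝ} (T : D.Th' th) (hx : x ∈ D.Om)
    (hr : 12 / lam ≤ D.rp x) : th x * D.Z x ^ 2 ≤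
      lam * (D.Z x + D.ζ ((1 + D.κ0) * D.h (D.rp x))) ^ 2 / 4 := by
  have k0 := O.k0
  have hp := O.hp_pos B hx
  have U0 := O.U_pos B hx
  have z0 := (O.Z_mem B x).1
  have z1 := (O.zbd ((1 + D.κ0) * D.h (D.rp x)) (by positivity)).1
  have r8 := B.rp8 hx
  have easy : th x ≤ lam / 4 → th x * D.Z x ^ 2 ≤
      lam * (D.Z x + D.ζ ((1 + D.κ0) * D.h (D.rp x))) ^ 2 / 4 := fun h => by
    rw [mul_div_right_comm]
    exact mul_le_mul h (pow_le_pow_left₀ z0.le (by linarith) 2) (sq_nonneg _) (by positivity)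
  rcases le_total (D.rp x) D.f0 with h | h
  · refine easy ((O.th_low B T hx h).trans ?_)
    rw [div_le_iff₀ hl] at hr
    rw [div_le_div_iff₀ (by linarith) (by norm_num)]
    linarith
  have h1 : th x * D.U x ≤ lam * ((1 + D.κ0) * D.h (D.rp x)) :=
    (T.le x hx).trans ((mul_le_mul_of_nonneg_left (O.hhigh _ h) (by linarith)).trans_eq (by ring))
  have f0 := one_pos.trans_le O.f1
  rcases le_total (D.U x) (80 / D.f0) with h2 | h2
  · set θ := (1 + D.κ0) * D.h (D.rp x) / D.U x with hθ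
    have t0 : 0 ≤ θ := by positivity
    have h3 := O.z1 _ θ U0 h2 t0 ((div_le_one U0).2 (O.le_U B x))
    rw [hθ, div_mul_cancel₀ _ U0.ne', ← hθ, ← O.Z_eq B hx] at h3
    have h4 : th x ≤ lam * θ := by rwa [hθ, ← mul_div_assoc, le_div_iff₀ U0]
    have h5 : 4 * θ * D.Z x ^ 2 ≤ (D.Z x + D.ζ ((1 + D.κ0) * D.h (D.rp x))) ^ 2 :=
      le_trans (by nlinarith [sq_nonneg ((1 - θ) * D.Z x)])
        (pow_le_pow_left₀ (by positivity) (add_le_add_right h3 (D.Z x)) 2)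
    nlinarith [mul_le_mul_of_nonneg_right h4 (sq_nonneg (D.Z x)),
      mul_le_mul_of_nonneg_left h5 hl.le]
  · refine easy (le_of_mul_le_mul_right (h1.trans ?_) U0)
    have h3 : D.h (D.rp x) ≤ 1 / D.f0 :=
      (O.hpos _ (by linarith)).2.1.trans (one_div_le_one_div_of_le f0 h)
    have h4 : (1 + D.κ0) * D.h (D.rp x) ≤ D.U x / 4 := by
      have : 80 / D.f0 = 80 * (1 / D.f0) := by ring
      nlinarith [O.k1]
    nlinarith [mul_le_mul_of_nonneg_left h4 hl.le]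

/-- `Z` on the opposite sheet -/
theorem Z_opp (hl : lam ≤ 3) (hx : x ∈ D.Om) {a : ℝ} (ha : 0 ≤ a)
    (hy : y ∈ D.Om → min (D.rp y) (D.rm y) ≤ D.rp x + a) :
    Real.exp (-(6 * a)) * D.ζ ((1 + D.κ0) * D.h (D.rp x)) ≤ D.Z y := by
  have k0 := O.k0
  have hp := O.hp_pos B hx
  by_cases h : y ∈ D.Om
  · rw [O.Z_eq B h, show 6 * a = 2 * (3 * a) by ring]
    refine O.z_exp (by positivity) (by positivity) (le_trans ?_ (le_max_right _ _))
    rw [mul_left_comm]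
    refine mul_le_mul_of_nonneg_left ((O.h_lip hl (by linarith [B.rp8 hx])
      (lt_min (by linarith [B.rp8 h]) (by linarith [B.rm8 h])) ha (hy h)).trans ?_) (by linarith)
    rcases min_choice (D.rp y) (D.rm y) with e | e <;> rw [e]
    exacts [le_max_left _ _, le_max_right _ _]
  · rw [Dat.Z, if_neg h]
    exact mul_le_one₀ (Real.exp_le_one_iff.2 (by linarith)) (O.zbd _ (by positivity)).1.le
      (O.zbd _ (by positivity)).2

/-- `Z` on the own sheet: the minus side is needed only when it is active -/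
theorem Z_own (hl : lam ≤ 3) (hx : x ∈ D.Om) {a : ℝ} (ha : 0 ≤ a)
    (hp : y ∈ D.Om → D.rp y ≤ D.rp x + a)
    (hm : y ∈ D.Om → D.κ0 * D.h (D.rp x) ≤ D.h (D.rm x) → D.rm y ≤ D.rm x + a) :
    Real.exp (-(6 * a)) * D.Z x ≤ D.Z y := by
  have k0 := O.k0
  by_cases h : y ∈ D.Om
  · have a1 := O.h_lip hl (by linarith [B.rp8 hx]) (by linarith [B.rp8 h]) ha (hp h)
    have E0 := Real.exp_pos (-(3 * a))
    rw [O.Z_eq B h, O.Z_eq B hx, show 6 * a = 2 * (3 * a) by ring]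
    refine O.z_exp (O.U_pos B hx) (by positivity) ?_
    rcases le_total (D.κ0 * D.h (D.rp x)) (D.h (D.rm x)) with h1 | h1
    · have a2 := O.h_lip hl (by linarith [B.rm8 hx]) (by linarith [B.rm8 h]) ha (hm h h1)
      rw [Dat.U, mul_max_of_nonneg _ _ E0.le, mul_left_comm, mul_max_of_nonneg _ _ E0.le]
      exact max_le_max (by linarith) (mul_le_mul_of_nonneg_left (max_le_max a1 a2) (by linarith))
    · have a3 : D.U x ≤ (1 + D.κ0) * D.h (D.rp x) := by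
        refine max_le (by linarith) (mul_le_mul_of_nonneg_left (max_le le_rfl (h1.trans ?_))
          (by linarith))
        exact mul_le_of_le_one_left (O.hp_pos B hx).le O.k1
      refine le_trans ?_ (O.le_U B y)
      nlinarith [mul_le_mul_of_nonneg_left a3 E0.le, mul_le_mul_of_nonneg_left a1 k0.le]
  · rw [Dat.Z, Dat.Z, if_neg h]
    exact mul_le_one₀ (Real.exp_le_one_iff.2 (by linarith)) (O.Z_mem B x).1.le (O.Z_mem B x).2

end Dat.Ok

end

end Crest.Agent.N067.M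
end

-- ▼ part N067/M/Fch
section

/-!
# Row 67 (helper28): small costs at the cut are charged at a foot; the minus cut
-/

set_option autoImplicit false
set_option linter.dupNamespace false
set_option linter.unusedSectionVars false

open MeasureTheory Laplacian InnerProductSpace Topology Filter Set Metric
open scoped RealInnerProductSpace Gradient ContDiff ENNReal

namespace Crest.Agent.N067.M

open Crest.Agent.R077 Crest.Agent.N067.V Crest.Agent.N067.Y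

noncomputable section

variable {n : ℕ} {v : EE n → ℝ} {x y : EE n} {D : Dat n} {K lam κ0 C1 rs : ℝ} {β : Bo}

/-- the cut is deep -/
theorem big_deep (fl : FLStmt n) (x0 : X0Stmt n) (K lam κ0 : ℝ) (β : Bo) (T : ℝ) :
    Big n K lam κ0 β fun D => ∀ x ∈ D.Cut, T ≤ |dd D.v x| := by
  refine ((big_bas fl x0 K lam κ0 β).and (big_num n K lam κ0 β (max (2 * |T|) 3))).mono ?_
  rintro D ⟨B, -, -, hM, hf, C1, rs, hC, -, O⟩ x hx
  simp only [max_le_iff] at hM hf hC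
  have h1 : 1 ≤ Real.log (min (1 / ph0 D.v x) D.f0) := by
    have h2 : 3 ≤ min (1 / ph0 D.v x) D.f0 := le_min (hM.2.trans (B.rho hx.1.1).le) hf.2
    rw [Real.le_log_iff_exp_le (by linarith)]
    linarith [Real.exp_one_lt_d9]
  nlinarith [(O.Tlo x hx.1).trans hx.2, le_abs_self T, abs_nonneg T]

/-- an exponential of the depth beats a polynomial -/
theorem big_exp (fl : FLStmt n) (x0 : X0Stmt n) (K lam κ0 : ℝ) (β : Bo) (G : ℝ) (m : ℕ) {A k e : ℝ}
    (hA : 0 ≤ A) (hk : 0 < k) (he : 0 < e) : Big n K lam κ0 β fun D => ∀ x ∈ D.Cut,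
      G * (1 + (2 * |dd D.v x| + A)) ^ m * Real.exp (-(k * |dd D.v x|)) ≤ e := by
  obtain ⟨L, hL, h⟩ := poly_le_exp m m.cast_nonneg (show 0 < k / 4 by positivity)
  set E := |G| * L * Real.exp (k / 4 * A) with hE
  have E0 : 0 ≤ E := by positivity
  refine (big_deep fl x0 K lam κ0 β (2 * E / (k * e))).mono fun D hD x hx => ?_
  have h1 := h (2 * |dd D.v x| + A) (by positivity)
  have h2 := hD x hx
  rw [Real.rpow_natCast] at h1
  rw [div_le_iff₀ (by positivity)] at h2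
  generalize |dd D.v x| = T at *
  have h3 : G * (1 + (2 * T + A)) ^ m * Real.exp (-(k * T)) ≤ E / Real.exp (k * T / 2) := by
    refine (mul_le_mul_of_nonneg_right (mul_le_mul (le_abs_self G) h1 ?_ (abs_nonneg G))
      (Real.exp_pos _).le).trans_eq ?_
    · have : 0 ≤ T * (k * e) := by linarith
      have : 0 ≤ T := nonneg_of_mul_nonneg_left this (by positivity)
      positivity
    · rw [hE, div_eq_mul_inv _ (Real.exp _), ← Real.exp_neg, mul_assoc, mul_assoc, mul_assoc, mul_assoc,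
        ← Real.exp_add, ← Real.exp_add]
      congr 3; ring
  refine h3.trans ?_
  rw [div_le_iff₀ (Real.exp_pos _)]
  nlinarith [mul_le_mul_of_nonneg_left (Real.add_one_le_exp (k * T / 2)) he.le]

/-- `ρ` beats a polynomial of the depth -/
theorem big_rho (fl : FLStmt n) (K lam κ0 : ℝ) (β : Bo) (G : ℝ) (m : ℕ) {A e : ℝ}
    (hA : 0 ≤ A) (he : 0 < e) : Big n K lam κ0 β fun D => ∀ x ∈ D.Om,
      G * (1 + (2 * |dd D.v x| + A)) ^ m * ph0 D.v x ≤ e := by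
  refine big_M fun C2 => ?_
  have c0 : 0 < |C2| + 1 := by positivity
  obtain ⟨L, hL, h⟩ := poly_le_exp m m.cast_nonneg (show 0 < 1 / (4 * (|C2| + 1)) by positivity)
  set E := |G| * L * Real.exp (1 / (4 * (|C2| + 1)) * A) with hE
  have E0 : 0 ≤ E := by positivity
  refine ⟨(E / e) ^ 2 + 1, fun D C1 rs _ _ e2 hM O x hx => ?_⟩
  have p0 := fl.pos _ O.pos x
  have h1 := h (2 * |dd D.v x| + A) (by positivity)
  rw [Real.rpow_natCast] at h1
  have M0 : 0 < D.M := lt_of_lt_of_le (by positivity) hM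
  have r1 : (E / e) ^ 2 + 1 ≤ 1 / ph0 D.v x := hM.trans ((lt_one_div M0 p0).2 hx.1).le
  have l0 := Real.log_nonneg (le_trans (le_add_of_nonneg_left (sq_nonneg _)) r1)
  have h2 : |dd D.v x| ≤ (|C2| + 1) * Real.log (1 / ph0 D.v x) :=
    hx.2.1.le.trans (mul_le_mul_of_nonneg_right (by rw [e2]; linarith [le_abs_self C2]) l0)
  have h3 : Real.exp (1 / (4 * (|C2| + 1)) * (2 * |dd D.v x|)) ≤ √(1 / ph0 D.v x) := by
    rw [Real.sqrt_eq_rpow, Real.rpow_def_of_pos (one_div_pos.2 p0)]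
    refine Real.exp_le_exp.2 ?_
    rw [one_div_mul_eq_div, div_le_iff₀ (by positivity)]
    linarith
  have h4 : E / e ≤ √(1 / ph0 D.v x) := Real.le_sqrt_of_sq_le (by linarith)
  have h5 : √(1 / ph0 D.v x) * √(1 / ph0 D.v x) * ph0 D.v x = 1 := by
    rw [Real.mul_self_sqrt (one_div_pos.2 p0).le, one_div_mul_cancel p0.ne']
  rw [mul_add, Real.exp_add] at h1
  rw [div_le_iff₀ he] at h4
  calc _ ≤ |G| * (L * (√(1 / ph0 D.v x) * Real.exp (1 / (4 * (|C2| + 1)) * A))) * ph0 D.v x := by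
        refine mul_le_mul_of_nonneg_right (mul_le_mul (le_abs_self G) (h1.trans ?_) (by positivity)
          (abs_nonneg G)) p0.le
        gcongr
    _ = E * (√(1 / ph0 D.v x) * ph0 D.v x) := by rw [hE]; ring
    _ ≤ √(1 / ph0 D.v x) * e * (√(1 / ph0 D.v x) * ph0 D.v x) := by gcongr
    _ = e := by linear_combination e * h5

/-- the constant of `ZW_foot` -/
def cF (K κ0 : ℝ) : ℝ := K ^ 2 / (κ0 * Real.exp (-(3 * 1)) / 2) ^ 4

namespace Dat.Ok

variable (O : D.Ok K lam C1 rs) (B : D.Bas)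
include O B

theorem ZW_foot (hl : lam ≤ 3) (hx : x ∈ D.Om) (h : D.κ0 * D.h (D.rm x) ≤ D.h (D.rp x))
    (hy : y ∈ D.Om → D.rp y ≤ D.rp x + 1) {l : ℝ} (hxy : ‖x - y‖ ≤ l) (j : ℕ) :
    D.Z x ^ 2 * D.W x ^ 2 * (1 + ‖x - y‖) ^ j ≤
      cF K D.κ0 * (1 + l) ^ (2 * ⌈K⌉₊ + j) * (D.Z y ^ 2 * D.W y ^ 2) := by
  have k0 := O.k0
  have K1 := O.K1
  have l0 := (norm_nonneg _).trans hxy
  have h1 := pow_le_pow_left₀ (mul_nonneg (sq_nonneg _) (O.Z_mem B x).1.le)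
    (O.Z_cmp B hl hx h zero_le_one hy) 2
  rw [mul_pow, ← pow_mul, ← le_div_iff₀' (by positivity)] at h1
  have h3 : (1 + ‖x - y‖) ^ K ≤ (1 + l) ^ ⌈K⌉₊ := by
    rw [← Real.rpow_natCast _ ⌈K⌉₊]
    exact (Real.rpow_le_rpow (by positivity) (by linarith) (by linarith)).trans
      (Real.rpow_le_rpow_of_exponent_le (by linarith) (Nat.le_ceil K))
  have h4 : D.W x ≤ K * (1 + l) ^ ⌈K⌉₊ * D.W y := (O.Wcmp x y).trans
    (mul_le_mul_of_nonneg_right (mul_le_mul_of_nonneg_left h3 (by linarith)) (O.Wpos y).le)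
  have := (O.Wpos x).le
  calc _ ≤ D.Z y ^ 2 / (D.κ0 * Real.exp (-(3 * 1)) / 2) ^ (2 * 2) *
        (K * (1 + l) ^ ⌈K⌉₊ * D.W y) ^ 2 * (1 + l) ^ j := by gcongr
    _ = _ := by rw [cF]; ring

end Dat.Ok

/-- **FOOT**: three kinds of small costs are charged at any point `y` near `x` on the band where
the active gap has not grown -/
theorem foot_chg (fl : FLStmt n) (x0 : X0Stmt n) (K lam κ0 : ℝ) (β : Bo) (hl : lam ≤ 3) (j : ℕ)
    {G A k e : ℝ} (hG : 0 ≤ G) (hA : 0 ≤ A) (hk : 0 < k) (he : 0 < e) :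
    Big n K lam κ0 β fun D => ∀ x ∈ D.Cut, D.κ0 * D.h (D.rm x) ≤ D.h (D.rp x) → ∀ (y : EE n) (c : ℝ),
      ‖x - y‖ ≤ 2 * |dd D.v x| + A → (y ∈ D.Om → D.rp y ≤ D.rp x + 1) →
      (c ≤ D.Z x ^ 2 * D.W x ^ 2 * (G * Real.exp (-(k * |dd D.v x|)) * tt D.v y) ∨
        c ≤ D.Z x ^ 2 * D.W x ^ 2 * (G * (1 + (2 * |dd D.v x| + A)) ^ j * ph0 D.v x * tt D.v y) ∨
        (ph0 D.v x ^ 2 ≤ D.lw x ∧ c ≤ D.Z x ^ 2 * D.W x ^ 2 * (G * ph0 D.v x ^ 5))) →
      c * (1 + ‖x - y‖) ^ (n + 1) ≤ e * (D.Gain y * D.W y ^ 2) := by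
  set m := 2 * ⌈K⌉₊ + (n + 1)
  refine ((((big_bas fl x0 K lam κ0 β).and (big_num n K lam κ0 β 1)).and
    (big_exp fl x0 K lam κ0 β (cF K κ0 * G) m hA hk he)).and
    ((big_rho fl K lam κ0 β (cF K κ0 * G) (m + j) hA he).and
    (big_rho fl K lam κ0 β (cF K κ0 * G) (m + 2) hA he))).mono ?_
  rintro D ⟨⟨⟨B, -, e1, -, -, C1, rs, -, -, O⟩, h1⟩, h2, h3⟩ x hx act y c hxy hy hc
  have h4 := O.ZW_foot B hl hx.1.1 act hy hxy (n + 1)
  rw [e1] at h4
  have h1 := h1 x hx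
  have h2 := h2 x hx.1.1
  have h3 := h3 x hx.1.1
  have t0 := (B.pos.tpos y).le
  have p0 := B.ph x
  have l0 := (norm_nonneg _).trans hxy
  have key : ∀ a b : ℝ, 0 ≤ a → 0 ≤ b → c ≤ D.Z x ^ 2 * D.W x ^ 2 * (a * b) →
      cF K κ0 * (1 + (2 * |dd D.v x| + A)) ^ m * a ≤ e → b * D.Z y ^ 2 ≤ D.Gain y →
      c * (1 + ‖x - y‖) ^ (n + 1) ≤ e * (D.Gain y * D.W y ^ 2) := fun a b a0 b0 a1 a2 a3 =>
    calc _ ≤ D.Z x ^ 2 * D.W x ^ 2 * (a * b) * (1 + ‖x - y‖) ^ (n + 1) := by gcongr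
      _ = D.Z x ^ 2 * D.W x ^ 2 * (1 + ‖x - y‖) ^ (n + 1) * (a * b) := by ring
      _ ≤ _ := mul_le_mul_of_nonneg_right h4 (mul_nonneg a0 b0)
      _ = cF K κ0 * (1 + (2 * |dd D.v x| + A)) ^ m * a * (b * D.Z y ^ 2 * D.W y ^ 2) := by ring
      _ ≤ _ := by gcongr
  rcases hc with hc | hc | ⟨hw, hc⟩
  · exact key _ _ (by positivity) t0 hc (le_of_eq_of_le (by ring) h1) (O.gain_t B y)
  · exact key _ _ (by positivity) t0 hc (le_of_eq_of_le (by ring) h2) (O.gain_t B y)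
  · refine key (G * (1 + (2 * |dd D.v x| + A)) ^ 2 * ph0 D.v x) (D.lw y ^ 2) (by positivity)
      (sq_nonneg _) (hc.trans (mul_le_mul_of_nonneg_left ?_ (by positivity)))
      (le_of_eq_of_le (by ring) h3) ((mul_comm _ _).trans_le (O.gain_lw B y))
    have p1 : ph0 D.v x ≤ 1 := (div_le_div_iff_of_pos_left one_pos one_pos p0).1
      (by rw [div_one]; exact B.M1.trans (B.rho hx.1.1).le)
    have ly := (O.lwpos y).1
    have a1 := O.lwlip y x
    rw [norm_sub_rev] at a1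
    have a2 := one_div_le_one_div_of_le (by positivity) hw
    have a3 : ph0 D.v x ^ 2 ≤ (1 + (2 * |dd D.v x| + A)) * D.lw y := by
      have a4 : 1 ≤ 1 / ph0 D.v x ^ 2 := one_le_one_div (by positivity) (pow_le_one₀ p0.le p1)
      have a5 : 1 / D.lw y ≤ (1 + (2 * |dd D.v x| + A)) * (1 / ph0 D.v x ^ 2) := by
        nlinarith [mul_le_mul_of_nonneg_left a4 l0]
      rwa [mul_one_div, div_le_div_iff₀ ly (by positivity), one_mul] at a5
    calc G * ph0 D.v x ^ 5 = G * ph0 D.v x * (ph0 D.v x ^ 2) ^ 2 := by ring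
      _ ≤ G * ph0 D.v x * ((1 + (2 * |dd D.v x| + A)) * D.lw y) ^ 2 := by gcongr
      _ = _ := by ring

end

end Crest.Agent.N067.M
end

-- ▼ part N067/M/Mult
section

/-! # Row 67, FLUX: MULT, the slab part (helper46) -/

set_option autoImplicit false
set_option linter.unusedVariables false

open MeasureTheory InnerProductSpace Set Metric Topology Filter
open scoped RealInnerProductSpace Gradient ENNReal

namespace Crest.Agent.N067.M

open Crest.Agent.R077 Crest.Agent.N067.V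

noncomputable section

variable {n : ℕ}

variable {v : EE n → ℝ}

/-- across a slab: `v ≥ 0` near the axis for heights in `[2, f - 2]`, `v < 0` at heights in
`[-3, -2]` -/
theorem Phi_near {x0 e y : EE n} {f : ℝ} (he : ‖e‖ = 1) (hf : 0 ≤ f)
    (hy : ‖y - (x0 + f • e)‖ ≤ 1 / 2) (hn : ‖nn v y + e‖ * (f + 3) ≤ 1 / 2)
    (hp : ∀ p (τ : ℝ), ‖p - (x0 + τ • e)‖ ≤ 1 → 2 ≤ τ → τ ≤ f - 2 → 0 ≤ v p)
    (hm : ∀ p (τ : ℝ), ‖p - (x0 + τ • e)‖ ≤ 1 → -3 ≤ τ → τ ≤ -2 → v p < 0) : ‖Phi v y - x0‖ ≤ 4 := by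
  have key : ∀ k : ℝ, 0 ≤ k → k ≤ f + 3 → ‖y + k • nn v y - (x0 + (f - k) • e)‖ ≤ 1 := by
    intro k h0 h1
    have e1 : y + k • nn v y - (x0 + (f - k) • e) = (y - (x0 + f • e)) + k • (nn v y + e) := by
      rw [sub_smul, smul_add]; abel
    rw [e1]
    have h2 := norm_add_le (y - (x0 + f • e)) (k • (nn v y + e))
    rw [norm_smul, Real.norm_of_nonneg h0, mul_comm] at h2
    have h3 := mul_le_mul_of_nonneg_left h1 (norm_nonneg (nn v y + e))
    linarith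
  obtain ⟨k1, c1, c2⟩ : ∃ k : ℕ, f + 2 ≤ k ∧ (k : ℝ) < f + 2 + 1 :=
    ⟨⌈f + 2⌉₊, Nat.le_ceil _, Nat.ceil_lt_add_one (by linarith)⟩
  have c3 : (2 : ℝ) ≤ k1 := by linarith
  have c4 : v (y + (k1 : ℝ) • nn v y) < 0 :=
    hm _ (f - k1) (key k1 (by linarith) (by linarith)) (by linarith) (by linarith)
  have m1 : k1 ∈ {k : ℕ | 2 ≤ k ∧ v (y + (k : ℝ) • nn v y) < 0} := ⟨by exact_mod_cast c3, c4⟩
  have m2' := Nat.sInf_le m1
  have m0 := Nat.sInf_mem (nonempty_of_mem m1)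
  rw [Phi, mm]
  generalize sInf {k : ℕ | 2 ≤ k ∧ v (y + (k : ℝ) • nn v y) < 0} = m at m2' m0 ⊢
  obtain ⟨m3, m4⟩ := m0
  have m2 : (m : ℝ) ≤ k1 := Nat.cast_le.2 m2'
  have m5 : (2 : ℝ) ≤ m := by exact_mod_cast m3
  have k2 := key m (by linarith) (by linarith)
  have m6 : f - m < 2 := not_le.1 fun h => absurd (hp _ (f - m) k2 h (by linarith)) (not_le.2 m4)
  have e2 : y + (m : ℝ) • nn v y - x0 =
      (y + (m : ℝ) • nn v y - (x0 + (f - m) • e)) + (f - m) • e := by abel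
  rw [e2]
  have h2 := norm_add_le (y + (m : ℝ) • nn v y - (x0 + (f - m) • e)) ((f - m) • e)
  rw [norm_smul, he, mul_one, Real.norm_eq_abs] at h2
  have : |f - (m : ℝ)| ≤ 3 := abs_le.2 ⟨by linarith, by linarith⟩
  linarith

end

end Crest.Agent.N067.M
end

-- ▼ part N067/M/PDefs

/-!
# Row 67, block FLUX (helper89): the pointwise leaves on `Dat`

`PtStmt` follows from `SetStmt` (the local picture `FP`), `MinusStmt`, `PaStmt`, `PphiStmt`,
`PmainStmt` (file `M/Pt`).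
-/

set_option autoImplicit false
set_option linter.dupNamespace false

open MeasureTheory InnerProductSpace Topology Filter Set Metric
open scoped RealInnerProductSpace Gradient ContDiff ENNReal

namespace Crest.Agent.N067.M

open Crest.Agent.R077 Crest.Agent.N067.V Crest.Agent.N067.Y

noncomputable section

variable {n : ℕ}

/-- the constant of `Ok.act_ph` -/
def KA (K κ0 : ℝ) : ℝ := 2 * (3 + 72 * K / κ0)

namespace Dat

variable (D : Dat n)

/-- the slab at the `+` cut (output of `TopsStmt`) -/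
structure FQ (T a C3 f : ℝ) (x x0 om z : EE n) : Prop where
  slab : Slab D.v x0 (nu D.v x0) f ((1 / ph0 D.v x) ^ 2) T (C3 * lg D.v x) (ph0 D.v x ^ 5)
  len : |f - (2 - D.β.h) * D.rp x| ≤ a
  zz : ‖z - (x0 + (f - dd D.v x) • nu D.v x0)‖ ≤ a
  om : D.rp x * ‖om - nu D.v x‖ ≤ a
  tz : tt D.v z ≤ ph0 D.v x ^ 5
  dz : |dd D.v z - dd D.v x| ≤ a

/-- the local picture at an active point in case F -/
structure FP (ε C K T a C3 : ℝ) (x x0 w om z : EE n) : Prop where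
  act : D.κ0 * D.h (D.rm x) ≤ D.h (D.rp x)
  geo : Geo D.β D.v D.ρm D.M D.C2 (KA K D.κ0) x
  /-- room in the sheet above and below `x` -/
  c3 : |dd D.v x| + |T| + 4 ≤ C3 * lg D.v x
  /-- the sheet is much lower than the gap -/
  c3' : 1000 * (C3 * lg D.v x) ≤ D.rp x
  bot : Bot D.v C3 x x0
  ct : Ct D.β D.v D.ρm ε C x (∇ D.rp x) w om z
  cap : ‖om - nu D.v x‖ ≤ √(D.β.η * D.β.h) / 20
  colp : ∀ y, ‖y - x0‖ ≤ |T| + 2 → D.rp y ≤ D.rp x + a
  colZ : ∀ y, ‖y - x0‖ ≤ |T| + 2 → Real.exp (-(6 * a)) * D.Z x ≤ D.Z y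
  tops : 2 ≤ dd D.v x → ∃ f, D.FQ T a C3 f x x0 om z

end Dat

/-- SET: `big_bas`, `act_ph`, `XAt` on both sides (thin: `Bn ≤ C √t`, `Bot.sh`), `Z_own` with
`ColStmt` for `ng v` (`rm` is differentiable a.e. on `Om`; capped sides are trivial) -/
def SetStmt (n : ℕ) : Prop := ∀ (β : Bo) (ε ηt C K lam κ0 T a : ℝ), 0 < ηt → XAt n β ε ηt C →
  lam ≤ 3 → 0 < a → Big n K lam κ0 β fun D => ∀ᵐ x, x ∈ D.Om → FF D.v x →
    D.κ0 * D.h (D.rm x) ≤ D.h (D.rp x) →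
      ∇ D.rp x = 0 ∨ ∃ C3 x0 w om z, D.FP ε C K T a C3 x x0 w om z

/-- MINUS: flux `≤ C r t (‖g‖ + t)` (`long`, `tilt`), Young, `foot_chg` -/
def MinusStmt (n : ℕ) : Prop := ∀ (β : Bo) (ε C K lam κ0 e : ℝ), lam ≤ 3 → 0 < e →
  Big n K lam κ0 β fun D => ∀ th, D.Th' th → ∀ x ∈ D.Cut, dd D.v x < 0 →
    ∀ (T a C3 : ℝ) (x0 w om z : EE n), a ≤ 1 → D.FP ε C K T a C3 x x0 w om z →
      D.cost th x ≤ e * D.kept th x ∨ D.Chg id (D.cost th x) e x

/-- PA: the cost at the `+` cut (`long`, `SrcStmt` at `x` and, by `Slab.symm`, at `z`) -/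
def PaStmt (n : ℕ) : Prop := ∀ ε : ℝ, 0 < ε → ε ≤ 1 / 100 → ∃ G T1 : ℝ, 0 ≤ G ∧
  ∀ (β : Bo) (C K lam κ0 T : ℝ), lam ≤ 3 → T1 ≤ T → ∃ a0 : ℝ, 0 < a0 ∧
  Big n K lam κ0 β fun D => ∀ th, D.Th' th → ∀ x ∈ D.Cut, 0 < dd D.v x →
    ∀ (a C3 f : ℝ) (x0 w om z : EE n), a ≤ a0 → D.FP ε C K T a C3 x x0 w om z →
      D.FQ T a C3 f x x0 om z →
      D.cost th x ≤ D.Z x ^ 2 * D.W x ^ 2 * (G * ph0 D.v x ^ 5) ∧
      ∃ X, D.cost th x ≤ X + 2 * D.ch x * D.chd x * (th x * D.Z x ^ 2 * D.W x ^ 2 *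
          ((1 + 4 * ε) * (32 * Real.exp (-√2 * f)))) ∧
        X ≤ D.Z x ^ 2 * D.W x ^ 2 * (G * Real.exp (-(1 / 4 * |dd D.v x|)) *
          (tt D.v x0 + tt D.v (x0 + f • nu D.v x0)))

/-- PPHI: the source of the top foot is charged there (`Phi_near`, `OppStmt`, `Z_cmp`, `W_near`,
Harnack for `t`, `big_exp`) -/
def PphiStmt (n : ℕ) : Prop := ∀ (β : Bo) (ε C K lam κ0 T G e : ℝ), lam ≤ 3 → 4 ≤ T → 0 ≤ G →
  0 < e → ∃ a0 : ℝ, 0 < a0 ∧ Big n K lam κ0 β fun D => ∀ x ∈ D.Cut,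
    ∀ (a C3 f c : ℝ) (x0 w om z : EE n), a ≤ a0 → D.FP ε C K T a C3 x x0 w om z →
      D.FQ T a C3 f x x0 om z → D.lw x ≤ ph0 D.v x ^ 2 →
      c ≤ D.Z x ^ 2 * D.W x ^ 2 * (G * Real.exp (-(1 / 4 * |dd D.v x|)) *
        tt D.v (x0 + f • nu D.v x0)) → D.Chg (Phi D.v) c e x

/-- PMAIN: the main term (`PairStmt` along `pr · x`, `colZ`, `OppStmt`, `Z_opp`, `W_near`,
`th_pair`) -/
def PmainStmt (n : ℕ) : Prop := ∀ ε : ℝ, 0 < ε → ε ≤ 1 / 100 → ∃ T1 : ℝ,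
  ∀ (β : Bo) (C K lam κ0 T δ : ℝ), 0 < lam → lam ≤ 3 → T1 ≤ T → 0 < δ → ∃ a0 : ℝ, 0 < a0 ∧
  Big n K lam κ0 β fun D => ∀ th, D.Th' th → ∀ x ∈ D.Cut, 0 < dd D.v x →
    ∀ (a C3 f c : ℝ) (x0 w om z : EE n), 0 ≤ a → a ≤ a0 → D.FP ε C K T a C3 x x0 w om z →
      D.FQ T a C3 f x x0 om z → D.lw x ≤ ph0 D.v x ^ 2 →
      c ≤ 2 * D.ch x * D.chd x * (th x * D.Z x ^ 2 * D.W x ^ 2 *
          ((1 + 6 * ε) * (32 * Real.exp (-√2 * f)))) → D.Main lam ε T δ c x

theorem Geo.mono {β : Bo} {v : EE n → ℝ} {ρm M M' C2 K K' : ℝ} {x : EE n}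
    (h : Geo β v ρm M' C2 K x) (h0 : 0 < M) (hM : M ≤ M') (hK : K ≤ K') : Geo β v ρm M C2 K' x :=
  ⟨h.ps, Val_mono h0 hM h.val, h.ff, h.dep, h.lo, h.hi.trans hK, h.fit⟩


end

end Crest.Agent.N067.M
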