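import Crest.Agent.N067.V.BallM
import Crest.Agent.N067.X0.Cont
import Crest.Agent.N067.X2.Defs
import Crest.Agent.N067.M.ChS
import Crest.Agent.N067.M.Col
import Crest.Agent.N067.M.Foot

-- ▼ part N067/V/BallT
section

/-!
# Row 67 (helper55): ball and degenerate contacts on `M.Defs`, part 2 (outputs)
-/

set_option autoImplicit false

open MeasureTheory Laplacian InnerProductSpace Topology Filter Set Metric
open scoped RealInnerProductSpace ContDiff Gradient NNReal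

namespace Crest.Agent.N067.M.Bl

open Crest.Agent.R077 Crest.Agent.N067.V Wd

noncomputable section

variable {n : ℕ} {β : Bo} {v F R : EE n → ℝ} {x y p w z om e g ν u : EE n} {r s ρm δ ε ηt C σ : ℝ}

open Classical in
/-- the `R`-form of the second order inequality -/
def RF (β : Bo) (v : EE n → ℝ) (ρm ε ηt C : ℝ) (x : EE n) (r : ℝ) (g : EE n) : Prop :=
  ∀ e > 0, ∃ R : EE n → ℝ, ContDiffAt ℝ 2 R x ∧ R x = r ∧ (∀ᶠ y in 𝓝 x, rt β v ρm y ≤ R y) ∧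
    ∇ R x = g ∧ ∀ a, Lm v R x ≤ r * (if r * Bn v x ≤ ηt then 0 else (1 + ε) * hsq (dd v) x)
      + (2 + ε) * ‖g‖ ^ 2 / r + 4 * ⟪g, a⟫ + 2 * r ^ 2 * hb (dd v) x a a
      + 2 * (1 + ε) * r * ‖a‖ ^ 2 + C * r * tt v x ^ 2 + e

/-- the first order facts at a thin contact -/
def TL (β : Bo) (v : EE n → ℝ) (ε C : ℝ) (x : EE n) (r : ℝ) (g om z : EE n) : Prop :=
  ‖(NN v z / NN v x) • om - nu v x‖ ≤ C * (‖g‖ + tt v x) ∧ (0 ≤ ⟪om, nu v x⟫ → ‖g‖ ≤ C ∧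
    |⟪g, nu v x⟫| ≤ C * (tt v z + r * tt v x) ∧
    ⟪g, nu v x⟫ ≤ C * r * tt v x * (‖om - nu v x‖ + tt v x + tt v z) ∧
    (‖om - nu v x‖ < √(β.η * β.h) / 10 → -⟪g, nu v x⟫ ≤ (1 + ε) * (tt v x + tt v z) / 4 +
      C * tt v z ^ 2 + C * r * tt v x * (‖om - nu v x‖ + tt v x + tt v z)))

theorem RF.mono (h : RF β v ρm ε ηt C x r g) {C' : ℝ} (hC : C ≤ C') (r0 : 0 ≤ r) :
    RF β v ρm ε ηt C' x r g := fun e he =>
  let ⟨R, h1, h2, h3, h4, h5⟩ := h e he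
  ⟨R, h1, h2, h3, h4, fun a => (h5 a).trans (by gcongr)⟩

theorem TL.mono (h : TL β v ε C x r g om z) (hv : Sol v) {C' : ℝ} (hC : C ≤ C') (r0 : 0 ≤ r) :
    TL β v ε C' x r g om z := by
  have := hv.tt_nonneg x
  have := hv.tt_nonneg z
  refine ⟨h.1.trans (by gcongr), fun h1 => ?_⟩
  obtain ⟨h2, h3, h4, h5⟩ := h.2 h1
  exact ⟨h2.trans hC, h3.trans (by gcongr), h4.trans (by gcongr),
    fun h6 => (h5 h6).trans (by gcongr)⟩

theorem refl_norm (hν : ‖ν‖ = 1) (hw : w ≠ 0) :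
    ‖ν - (2 / ‖w‖ ^ 2) • w‖ * ‖w‖ = ‖w - (2 : ℝ) • ν‖ := by
  have := norm_pos_iff.2 hw
  refine (sq_eq_sq₀ (by positivity) (norm_nonneg _)).1 ?_
  simp only [mul_pow, norm_sub_sq_real, real_inner_smul_right, norm_smul, hν, Real.norm_eq_abs,
    sq_abs, real_inner_comm ν w]
  field_simp

theorem thin_real {t k θ c U G W X B un bn gn N : ℝ} (s1 : 3 / 4 ≤ σ) (s2 : σ ≤ 4 / 3)
    (n0 : 0 ≤ 1 - N) (n1 : 1 - N ≤ t) (t1 : t ≤ 1 / 4) (U0 : 0 ≤ U) (W0 : 0 < W) (X0 : 0 ≤ X)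
    (h1 : U * W = X) (h2 : W ≤ 1 + σ) (h2' : X ≤ σ + 1) (h4 : U ≤ G + t + B) (h4' : G ≤ t + (U + B))
    (b1 : B ≤ U / 50) (b2 : |bn| ≤ k * U) (k0 : 0 ≤ k) (hθ : θ ≤ 1 - c) (c1 : c ≤ 1)
    (h6 : X ^ 2 = σ ^ 2 - 2 * σ * c + 1) (h7 : W ^ 2 = σ ^ 2 + 2 * σ * c + 1)
    (e1 : un = 1 - 2 / W ^ 2 * (1 + σ * c)) (e2 : gn = -(1 - N) + (un + bn)) :
    X ≤ 3 * (G + t) ∧ θ ≤ 18 * (G ^ 2 + t ^ 2) ∧ (0 ≤ c → G ≤ 3 ∧
      |gn| ≤ t + |σ ^ 2 - 1| + 3 * k ∧ gn ≤ max (σ ^ 2 - 1) 0 + 3 * k) := by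
  have h5 : X ≤ 3 * (G + t) := by nlinarith only [h1, h2, h4, b1, U0, s2]
  refine ⟨h5, ?_, fun hc => ?_⟩
  · nlinarith only [pow_le_pow_left₀ X0 h5 2, sq_nonneg (1 - σ), sq_nonneg (G - t), h6, hθ, s1,
      mul_nonneg (sub_nonneg.2 s1) (sub_nonneg.2 c1), c1]
  have h8 : 1 ≤ W ^ 2 := by nlinarith only [h7, hc, s1]
  have h9 : U ≤ 7 / 3 := by
    have a1 : 1 ≤ W := by nlinarith only [h8, W0]
    nlinarith only [a1, h1, h2', U0, s2]
  have e1' : un = (σ ^ 2 - 1) / W ^ 2 := by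
    rw [e1, eq_div_iff (by positivity), sub_mul, mul_right_comm, div_mul_cancel₀ _ (by positivity),
      h7]
    ring
  have e3 : |un| ≤ |σ ^ 2 - 1| := by
    rw [e1', abs_div, abs_of_pos (pow_pos W0 2)]
    exact div_le_self (abs_nonneg _) h8
  have e4 : un ≤ max (σ ^ 2 - 1) 0 := e1' ▸ (div_le_div_of_nonneg_right (le_max_left _ _)
    (by positivity)).trans (div_le_self (le_max_right _ _) h8)
  have e5 : |bn| ≤ 3 * k := b2.trans (by nlinarith only [h9, k0])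
  refine ⟨by linarith, ?_, by linarith [le_abs_self bn]⟩
  rw [e2, abs_le]
  constructor <;> linarith [abs_le.1 e5, neg_abs_le un, le_abs_self un]

/-- the geometry of the gradient at a thin ball contact -/
theorem thin_geo {N t k θ : ℝ} {b : EE n} (hν : ‖ν‖ = 1) (ho : ‖om‖ = 1) (s1 : 3 / 4 ≤ σ)
    (s2 : σ ≤ 4 / 3) (n0 : 0 ≤ 1 - N) (n1 : 1 - N ≤ t) (t1 : t ≤ 1 / 4) (hw : ν + σ • om ≠ 0)
    (hu : u = ν - (2 / ‖ν + σ • om‖ ^ 2) • (ν + σ • om)) (hg : g = -(1 - N) • ν + (u + b))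
    (b1 : ‖b‖ ≤ ‖u‖ / 50) (b2 : |⟪b, ν⟫| ≤ k * ‖u‖) (k0 : 0 ≤ k) (hθ : θ ≤ 1 - ⟪om, ν⟫) :
    ‖σ • om - ν‖ ≤ 3 * (‖g‖ + t) ∧ θ ≤ 18 * (‖g‖ ^ 2 + t ^ 2) ∧ (0 ≤ ⟪om, ν⟫ → ‖g‖ ≤ 3 ∧
      |⟪g, ν⟫| ≤ t + |σ ^ 2 - 1| + 3 * k ∧ ⟪g, ν⟫ ≤ max (σ ^ 2 - 1) 0 + 3 * k) := by
  have h1 := refl_norm hν hw
  rw [← hu, show ν + σ • om - (2 : ℝ) • ν = σ • om - ν by module] at h1
  have σ0 : ‖σ • om‖ = σ := by rw [norm_smul, ho, mul_one, Real.norm_of_nonneg (by linarith)]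
  have h3 : ‖-(1 - N) • ν‖ ≤ t := by
    rw [norm_smul, hν, mul_one, norm_neg, Real.norm_of_nonneg n0]; exact n1
  have a1 : g - -(1 - N) • ν - b = u := by rw [hg]; abel
  refine thin_real (un := ⟪u, ν⟫) s1 s2 n0 n1 t1 (norm_nonneg u) (norm_pos_iff.2 hw) (norm_nonneg _)
    h1 ((norm_add_le _ _).trans_eq (by rw [hν, σ0])) ((norm_sub_le _ _).trans_eq (by rw [hν, σ0]))
    ((a1 ▸ norm_sub_le (g - -(1 - N) • ν) b).trans (add_le_add_left
      ((norm_sub_le _ _).trans (add_le_add_right h3 _)) _))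
    (hg ▸ (norm_add_le _ _).trans (add_le_add h3 (norm_add_le _ _))) b1 b2 k0 hθ
    (by simpa [ho, hν] using real_inner_le_norm om ν)
    (by rw [norm_sub_sq_real, σ0, hν, real_inner_smul_left]; ring)
    (by rw [norm_add_sq_real, σ0, hν, real_inner_smul_right, real_inner_comm]; ring) ?_ ?_
  · rw [hu, inner_sub_left, real_inner_smul_left, inner_add_left, real_inner_smul_left,
      real_inner_self_eq_norm_sq, hν, one_pow]
  · rw [hg, inner_add_left, inner_add_left, real_inner_smul_left, real_inner_self_eq_norm_sq, hν]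
    ring

theorem At.inv_c (h : At β v ρm δ x r) : (NN v x / (r - dd v x))⁻¹ ≤ 2 * r := by
  rw [inv_div, div_le_iff₀ h.N0]; nlinarith [h.L2, h.N1, h.one]

/-- **degenerate contacts** -/
theorem degS (n : ℕ) (hε : 0 < ε) : ∃ δ C : ℝ, 0 < δ ∧ δ ≤ 1 / 4 ∧ 0 ≤ C ∧
    ∀ (β : Bo) (v : EE n → ℝ) (ρm r ηt : ℝ) (x : EE n), At β v ρm δ x r → ηt ≤ 1 / 100 →
      NN v x / (r - dd v x) * r ≤ 1 + ε ∧ ∀ e, Deg v (NN v x / (r - dd v x)) e x →
        ¬ r * Bn v x ≤ ηt ∧ ∃ g, RF β v ρm ε ηt C x r g := by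
  obtain ⟨δ, C, h0, -, hC, H⟩ := ball_R n hε
  obtain ⟨δ', d0, d1⟩ : ∃ δ' > 0, δ' ≤ min δ (min (1 / 4) (ε / 2)) := ⟨_, by positivity, le_rfl⟩
  simp only [le_min_iff] at d1
  refine ⟨δ', C, d0, d1.2.1, hC, fun β v ρm r ηt x h ht => ⟨?_, fun e he => ?_⟩⟩
  · have := (ratios (L := r - dd v x) d0 h.δ1 h.r0 (by ring) h.hd h.t1 h.N0 (NN_le h.sol x)
      (gN_sq v x)).2.2.2.2.2.2
    linarith
  have h1 : ¬ r * Bn v x ≤ ηt := fun h1 => by
    have h2 := abs_hb_le h.sol x e e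
    rw [he.eq, he.unit, abs_neg, abs_of_pos h.c0, mul_one, mul_one, div_le_iff₀ h.L0] at h2
    nlinarith [h.L2, h.N1, Real.sqrt_nonneg (hsq (dd v) x), show Bn v x = √(hsq (dd v) x) from rfl]
  obtain ⟨F, cF, hF, h2, h3⟩ := h.deg he.unit he.eq
  obtain ⟨-, -, h4⟩ := H v F x _ r 0 h.sol cF rfl (hF ▸ h.c0) (h.rr_eq hF) h.one
    (h.hd.trans (mul_le_mul_of_nonneg_right d1.1 h.r0.le)) (h.t1.trans d1.1) le_rfl
    (hF ▸ h.psd) h3
  exact ⟨h1, _, fun e he => ⟨rr v F, rr_c2 h.sol h.N0 cF (hF ▸ h.c0.ne'), h.rr_eq hF, h2, rfl,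
    fun a => by rw [if_neg h1]; linarith [h4 a]⟩⟩

theorem sig_bd (h : At β v ρm δ x r) (s1 : 3 / 4 * NN v x ≤ NN v z) (hσ : σ = NN v z / NN v x) :
    3 / 4 ≤ σ ∧ σ ≤ 4 / 3 ∧ |σ ^ 2 - 1| ≤ 2 * (tt v x + tt v z) ∧
      max (σ ^ 2 - 1) 0 ≤ 2 * tt v x := by
  have N0 := h.N0
  have tx := h.sol.tt_nonneg x
  have tz := h.sol.tt_nonneg z
  have σ3 : σ ^ 2 - 1 = (tt v x - tt v z) / NN v x ^ 2 := by
    rw [hσ, div_pow, show NN v z ^ 2 = _ from gN_sq v z, div_sub_one (by positivity),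
      show NN v x ^ 2 = _ from gN_sq v x]
    ring
  have n2 : 1 / 2 ≤ NN v x ^ 2 := by nlinarith [h.N1]
  refine ⟨by rwa [hσ, le_div_iff₀ N0], by rw [hσ, div_le_iff₀ N0]; linarith [h.N1, NN_le h.sol z],
    ?_, max_le (by rw [σ3, div_le_iff₀ (pow_pos N0 2)]; nlinarith) (by positivity)⟩
  rw [σ3, abs_div, abs_of_pos (pow_pos N0 2), div_le_iff₀ (pow_pos N0 2), abs_le]
  constructor <;> nlinarith

theorem cu1_le_cu0 (β : Bo) : X0.cu1 β ≤ X0.cu0 β := by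
  have := X0.cu1_lt β
  rw [← sub_le_sub_iff_left 1, X0.one_sub_cu0, div_le_iff₀ (by linarith [X0.ga_ge β])]
  rw [div_le_iff₀ β.η0] at this
  have h1 : 0 ≤ 1 - X0.cu1 β := by nlinarith [β.η0, β.h0]
  have h2 : β.h * (2 * β.η) ≤ (1 - X0.cu1 β) * β.η * (2 * β.η) :=
    mul_le_mul_of_nonneg_right this (by linarith [β.η0])
  have h3 : β.η * (2 * β.η) ≤ 6 * X0.ga β := by nlinarith [X0.ga_ge β, β.η1, β.η0]
  nlinarith [mul_le_mul_of_nonneg_left h3 h1, sq_nonneg β.h]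

/-- the gradient at a far ball contact -/
theorem ball_grad (n : ℕ) : ∃ K : ℝ, 0 ≤ K ∧ ∀ (β : Bo) (v F : EE n → ℝ) (ρm δ r σ θ : ℝ)
    (x om p : EE n), At β v ρm δ x r → ‖om‖ = 1 → 3 / 4 ≤ σ → σ ≤ 4 / 3 → p ≠ 0 →
      p = (r - dd v x) • nu v x + (σ * (r - dd v x)) • om → ContDiffAt ℝ 2 F x →
      F x = NN v x / (r - dd v x) →
      (∀ a, fderiv ℝ F x a = 2 / ‖p‖ ^ 2 * (hb (dd v) x p a + F x * ⟪p, a⟫)) →
      θ ≤ 1 - ⟪om, nu v x⟫ → r * Bn v x ≤ 1 / 100 → ∀ g, ∇ (rr v F) x = g →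
      ‖σ • om - nu v x‖ ≤ 3 * (‖g‖ + tt v x) ∧ θ ≤ 18 * (‖g‖ ^ 2 + tt v x ^ 2) ∧
      (0 ≤ ⟪om, nu v x⟫ → ‖g‖ ≤ 3 ∧ |⟪g, nu v x⟫| ≤ tt v x + |σ ^ 2 - 1| + 3 * (2 * r * (K * tt v x))
        ∧ ⟪g, nu v x⟫ ≤ max (σ ^ 2 - 1) 0 + 3 * (2 * r * (K * tt v x))) := by
  obtain ⟨K, hK, hm⟩ := exists_grad_gN n
  refine ⟨K, hK, fun β v F ρm δ r σ θ x om p h ho σ1 σ2 p0 hp cF hF h3 c3 hB g hgd => ?_⟩
  have N0 := h.N0
  have L0 := h.L0
  have r0 := h.r0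
  have tx := h.sol.tt_nonneg x
  have hp' : p = (r - dd v x) • (nu v x + σ • om) := by rw [hp]; module
  have w0 : nu v x + σ • om ≠ 0 := fun h0 => p0 (by rw [hp', h0, smul_zero])
  obtain ⟨u, hu⟩ : ∃ u, u = nu v x - (2 / ‖nu v x + σ • om‖ ^ 2) • (nu v x + σ • om) := ⟨_, rfl⟩
  have hg := grad_rr_far h.sol N0 cF rfl (hF ▸ h.c0) p0 h3 (u := u) (by
      have := norm_pos_iff.2 w0
      rw [hu, hF, hp', norm_smul, Real.norm_of_nonneg L0.le, smul_smul]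
      congr 2
      change _ = 2 * NN v x / _ * _
      field_simp)
  have ci := h.inv_c
  refine thin_geo (b := (F x)⁻¹ • hop (dd v) x u) (norm_nu N0) ho σ1 σ2 (one_sub_gN h.sol x).1
    (one_sub_gN h.sol x).2 (h.t1.trans h.δ1) w0 hu ?_ ?_ ?_ (by positivity) c3
  · rw [← hgd, hg, nu, smul_smul, neg_mul, ← div_eq_mul_inv]; rfl
  · rw [norm_smul, hF, Real.norm_of_nonneg (inv_pos.2 h.c0).le]
    refine (mul_le_mul ci (norm_hop h.sol x u) (norm_nonneg _) (by positivity)).trans ?_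
    rw [← mul_assoc, div_eq_inv_mul]
    exact mul_le_mul_of_nonneg_right (by linarith) (norm_nonneg u)
  · rw [real_inner_smul_left, abs_mul, hF, abs_of_pos (inv_pos.2 h.c0), mul_assoc _ (K * _),
      inner_hop, hb_symm (c2_of h.sol.dd_sm x), nu, map_smul, smul_apply, smul_eq_mul]
    refine mul_le_mul ci ?_ (abs_nonneg _) (by positivity)
    rw [show hb (dd v) x (nn v x) u = NN v x * _ from hb_n h.sol N0 u, inv_mul_cancel_left₀ N0.ne']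
    exact (abs_real_inner_le_norm _ u).trans (mul_le_mul_of_nonneg_right
      (hm v h.sol x (le_trans (by norm_num) h.N1)) (norm_nonneg u))

theorem thin_pot {B G t θ : ℝ} (hε : 0 < ε) (r1 : 1 ≤ r) (B0 : 0 ≤ B) (hB : r * B ≤ ηt)
    (t1 : ηt ≤ 1 / 100) (t2 : ηt ≤ θ * ε / (36 * (1 + ε))) (h : θ ≤ 18 * (G ^ 2 + t ^ 2)) :
    r * ((1 + ε) * B ^ 2) ≤ ε / 2 * (G ^ 2 / r) + ε * (r * t ^ 2) := by
  have r0 : 0 < r := by linarith
  have b0 := mul_nonneg r0.le B0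
  have b1 : (r * B) ^ 2 ≤ θ * ε / (36 * (1 + ε)) := by nlinarith
  rw [mul_pow, le_div_iff₀ (by positivity)] at b1
  have b2 := mul_le_mul_of_nonneg_right h hε.le
  have b3 : r * ((1 + ε) * B ^ 2) ≤ ε / 2 * (G ^ 2 / r) + ε / 2 * (t ^ 2 / r) := by
    rw [← mul_add, ← add_div, ← mul_div_assoc, le_div_iff₀ r0]; linarith
  exact b3.trans (add_le_add_right (mul_le_mul (by linarith) ((div_le_self (sq_nonneg _) r1).trans
    (le_mul_of_one_le_left (sq_nonneg _) r1)) (by positivity) hε.le) _)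

/-- **far ball contacts** -/
theorem ballS (n : ℕ) (hε : 0 < ε) (β : Bo) : ∃ η0 δ C : ℝ, 0 < η0 ∧ 0 < δ ∧ δ ≤ 1 / 4 ∧ 0 ≤ C ∧
    ∀ (v : EE n → ℝ) (ρm r ηt y : ℝ) (x w om z : EE n), At β v ρm δ x r → ηt ≤ η0 →
      X0.Con β v x r w om z y → 3 / 4 * NN v x ≤ NN v z → ⟪om, nu v x⟫ < X0.cu1 β → w = β.η • om →
      ‖w + (3 : ℝ) • nu v x‖ < 3 + β.η - β.h →
      ∃ g, RF β v ρm ε ηt C x r g ∧ (r * Bn v x ≤ ηt → TL β v ε C x r g om z) := by
  obtain ⟨δ, C, h0, h0', hC, H⟩ := ball_R n (half_pos hε)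
  obtain ⟨K, hK, hm⟩ := ball_grad n
  obtain ⟨θ, hθ⟩ : ∃ θ, θ = β.h / β.η := ⟨_, rfl⟩
  have θ0 : 0 < θ := hθ ▸ div_pos β.h0 β.η0
  have θ1 : θ ≤ 1 := by linarith [X0.cu1_ge β, X0.cu1_lt β]
  have C1 : 3 + 6 * K ≤ (3 + 6 * K) / θ := le_div_self (by positivity) θ0 θ1
  refine ⟨min (1 / 100) (θ * ε / (36 * (1 + ε))), δ, C + ε + (3 + 6 * K) / θ, by positivity, h0,
    h0', by positivity, fun v ρm r ηt y x w om z h t1 hc s1 c1 hw c2 => ?_⟩
  obtain ⟨t1, t2⟩ := le_min_iff.1 t1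
  have N0 := h.N0
  have L0 := h.L0
  have r0 := h.r0
  have tx := h.sol.tt_nonneg x
  have tz := h.sol.tt_nonneg z
  obtain ⟨σ, hσ⟩ : ∃ σ, σ = NN v z / NN v x := ⟨_, rfl⟩
  obtain ⟨σ1, σ2, σ4, σ5⟩ := sig_bd h s1 hσ
  have hp : z - x = (r - dd v x) • nu v x + (σ * (r - dd v x)) • om := by
    rw [← sub_eq_iff_eq_add', (hc.tay_eq hw).1, hc.y_eq, hσ, sub_add_cancel]
  have p0 := sub_ne_zero.2 hc.ne
  obtain ⟨F, cF, hF, h2, h3, h4⟩ := h.far hc.cone.unit (by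
    have := hc.ypos; rw [hc.y_eq, ← hσ] at this; linarith) hp (hw ▸ c2) p0
    (by rw [add_sub_cancel, ← hw, hc.eq]) (by
      rw [add_sub_cancel, hc.grad, hσ]; congr 2; field_simp)
  obtain ⟨-, -, h5⟩ := H v F x _ r 0 h.sol cF rfl (hF ▸ h.c0) (h.rr_eq hF) h.one h.hd h.t1 le_rfl
    (hF ▸ h.psd) h4
  have c3 : θ ≤ 1 - ⟪om, nu v x⟫ := by linarith only [X0.cu1_lt β, c1, hθ]
  have key := fun hB : r * Bn v x ≤ ηt =>
    hm β v F ρm δ r σ θ x om _ h hc.cone.unit σ1 σ2 p0 hp cF hF h3 c3 (hB.trans t1) _ rfl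
  generalize hgd : ∇ (rr v F) x = g at h5 key
  have rt1 : tt v x ≤ r * tt v x := le_mul_of_one_le_left tx h.one
  refine ⟨g, RF.mono (C := C + ε) (fun e he => ⟨rr v F, rr_c2 h.sol N0 cF (hF ▸ h.c0.ne'),
    h.rr_eq hF, h2, hgd, fun a => (h5 a).trans ?_⟩) (by linarith only [C1, hK]) r0.le,
    fun hB => TL.mono (C := (3 + 6 * K) / θ) ⟨hσ ▸ (key hB).1.trans (mul_le_mul_of_nonneg_right
      (by linarith only [C1, hK]) (by positivity)), fun hc0 => ?_⟩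
      h.sol (by linarith only [hC, hε]) r0.le⟩
  · have a1 : 0 ≤ ε / 2 * (‖g‖ ^ 2 / r) := by positivity
    have a2 : 0 ≤ ε * (r * ‖a‖ ^ 2) := by positivity
    have a3 : 0 ≤ ε * (r * tt v x ^ 2) := by positivity
    have a4 : 0 ≤ ε * (r * hsq (dd v) x) := mul_nonneg hε.le (mul_nonneg r0.le (hsq_nonneg _ _))
    split_ifs with hB
    · have b := thin_pot hε h.one (Real.sqrt_nonneg _) hB t1 t2 (key hB).2.1
      rw [Real.sq_sqrt (hsq_nonneg _ _)] at b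
      simp only [div_eq_mul_inv] at a1 b ⊢
      linarith only [a2, a4, b, he]
    · simp only [div_eq_mul_inv] at a1 ⊢
      linarith only [a1, a2, a3, a4, he]
  obtain ⟨k1, k2, k3⟩ := (key hB).2.2 hc0
  have o1 : ‖om - nu v x‖ ^ 2 = 2 * (1 - ⟪om, nu v x⟫) := by
    rw [norm_sub_sq_real, hc.cone.unit, norm_nu N0]; ring
  have o2 : θ ≤ ‖om - nu v x‖ :=
    (sq_le_sq₀ θ0.le (norm_nonneg _)).1 (by nlinarith only [o1, c3, θ0, θ1])
  refine ⟨by linarith only [k1, C1, hK],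
    k2.trans (le_trans ?_ (mul_le_mul_of_nonneg_right C1 (by positivity))),
    k3.trans ?_, fun h6 => absurd ((hc.cone.cap' h6).1.trans c1) (not_lt.2 (cu1_le_cu0 β))⟩
  · linarith only [mul_nonneg hK tz, σ4, rt1, tz]
  · calc _ ≤ (3 + 6 * K) / θ * r * tt v x * θ := by
          rw [show (3 + 6 * K) / θ * r * tt v x * θ = (3 + 6 * K) * r * tt v x by field_simp]
          linarith only [σ5, rt1, tx]
      _ ≤ _ := mul_le_mul_of_nonneg_left (by linarith only [o2, tx, tz]) (by positivity)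

end

end Crest.Agent.N067.M.Bl
end

-- ▼ part N067/V/X1
section

/-!
# Row 67 (helper55): `X1Stmt` from `FL`, `X0`, cap/rim (`X2`) and the ball contacts
-/

set_option autoImplicit false

open MeasureTheory Laplacian InnerProductSpace Topology Filter Set Metric
open scoped RealInnerProductSpace ContDiff Gradient NNReal

namespace Crest.Agent.N067.M.Bl

open Crest.Agent.R077 Crest.Agent.N067.V Wd

noncomputable section

variable {n : ℕ} {β : Bo} {v F R : EE n → ℝ} {x y p w z om e g ν u : EE n}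
  {r s ρm δ ε ηt C M C2 : ℝ}

theorem isRim (hc : X0.Cone β ν w om) (h : X0.Rim β ν w om) : X2.IsRim β ν w om := by
  have hη := β.η0
  have h1 := β.η1
  have h2 := β.h0
  have h3 := β.h1
  have h4 := X0.cu1_ge β
  have h5 := X0.ga_ge β
  have h6 := X0.ga_le β
  have h0 : 0 < β.η * β.h := by positivity
  have a1 : β.η * (1 - X0.cu1 β) ≤ 101 / 100 * β.h := by
    rw [X0.one_sub_cu1, ← mul_div_assoc, div_le_iff₀ (by positivity)]; nlinarith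
  have a2 : β.η * β.h / 10 ≤ 1 - X0.cu0 β := by
    rw [X0.one_sub_cu0, div_le_div_iff₀ (by positivity) (by positivity)]; nlinarith
  have a3 : ‖X2.Pj ν om‖ ^ 2 = 1 - ⟪om, ν⟫ ^ 2 := by
    rw [show X2.Pj ν om = X0.tan ν om from rfl, X0.norm_tan_sq hc.ax, hc.unit, one_pow]
  have a4 : ‖X2.Pj ν w‖ ^ 2 = β.η ^ 2 - (β.η * X0.cu1 β) ^ 2 := by
    rw [show X2.Pj ν w = X0.tan ν w from rfl, X0.norm_tan_sq hc.ax, h.n1, h.ax]
  have a5 : β.η * β.h / 6 ≤ ‖X2.Pj ν om‖ ^ 2 := by nlinarith [h.ge, h.le]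
  have a6 : 0 ≤ 1 - X0.cu1 β := (div_pos h2 hη).le.trans (X0.cu1_lt β)
  refine ⟨by nlinarith [h.ge], by linarith, (sq_le_sq₀ (norm_nonneg _) (by positivity)).1 ?_, ?_⟩
  · nlinarith [mul_le_mul_of_nonneg_left a1 hη.le, mul_nonneg (sq_nonneg β.η) (sq_nonneg (1 - X0.cu1 β))]
  · have := hc.le ((β.η - β.h) • ν) ⟨by
      rw [norm_smul, hc.ax, Real.norm_of_nonneg (by linarith)]; linarith, by
      rw [← add_smul, norm_smul, hc.ax, Real.norm_of_nonneg (by linarith)]; linarith⟩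
    rw [inner_sub_right, real_inner_smul_right] at this
    linarith

theorem At.mono (h : At β v ρm δ x r) {δ' : ℝ} (h1 : δ ≤ δ') (h2 : δ' ≤ 1 / 4) :
    At β v ρm δ' x r :=
  ⟨h.sol, h.eq, h.one, h2, h.hd.trans (mul_le_mul_of_nonneg_right h1 h.r0.le), h.ht.trans h1, h.fit⟩

theorem At.small (h : At β v ρm δ x r) {δ' : ℝ} (h1 : δ ≤ δ') : X2.Small v δ' r x :=
  ⟨h.t1.trans h1, h.hd.trans (mul_le_mul_of_nonneg_right h1 h.r0.le), h.one⟩

theorem RF.grad (h : RF β v ρm ε ηt C x r g) (hr : rt β v ρm x = r)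
    (hd : DifferentiableAt ℝ (rt β v ρm) x) : ∇ (rt β v ρm) x = g := by
  obtain ⟨R, h1, h2, h3, h4, -⟩ := h 1 one_pos
  rw [← h4, gradient, fderiv_touch (h1.differentiableAt (by simp)) hd (hr.trans h2.symm) h3,
    gradient]

theorem RF.sup (h : RF β v ρm ε ηt C x r g) (hr : rt β v ρm x = r) (r1 : 1 ≤ r)
    (hd : DifferentiableAt ℝ (rt β v ρm) x) (hp : ∀ᶠ y in 𝓝 x, 0 < rt β v ρm y)
    (hB : ∀ a, 0 ≤ (1 + ε) * ph β v ρm x * ‖a‖ ^ 2 + hb (dd v) x a a) :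
    Sup β v ρm ε ηt C x := by
  refine ⟨hB, fun a e he => ?_⟩
  obtain ⟨R, h1, h2, h3, h4, h5⟩ := h e he
  have r0 : 0 < r := by linarith
  have hT : Touch (ph β v ρm) (fun y => (R y)⁻¹) x := ⟨h1.inv (h2 ▸ r0.ne'), by rw [ph, hr, h2],
    (h3.and hp).mono fun y hy => inv_anti₀ hy.2 hy.1⟩
  refine ⟨_, hT, le_trans ?_ (inv_form (v := v) (ε := ε) (C := C) (a := a)
    (P := (if r * Bn v x ≤ ηt then 0 else (1 + ε) * hsq (dd v) x) + e / r) h1 h2 r0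
    ((h5 a).trans_eq (by rw [h4, mul_add r, mul_div_cancel₀ _ r0.ne']; ring)))⟩
  have h6 : r⁻¹ * (e / r) ≤ e := (mul_le_of_le_one_left (by positivity)
    (inv_le_one_of_one_le₀ r1)).trans (div_le_self he.le r1)
  rw [hT.grad_eq (hd.inv (hr ▸ r0.ne')), ph, hr]
  split_ifs <;> linarith

theorem rf_top (hr : rt β v ρm x = ρm) (r0 : 0 < ρm) (hε : 0 < ε) (hC : 0 ≤ C)
    (hB : ∀ a, 0 ≤ (1 + ε) * ph β v ρm x * ‖a‖ ^ 2 + hb (dd v) x a a) :
    RF β v ρm ε ηt C x ρm 0 := fun e he => by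
  refine ⟨fun _ => ρm, contDiffAt_const, rfl, Eventually.of_forall (X0.rt_le_rm β v ρm),
    gradient_fun_const _ _, fun a => ?_⟩
  have h1 := mul_nonneg (sq_nonneg ρm) (hB a)
  rw [ph, hr, show ρm ^ 2 * ((1 + ε) * ρm⁻¹ * ‖a‖ ^ 2 + hb (dd v) x a a) =
    (1 + ε) * ρm * ‖a‖ ^ 2 + ρm ^ 2 * hb (dd v) x a a by field_simp] at h1
  have h2 : 0 ≤ C * ρm * tt v x ^ 2 := by positivity
  have h3 := mul_nonneg r0.le (mul_nonneg (add_pos one_pos hε).le (hsq_nonneg (dd v) x))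
  simp only [Lm_const, norm_zero, inner_zero_left]
  split_ifs <;> norm_num <;> linarith

theorem val_mono {M' : ℝ} (h : x ∈ Val v M C2 ρm) (h0 : 0 < M') (h1 : M' ≤ M) :
    x ∈ Val v M' C2 ρm := ⟨h.1.trans_le (one_div_le_one_div_of_le h0 h1), h.2⟩

theorem log_small {p C2 s : ℝ} (h0 : 0 < p) (h : 4 * |C2| * √p ≤ s) :
    C2 * Real.log (1 / p) ≤ s * (1 / (2 * p)) ∨ 1 ≤ p := by
  refine (lt_or_ge p 1).imp_left fun h1 => ?_
  have a0 := Real.sqrt_pos.2 h0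
  have a1 : Real.log (1 / p) ≤ 2 / √p := by
    have := Real.log_le_sub_one_of_pos (one_div_pos.2 a0)
    rw [one_div, Real.log_inv, Real.log_sqrt h0.le] at this
    rw [one_div, Real.log_inv, div_eq_mul_inv]; linarith
  have a2 : 0 ≤ Real.log (1 / p) := Real.log_nonneg (by rw [le_div_iff₀ h0]; linarith)
  calc _ ≤ |C2| * (2 / √p) := mul_le_mul (le_abs_self _) a1 a2 (abs_nonneg _)
    _ = 4 * |C2| * √p * (1 / (2 * p)) := by
      nth_rw 3 [← Real.mul_self_sqrt h0.le]; field_simp; ring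
    _ ≤ _ := by gcongr

/-- the facts at valid points -/
theorem val_facts (hF : FLStmt n) (h0 : X0Stmt n) (β : Bo) (C2 K M0 : ℝ) (hδ : 0 < δ)
    (δ1 : δ ≤ 1 / 4) : ∃ M : ℝ, 1 ≤ M ∧ ∀ (v : EE n → ℝ) (ρm : ℝ), PS v → ∀ x ∈ Val v M C2 ρm,
      X0.Sm v x (rt β v ρm x) ∧ (∀ᶠ y in 𝓝 x, 0 < rt β v ρm y) ∧ Fit β v x (rt β v ρm x) ∧
      (rt β v ρm x = ρm ∧ 2 * ph0 v x * ρm ≤ 1 ∨
        M0 ≤ rt β v ρm x ∧ |dd v x| ≤ δ * rt β v ρm x) ∧
      (rt β v ρm x * ph0 v x ≤ K → rt β v ρm x * tt v x ≤ δ) := by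
  obtain ⟨M1, C, m1, -, H⟩ := h0 C2 β
  obtain ⟨M2, m2, H2⟩ := hF.tup C2
  obtain ⟨s, hs⟩ : ∃ s, s = δ / (4 * |C2| + |K| + 1) := ⟨_, rfl⟩
  have s0 : 0 < s := hs ▸ by positivity
  have s1 : (4 * |C2| + |K| + 1) * s = δ := by rw [hs]; field_simp
  refine ⟨M1 + M2 + 2 * |M0| + 1 / s ^ 2, by linarith [abs_nonneg M0, one_div_pos.2 (pow_pos s0 2)],
    fun v ρm hv x hx => ?_⟩
  have b0 := one_div_pos.2 (pow_pos s0 2)
  have b1 := abs_nonneg M0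
  have x1 := val_mono hx (M' := M1) (by linarith) (by linarith)
  have x2 := val_mono hx (M' := M2) (by linarith) (by linarith)
  have x3 := (val_mono hx (M' := 1 / s ^ 2) b0 (by linarith)).1
  have x4 := (val_mono hx (M' := 2 * |M0| + 1) (by linarith) (by linarith)).1
  obtain ⟨o1, -, o2⟩ := H v ρm hv
  obtain ⟨a1, a2, a3, a4, -⟩ := o2 x x1
  have p0 := hF.pos v hv x
  rw [one_div_one_div] at x3
  rw [lt_div_iff₀ (by linarith)] at x4
  have p1 : ph0 v x < 1 := by nlinarith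
  have p2 : √(ph0 v x) ≤ s := Real.sqrt_le_iff.2 ⟨s0.le, x3.le⟩
  have p3 := Real.sqrt_nonneg (ph0 v x)
  have t1 : tt v x ≤ ph0 v x * √(ph0 v x) := by
    refine (H2 v hv x x x2.1.le x2.2.1.le (by simpa using (abs_nonneg _).trans x2.2.1.le)).trans ?_
    rw [Real.sqrt_eq_rpow, ← Real.rpow_one_add' p0.le (by norm_num)]
    exact Real.rpow_le_rpow_of_exponent_ge p0 p1.le (by norm_num)
  have k1 := mul_nonneg (abs_nonneg C2) s0.le
  have k2 := mul_nonneg (abs_nonneg K) s0.le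
  have d1 : |dd v x| < rt β v ρm x := by linarith [abs_nonneg (dd v x)]
  refine ⟨⟨hv.toSol, by nlinarith [one_sub_NN hv.toSol x], a2⟩, ?_, a4 _ d1 le_rfl, ?_, fun hK => ?_⟩
  · filter_upwards [o1.mem_nhds x1] with y hy
    linarith [(o2 y hy).2.1, abs_nonneg (dd v y)]
  · rcases le_total ρm (1 / (2 * ph0 v x)) with h | h
    · rw [min_eq_left h] at a3
      exact Or.inl ⟨a1.antisymm a3, by rwa [le_div_iff₀ (by positivity), mul_comm] at h⟩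
    · rw [min_eq_right h] at a3
      refine Or.inr ⟨le_trans ?_ a3, hx.2.1.le.trans (((log_small (s := δ) p0 ?_).resolve_right
        p1.not_ge).trans (mul_le_mul_of_nonneg_left a3 hδ.le))⟩
      · rw [le_div_iff₀ (by positivity)]; nlinarith [le_abs_self M0]
      · nlinarith [mul_le_mul_of_nonneg_left p2 (abs_nonneg C2)]
  · have r0 : 0 ≤ rt β v ρm x := (abs_nonneg _).trans d1.le
    calc _ ≤ rt β v ρm x * ph0 v x * √(ph0 v x) := by
          rw [mul_assoc]; exact mul_le_mul_of_nonneg_left t1 r0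
      _ ≤ |K| * s := mul_le_mul (hK.trans (le_abs_self K)) p2 p3 (abs_nonneg K)
      _ ≤ δ := by linarith

theorem psd_of (hε : 0 < ε) (hδ : δ ≤ ε / (1 + ε)) (h : X0.Sm v x (rt β v ρm x))
    (hf : Fit β v x (rt β v ρm x))
    (h1 : rt β v ρm x = ρm ∧ 2 * ph0 v x * ρm ≤ 1 ∨ |dd v x| ≤ δ * rt β v ρm x) (a : EE n) :
    0 ≤ (1 + ε) * ph β v ρm x * ‖a‖ ^ 2 + hb (dd v) x a a := by
  have r0 : 0 < rt β v ρm x := by linarith [h.r8]
  have key : ∀ c, c * rt β v ρm x ≤ 1 + ε → 0 ≤ hb (dd v) x a a + c * ‖a‖ ^ 2 →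
      0 ≤ (1 + ε) * ph β v ρm x * ‖a‖ ^ 2 + hb (dd v) x a a := fun c h2 h3 => by
    rw [← le_div_iff₀ r0, div_eq_mul_inv] at h2
    rw [ph]
    linarith [mul_le_mul_of_nonneg_right h2 (sq_nonneg ‖a‖)]
  rcases h1 with ⟨h1, h2⟩ | h1
  · refine key _ ?_ (hb_add_nonneg h.sol x a)
    rw [← h1] at h2
    nlinarith [le_max_left (phi (dd v) x) (phi (dd (ng v)) x), show ph0 v x = max _ _ from rfl,
      phi_nonneg h.sol x]
  · refine key _ ?_ (h.psd hf a)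
    rw [le_div_iff₀ (by positivity)] at hδ
    rw [div_mul_eq_mul_div, div_le_iff₀ h.Lpos]
    nlinarith [NN_le h.sol x, (abs_le.1 h1).2, mul_le_mul_of_nonneg_right hδ r0.le]

theorem x1_of (hF : FLStmt n) (h0 : X0Stmt n) (hC : X2.CRStmt n) (hX : X2.FxStmt n) :
    X1Stmt n := fun ε hε e0 he0 => by
  obtain ⟨δ0, d0, hC⟩ := hC ε hε
  obtain ⟨δx, Cx, dx, cx, hX⟩ := hX ε hε
  obtain ⟨η, η0, η1⟩ : ∃ η > 0, η ≤ min e0 (min δ0 (1 / 100)) := ⟨_, by positivity, le_rfl⟩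
  obtain ⟨κ, κ0, κ1⟩ : ∃ κ > 0, κ ≤ min δx (min δ0 (1 / 10000)) := ⟨_, by positivity, le_rfl⟩
  simp only [le_min_iff] at η1 κ1
  obtain ⟨β, bη, bh⟩ : ∃ β : Bo, β.η = η ∧ β.h = κ * η :=
    ⟨⟨η, κ * η, η0, η1.2.2, by positivity, by nlinarith [κ1.2.2]⟩, rfl, rfl⟩
  obtain ⟨ηc, δc, Cc, ec, dc, cc, hC⟩ := hC β (bη ▸ η1.2.1)
    (by rw [bh, bη]; exact mul_le_mul_of_nonneg_right κ1.2.1 η0.le)
  replace hX := hX β (by rw [bh, bη]; exact mul_le_mul_of_nonneg_right κ1.1 η0.le)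
  obtain ⟨ηb, δb, Cb, eb, db, db', cb, hB⟩ := ballS n hε β
  obtain ⟨δd, Cd, dd0, dd', cd, hD⟩ := degS n hε
  obtain ⟨ηt, t0, t1⟩ : ∃ ηt > 0, ηt ≤ min ηc (min ηb (1 / 100)) := ⟨_, by positivity, le_rfl⟩
  obtain ⟨δ, δp, δ1⟩ : ∃ δ > 0, δ ≤ min (min δc δx) (min (min δb δd) (ε / (1 + ε))) :=
    ⟨_, by positivity, le_rfl⟩
  simp only [le_min_iff] at t1 δ1
  obtain ⟨⟨δ1, δ2⟩, ⟨δ3, δ4⟩, δ5⟩ := δ1
  have δ6 : δ ≤ 1 / 4 := δ3.trans db'
  have δ7 : δ ^ 2 / 80 ≤ δ / 2 := by nlinarith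
  have δ8 : δ ^ 2 / 80 ≤ δ := by linarith
  have n0 : (0 : ℝ) ≤ n := n.cast_nonneg
  obtain ⟨C, c1, c2, c3, c4, c5⟩ : ∃ C : ℝ, Cc ≤ C ∧ Cx ≤ C ∧ Cb ≤ C ∧ Cd ≤ C ∧ 2 * n + 1 ≤ C :=
    ⟨Cc + Cx + Cb + Cd + (2 * n + 1), by linarith, by linarith, by linarith, by linarith,
      by linarith⟩
  obtain ⟨M0, hM⟩ := X0.contact n δp δ6
  refine ⟨β, ηt, C, bη ▸ η1.1, t0, t1.2.2, cc.trans c1, fun C2 K => ?_, fun C2 => ?_⟩
  swap
  · obtain ⟨M, m1, H⟩ := val_facts hF h0 β C2 0 0 δp δ6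
    refine ⟨M, m1, fun v ρm hv x hx => ?_⟩
    obtain ⟨a1, -, a3, a4, -⟩ := H v ρm hv x hx
    exact psd_of hε δ5 a1 a3 (a4.imp_right And.right)
  obtain ⟨M, m1, H⟩ := val_facts hF h0 β C2 K M0 (δ := δ ^ 2 / 80) (by positivity) (δ8.trans δ6)
  refine ⟨M, m1, fun v ρm hv x hx hK hd => ?_⟩
  obtain ⟨a1, a2, a3, a4, a5⟩ := H v ρm hv x hx
  have ps := psd_of hε (δ8.trans δ5) a1 a3 (a4.imp_right And.right)
  have r1 : 1 ≤ rt β v ρm x := by linarith only [a1.r8]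
  have r0 : 0 ≤ rt β v ρm x := zero_le_one.trans r1
  suffices h : ∃ g, RF β v ρm ε ηt C x (rt β v ρm x) g ∧ (rt β v ρm x < ρm →
      rt β v ρm x * Bn v x ≤ ηt → ∃ w om z, Ct β v ρm ε C x g w om z) by
    obtain ⟨g, h1, h2⟩ := h
    exact ⟨h1.sup rfl r1 hd a2 ps, by rwa [h1.grad rfl hd]⟩
  rcases (X0.rt_le_rm β v ρm x).eq_or_lt with hρ | hρ
  · exact ⟨0, hρ.symm ▸ rf_top hρ (by linarith only [hρ, r1]) hε (by linarith only [cc, c1]) ps,
      fun h => absurd hρ h.ne⟩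
  obtain ⟨a6, a7⟩ := a4.resolve_left fun h => hρ.ne h.1
  have hA : At β v ρm (δ ^ 2 / 80) x (rt β v ρm x) :=
    ⟨a1.sol, rfl, r1, δ8.trans δ6, a7, a5 hK, a3⟩
  rcases hM β v ρm x a1 a7 a6 hρ with ⟨e, he⟩ | ⟨w, om, z, y, hc, hy⟩
  · obtain ⟨h1, g, h2⟩ := (hD β v ρm _ ηt x (hA.mono (δ8.trans δ4) dd') t1.2.2).2 e he
    exact ⟨g, h2.mono c4 r0, fun _ h => absurd h h1⟩
  have s0 := hc.sig hy
  have s1 : 3 / 4 * NN v x ≤ NN v z :=
    le_trans (mul_le_mul_of_nonneg_right (by linarith only [δ6]) (NN_nonneg v x)) s0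
  suffices h : ∃ g, RF β v ρm ε ηt C x (rt β v ρm x) g ∧
      (rt β v ρm x * Bn v x ≤ ηt → TL β v ε C x (rt β v ρm x) g om z) by
    obtain ⟨g, h1, h2⟩ := h
    exact ⟨g, h1, fun _ h => ⟨w, om, z, hc.cone.mem, hc.cone.unit, hc.ne, s1, hc.pos, hc.grad, hc.eq,
      hc.cone.key, fun h => (hc.cone.cap' h).2, (hc.lap (le_trans (mul_le_mul_of_nonneg_right
        (by linarith only [δ6]) a1.Lpos.le) hy)).trans c5, (h2 h).1, (h2 h).2⟩⟩
  have sg : |1 - NN v z / NN v x| ≤ δ := by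
    have := hA.N0
    rw [abs_le, ← sub_nonneg, sub_le_comm, le_div_iff₀ this, sub_neg_eq_add, sub_add_eq_add_sub,
      sub_nonneg, div_le_iff₀ this]
    exact ⟨by nlinarith only [NN_le a1.sol z, one_sub_NN a1.sol x, hA.t1, δ7, hA.N1, δp], s0⟩
  have hcr : X2.IsCap β (nu v x) w om ∨ X2.IsRim β (nu v x) w om → ∃ g,
      RF β v ρm ε ηt C x (rt β v ρm x) g ∧
      (rt β v ρm x * Bn v x ≤ ηt → TL β v ε C x (rt β v ρm x) g om z) := fun h => by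
    obtain ⟨g, h1, h2⟩ := hC v ρm _ ηt x w om z a1.sol t0.le t1.1 (hA.small (δ8.trans δ1))
      (by have := hA.tc; rwa [← mul_div_assoc, le_div_iff₀ hA.L0] at this) hA.psd
      ⟨hc.cone.mem, hc.cone.unit, sg.trans δ1, hc.pos, hc.grad, hc.eq⟩ h
    refine ⟨g, RF.mono h2 c1 r0, fun hB => TL.mono ?_ a1.sol c2 r0⟩
    obtain ⟨k1, k2, k3, k4, k5⟩ := hX v _ x w om z g a1.sol (hA.small (δ8.trans δ2))
      ⟨hc.cone.mem, hc.cone.unit, sg.trans δ2, hc.pos, hc.grad, hc.eq⟩ h h1 (hB.trans t1.2.2)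
    exact ⟨k1, fun _ => ⟨k2, k3, k4, fun _ => k5.trans (add_le_add_left (le_add_of_nonneg_right
      (mul_nonneg (zero_le_one.trans cx) (sq_nonneg _))) _)⟩⟩
  rcases hc.tri with h | h | h
  · obtain ⟨g, h1, h2⟩ := hB v ρm _ ηt y x w om z (hA.mono (δ8.trans δ3) db') t1.2.1 hc s1 h.1
      h.2.1 h.2.2
    exact ⟨g, h1.mono c3 r0, fun h => (h2 h).mono a1.sol c3 r0⟩
  · exact hcr (Or.inl h.2)
  · exact hcr (Or.inr (isRim hc.cone h.1))

end

end Crest.Agent.N067.M.Bl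
end

-- ▼ part N067/M/Err

/-!
# Row 67 (helper94): ERR.  The error `th rp t²` is paid by the kept Kato gain where `∇ rp` is not
tiny, and else at the foot: by `t Z²` when `Z` is comparable, by the SSY term at thick points.
-/

set_option autoImplicit false

open MeasureTheory InnerProductSpace Set Metric Filter
open scoped RealInnerProductSpace Gradient ENNReal

namespace Crest.Agent.N067.M.Er

open Crest.Agent.R077 Wd Y

variable {n : ℕ} {D : Dat n} {K lam C1 rs A l E u : ℝ} {x y : EE n} {th : EE n → ℝ}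

theorem F_ge (hf : 0 ≤ D.f0) {a t : ℝ} (ha : 0 ≤ a) (h : a ^ 2 ≤ t) :
    t * (a ^ 3 / (1 + D.f0 * a)) ≤ D.F t := by
  obtain ⟨s, s0, rfl⟩ : ∃ s, 0 ≤ s ∧ t = s ^ 2 :=
    ⟨√t, Real.sqrt_nonneg _, (Real.sq_sqrt ((sq_nonneg a).trans h)).symm⟩
  have h1 : a ≤ s := (abs_le_of_sq_le_sq' h s0).2
  have h2 : (s ^ 2) ^ (5 / 2 : ℝ) = s ^ 2 * s ^ 3 := by
    rw [← pow_add, ← Real.rpow_natCast s 2, ← Real.rpow_mul s0, ← Real.rpow_natCast]; norm_num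
  have h3 : √(1 + D.f0 ^ 2 * s ^ 2) ≤ 1 + D.f0 * s :=
    Real.sqrt_le_iff.2 ⟨by positivity, by nlinarith [mul_nonneg hf s0]⟩
  have h4 : a ^ 3 / (1 + D.f0 * a) ≤ s ^ 3 / (1 + D.f0 * s) := by
    rw [div_le_div_iff₀ (by positivity) (by positivity)]
    have b1 := pow_le_pow_left₀ ha h1 3
    have b2 := mul_le_mul_of_nonneg_left h (show 0 ≤ D.f0 * a * s by positivity)
    linarith
  rw [Dat.F, h2, mul_div_assoc]
  refine mul_le_mul_of_nonneg_left (h4.trans ?_) (sq_nonneg _)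
  gcongr

section

variable (O : D.Ok K lam C1 rs) (B : D.Bas)
include O B

theorem U_act (hx : x ∈ D.Om) (h : D.κ0 * D.h (D.rm x) ≤ D.h (D.rp x)) :
    D.κ0 * D.U x ≤ 2 * D.h (D.rp x) := by
  have h1 := mul_le_mul_of_nonneg_left (O.U_le B hx) O.k0.le
  have h2 := mul_le_mul_of_nonneg_right O.k1 (O.hp_pos B hx).le
  rcases min_choice (D.rp x) (D.rm x) with e | e <;> rw [e] at h1 <;> linarith

theorem Z_low (hx : x ∈ D.Om) (h : D.κ0 * D.h (D.rm x) ≤ D.h (D.rp x)) (hr : D.rp x ≤ D.f0) :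
    D.κ0 * D.κ0 * D.Z x ≤ D.Z0 * (D.f0 / D.rp x) ^ 2 := by
  have r8 := B.rp8 hx
  have k0 := O.k0
  have f0 := one_pos.trans_le O.f1
  have U0 := O.U_pos B hx
  have h1 : D.κ0 * (D.rp x / D.f0) * D.U x ≤ 80 / D.f0 := by
    have b1 := (U_act O B hx h).trans
      (mul_le_mul_of_nonneg_left (O.hpos _ (by linarith)).2.1 zero_le_two)
    rw [mul_one_div, le_div_iff₀ (by linarith)] at b1
    rw [mul_right_comm, ← mul_div_assoc]
    gcongr
    linarith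
  have h2 := (O.z_sq U0 (by positivity) (mul_le_one₀ O.k1 (by positivity)
    ((div_le_one f0).2 hr))).trans (O.zmono (mem_Ici.2 (by positivity))
      (mem_Ici.2 (by positivity)) h1)
  refine le_trans (le_of_eq ?_) (mul_le_mul_of_nonneg_right h2 (sq_nonneg _))
  rw [O.Z_eq B hx]
  field_simp

theorem Z_high (hx : x ∈ D.Om) (h : D.κ0 * D.h (D.rm x) ≤ D.h (D.rp x)) (hr : D.f0 ≤ D.rp x) :
    D.κ0 * D.κ0 * D.Z x ≤ K * D.Z0 * (D.f0 / D.rp x) ^ 4 := by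
  have r8 := B.rp8 hx
  have k0 := O.k0
  have U0 := O.U_pos B hx
  have h0 := O.hp_pos B hx
  have h2 := (O.z_sq U0 k0.le O.k1).trans (O.zmono (mem_Ici.2 (by positivity))
    (mem_Ici.2 (by positivity)) (show _ ≤ 3 * D.h (D.rp x) by linarith [U_act O B hx h]))
  rw [div_pow, ← mul_div_assoc, le_div_iff₀' (by positivity), O.Z_eq B hx, ← sq]
  exact (mul_le_mul_of_nonneg_left h2 (by positivity)).trans (O.zdec _ hr).2

/-- below `f0` the weight `Z` is comparable -/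
theorem Z_mod (hx : x ∈ D.Om) {b : ℝ} (hb : 1 ≤ b) (h1 : ph0 D.v x ≤ b * ph0 D.v y)
    (h2 : 2 * b / ph0 D.v x ≤ D.f0) : (3 / (64 * b)) ^ 2 * D.Z x ≤ D.Z y := by
  have px := B.ph x
  have py := B.ph y
  have t1 : 3 / (64 * b) ≤ 1 := (div_le_one (by positivity)).2 (by linarith)
  by_cases hy : y ∈ D.Om
  swap
  · rw [Dat.Z, Dat.Z, if_neg hy]
    exact mul_le_one₀ (pow_le_one₀ (by positivity) t1) (O.Z_mem B x).1.le (O.Z_mem B x).2
  have U0 := O.U_pos B hx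
  have a1 : 1 / ph0 D.v x / 2 ≤ min (D.rp x) (D.rm x) := by
    refine le_trans (le_min ?_ le_rfl) (B.le_min hx)
    have b1 : 1 / ph0 D.v x ≤ 2 * b / ph0 D.v x := by gcongr; linarith
    nlinarith [O.rm, O.f1, one_div_pos.2 px]
  have a2 : D.U x ≤ 4 * ph0 D.v x := by
    have b1 := (O.h_anti (by positivity) a1).trans (O.hpos _ (by positivity)).2.1
    rw [show 1 / (1 / ph0 D.v x / 2) = 2 * ph0 D.v x by field_simp] at b1
    linarith [O.U_le B hx]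
  have a3 : min (D.rp y) (D.rm y) ≤ 2 * b / ph0 D.v x := by
    refine (B.min_le hy).trans ?_
    rw [mul_one_div, div_le_div_iff₀ py px]
    linarith
  have a4 := ((O.hlow _ (by positivity) h2).1.trans (O.h_anti
    (lt_min (by linarith [B.rp8 hy]) (by linarith [B.rm8 hy])) a3)).trans (O.hmin_le_U B hy)
  rw [O.Z_eq B hx, O.Z_eq B hy]
  refine (O.z_sq U0 (by positivity) t1).trans (O.zmono (mem_Ici.2 (by positivity))
    (O.U_pos B hy).le (le_trans ?_ a4))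
  exact (mul_le_mul_of_nonneg_left a2 (by positivity)).trans_eq (by field_simp; ring)

/-- payment by `t Z²` -/
theorem pay_t (N : Num A l E u) {c : ℝ} (hc : u ^ 10 * c ≤ E ^ 2)
    (hZ : D.Z x ≤ E ^ 8 * D.Z y) : E ^ 9 * u ^ 19 * c * tt D.v y * D.Z x ^ 2 ≤ D.Gain y := by
  have u0 := N.u0
  have E0 := N.E0
  have t0 := B.sol.tt_nonneg y
  have z0 := (O.Z_mem B x).1
  calc _ = E ^ 9 * u ^ 9 * (u ^ 10 * c) * tt D.v y * D.Z x ^ 2 := by ring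
    _ ≤ E ^ 9 * u ^ 9 * E ^ 2 * tt D.v y * (E ^ 8 * D.Z y) ^ 2 := by gcongr
    _ = E ^ 27 * u ^ 9 * (tt D.v y * D.Z y ^ 2) := by ring
    _ ≤ _ := (mul_le_of_le_one_left (by positivity) (N.small 27 9)).trans (O.gain_t B y)

/-- payment by the SSY term -/
theorem pay_F (N : Num A l E u) {c r q : ℝ} (hr : 0 < r) (hq : D.f0 / r = q)
    (ht : (1 / (2 * E ^ 2 * r)) ^ 2 ≤ tt D.v y)
    (h : 8 * E ^ 15 * u ^ 19 * c * (1 + q) * D.Z x ^ 2 ≤ D.Z0 ^ 2 * q ^ 3) :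
    E ^ 9 * u ^ 19 * c * tt D.v y * D.Z x ^ 2 ≤ D.Gain y := by
  have u0 := N.u0
  have E0 := N.E0
  have f0 := one_pos.trans_le O.f1
  have t0 := B.sol.tt_nonneg y
  have q0 : 0 < q := hq ▸ div_pos f0 hr
  have e : D.f0 * (1 / (2 * E ^ 2 * r)) = q / (2 * E ^ 2) := by rw [← hq]; field_simp
  refine le_trans ?_ ((mul_le_mul_of_nonneg_left (F_ge f0.le (by positivity) ht)
    (by positivity)).trans (O.gain_F B y))
  have h1 : q / (2 * E ^ 2) ≤ q := div_le_self q0.le (by nlinarith)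
  calc _ = tt D.v y * (8 * E ^ 15 * u ^ 19 * c * (1 + q) * D.Z x ^ 2) / (8 * E ^ 6 * (1 + q)) := by
        field_simp
    _ ≤ tt D.v y * (D.Z0 ^ 2 * q ^ 3) / (8 * E ^ 6 * (1 + q / (2 * E ^ 2))) := by gcongr
    _ = _ := by rw [e, ← hq]; field_simp; ring

/-- the pointwise payment at the foot -/
theorem pay (hl : lam ≤ 3) (T : D.Th' th) (hx : x ∈ D.Om) (h0 : th x ≠ 0) (N : Num A l E u)
    (L : Loc D.v E u x y) (hu : u ^ 10 = ph0 D.v x) {ηt A' : ℝ} (η0 : 0 < ηt) (a1 : K ≤ A)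
    (a2 : 2 * (3 + 72 * K / D.κ0) ≤ A) (a3 : 1 / D.κ0 ≤ A) (a4 : 1 / ηt ≤ A) (a5 : 0 ≤ A')
    (a6 : 3 * A' ≤ A) (hthin : D.rp x < D.ρm → D.rp x * Bn D.v x ≤ ηt →
      D.rp y ≤ D.rp x + A' * √l) :
    E ^ 9 * u ^ 19 * (th x * D.rp x) * tt D.v y * D.Z x ^ 2 ≤ D.Gain y := by
  have u0 := N.u0
  have E0 := N.E0
  have k0 := O.k0
  have r8 := B.rp8 hx
  have act := T.act x hx h0
  have th0 := T.nonneg x
  have th3 := O.th_three B hl T hx
  have z0 := (O.Z_mem B x).1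
  have z1 := (O.Z_mem B y).1
  have Z0 := O.Z0_pos
  have r1 : D.rp x * u ^ 10 ≤ E := hu ▸ (O.act_ph B hl hx act).trans (a2.trans N.le)
  have c1 : u ^ 10 * (th x * D.rp x) ≤ 3 * E := by
    linarith [mul_le_mul th3 r1 (by positivity) (by norm_num)]
  have c2 : u ^ 10 * (th x * D.rp x) ≤ E ^ 2 := by nlinarith only [c1, E0]
  have k1 : 1 ≤ E * D.κ0 := (div_le_iff₀ k0).1 (a3.trans N.le)
  have k2 : D.Z x ≤ E ^ 2 * (D.κ0 * D.κ0 * D.Z x) :=
    (le_mul_of_one_le_left z0.le (one_le_pow₀ k1 (n := 2))).trans_eq (by ring)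
  have cmp : ∀ a : ℝ, 0 ≤ a → a ≤ A' * √l → (y ∈ D.Om → D.rp y ≤ D.rp x + a) →
      D.Z x ≤ E ^ 8 * D.Z y := fun a h1 h2 h3 => by
    have b1 : 1 ≤ E * Real.exp (-(3 * a)) := by
      rw [Real.exp_neg, ← div_eq_mul_inv, one_le_div (Real.exp_pos _)]
      exact (Real.exp_le_exp.2 (by nlinarith only [h2, a6, Real.sqrt_nonneg l])).trans N.exp
    have b2 : 1 ≤ E ^ 4 * (D.κ0 * Real.exp (-(3 * a)) / 2) :=
      (one_le_mul_of_one_le_of_one_le (one_le_mul_of_one_le_of_one_le k1 b1)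
        (show 1 ≤ E ^ 2 / 2 by nlinarith only [E0])).trans_eq (by ring)
    exact ((le_mul_of_one_le_left z0.le (one_le_pow₀ b2 (n := 2))).trans_eq (by ring)).trans
      (mul_le_mul_of_nonneg_left (O.Z_cmp B hl hx act h1 h3) (by positivity))
  rcases le_total (2 * E ^ 3 / ph0 D.v x) D.f0 with hf | hf
  · refine pay_t O B N c2 (le_trans ?_ (mul_le_mul_of_nonneg_left
      (Z_mod O B hx (one_le_pow₀ N.E1) (hu ▸ L.ph) hf) (by positivity)))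
    have b2 : 1 ≤ E ^ 4 * (3 / (64 * E ^ 3)) :=
      (show 1 ≤ 3 * E / 64 by linarith).trans_eq (by field_simp)
    exact (le_mul_of_one_le_left z0.le (one_le_pow₀ b2 (n := 2))).trans_eq (by ring)
  rcases (B.p.le x hx).eq_or_lt with hm | hm
  · exact pay_t O B N c2 (cmp 0 le_rfl (by positivity) fun hy => by
      rw [add_zero]; exact (B.p.le y hy).trans hm.ge)
  rcases le_total (D.rp x * Bn D.v x) ηt with hη | hη
  · exact pay_t O B N c2 (cmp _ (by positivity) le_rfl fun _ => hthin hm hη)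
  have r2 : 1 / (2 * ph0 D.v x) ≤ D.rp x := (min_le_iff.1 (B.p.lo x hx)).resolve_left hm.not_ge
  have ht : (1 / (2 * E ^ 2 * D.rp x)) ^ 2 ≤ tt D.v y := by
    have b1 : 1 ≤ E * (D.rp x * Bn D.v x) :=
      ((div_le_iff₀ η0).1 (a4.trans N.le)).trans (by gcongr)
    have b2 := one_le_pow₀ b1 (n := 2)
    rw [mul_pow, mul_pow, Bn, Real.sq_sqrt (hsq_nonneg _ _)] at b2
    have b3 := mul_le_mul_of_nonneg_left L.hsq (show 0 ≤ E ^ 2 * D.rp x ^ 2 by positivity)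
    have b4 : E ^ 11 * u ^ 16 * (D.rp x * u ^ 10) ^ 2 ≤ E ^ 11 * u ^ 16 * E ^ 2 := by gcongr
    have b5 := mul_nonneg (show 0 ≤ E ^ 4 * D.rp x ^ 2 by positivity) (B.sol.tt_nonneg y)
    rw [div_pow, div_le_iff₀ (by positivity)]
    linarith [N.small' 13 16]
  obtain ⟨q, hq⟩ : ∃ q, D.f0 / D.rp x = q := ⟨_, rfl⟩
  have q0 : 0 < q := hq ▸ div_pos (one_pos.trans_le O.f1) (by linarith)
  refine pay_F O B N (by linarith) hq ht ?_
  rcases le_total (D.rp x) D.f0 with h | h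
  · have b1 := k2.trans (mul_le_mul_of_nonneg_left (Z_low O B hx act h) (by positivity))
    have b2 : th x * D.rp x ≤ 3 := (le_div_iff₀ (by linarith)).1 (O.th_low B T hx h)
    have b3 : 1 ≤ q := hq ▸ (one_le_div (by linarith)).2 h
    have b4 : q ≤ 4 * E ^ 3 := by
      rw [← hq, div_le_iff₀ (by linarith)]
      exact (hf.trans_eq (by field_simp; ring)).trans
        (mul_le_mul_of_nonneg_left r2 (by positivity))
    rw [hq] at b1
    calc _ ≤ 8 * E ^ 15 * u ^ 19 * 3 * (q + q) * (E ^ 2 * (D.Z0 * q ^ 2)) ^ 2 := by gcongr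
      _ = 48 * E ^ 19 * u ^ 19 * q ^ 2 * (D.Z0 ^ 2 * q ^ 3) := by ring
      _ ≤ 48 * E ^ 19 * u ^ 19 * (4 * E ^ 3) ^ 2 * (D.Z0 ^ 2 * q ^ 3) := by gcongr
      _ = 768 * (E ^ 25 * u ^ 19) * (D.Z0 ^ 2 * q ^ 3) := by ring
      _ ≤ E ^ 2 * (E ^ 25 * u ^ 19) * (D.Z0 ^ 2 * q ^ 3) := by gcongr; nlinarith only [E0]
      _ ≤ _ := mul_le_of_le_one_left (by positivity) (by linarith [N.small 27 19])
  · have b1 := k2.trans (mul_le_mul_of_nonneg_left (Z_high O B hx act h) (by positivity))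
    have b3 : q ≤ 1 := hq ▸ (div_le_one (by linarith)).2 h
    have b4 := a1.trans N.le
    have b5 := O.K1
    rw [hq] at b1
    calc _ = 8 * E ^ 15 * u ^ 9 * (u ^ 10 * (th x * D.rp x)) * (1 + q) * D.Z x ^ 2 := by ring
      _ ≤ 8 * E ^ 15 * u ^ 9 * E ^ 2 * (1 + 1) * (E ^ 2 * (K * D.Z0 * q ^ 4)) ^ 2 := by gcongr
      _ = 16 * E ^ 21 * u ^ 9 * K ^ 2 * q ^ 5 * (D.Z0 ^ 2 * q ^ 3) := by ring
      _ ≤ E * E ^ 21 * u ^ 9 * E ^ 2 * 1 ^ 5 * (D.Z0 ^ 2 * q ^ 3) := by gcongr; linarith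
      _ ≤ _ := mul_le_of_le_one_left (by positivity) (by linarith [N.small 24 9])

end

/-- COL at the foot -/
theorem thin (n : ℕ) (C : ℝ) : ∃ A' : ℝ, 1 ≤ A' ∧ ∀ (β : Bo) (v : EE n → ℝ) (ρm ε A E u : ℝ)
    (x g w om z y : EE n), Sol v → Ct β v ρm ε C x g w om z → Num A (|dd v x| + 2) E u →
    Loc v E u x y → A' ≤ A → |C| ≤ A → 10 / √(β.η * β.h) ≤ A → ‖g‖ ≤ u ^ 8 →
    8 * |dd v x| + 8 ≤ rt β v ρm x → rt β v ρm x * u ^ 10 ≤ E → 1 ≤ 2 * u ^ 10 * rt β v ρm x →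
    rt β v ρm y ≤ rt β v ρm x + A' * √(|dd v x| + 2) := by
  obtain ⟨A', hA', h⟩ := col n C
  refine ⟨A', hA', fun β v ρm ε A E u x g w om z y hv ct N L a1 a2 a3 hg h8 r1 r2 => ?_⟩
  have u0 := N.u0
  have E0 := N.E0
  have d0 := abs_nonneg (dd v x)
  have u1 : u ≤ 1 := by simpa using N.small 0 1
  have s19 : u ^ 19 ≤ 1 / 100 := by simpa using N.small' 0 19
  have u19 : u ^ 19 ≤ u ^ 8 := pow_le_pow_of_le_one u0.le u1 (by norm_num)
  have t0 := hv.tt_nonneg x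
  have s0 : 0 < √(β.η * β.h) := Real.sqrt_pos.2 (mul_pos β.η0 β.h0)
  have s1 : ∀ a : ℝ, E * a ≤ 1 / 2 → a < √(β.η * β.h) / 10 := fun a ha => by
    have b1 := (div_le_iff₀ s0).1 (a3.trans N.le)
    refine lt_of_mul_lt_mul_left (a := E) ?_ (by linarith)
    linarith
  have hτ : ‖om - nu v x‖ ≤ 4 * E * u ^ 8 := by
    have b1 := tilt_le ct.unit (norm_nu (NN_pos (v := v) (y := x) (by linarith [L.tx])))
      (div_nonneg (NN_nonneg v z) (NN_nonneg v x))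
    have b2 : C * (‖g‖ + tt v x) ≤ E * (u ^ 8 + u ^ 8) :=
      mul_le_mul ((le_abs_self C).trans (a2.trans N.le)) (by linarith [L.tx]) (by positivity)
        (by linarith)
    linarith [ct.tilt]
  have r0 : 0 ≤ rt β v ρm x := by linarith
  refine h β v ρm ε _ _ _ _ x g w om z y hv ct rfl (by linarith) (by linarith) h8 ?_ hτ
    (s1 _ (by linarith [N.small' 2 8])) L.nu (s1 _ (by linarith [N.small' 5 10])).le L.dy
    (by linarith [L.ty]) L.bs ?_ ?_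
  · linarith [mul_le_mul_of_nonneg_left L.tx r0, N.small' 1 9,
      mul_le_mul_of_nonneg_left r1 (pow_pos u0 9).le]
  · linarith [N.small' 6 8, mul_le_mul_of_nonneg_left r1 (show 0 ≤ E ^ 5 * u ^ 8 by positivity)]
  · have b1 : A' * (|dd v x| + 2) ≤ E * E :=
      mul_le_mul (a1.trans N.le) N.l1 (by positivity) (by positivity)
    have b2 := mul_le_mul_of_nonneg_left r1 (show 0 ≤ E ^ 4 by positivity)
    have b3 : E ^ 2 ≤ E ^ 5 := pow_le_pow_right₀ N.E1 (by norm_num)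
    have b4 : (A' * (|dd v x| + 2) + 2 * rt β v ρm x * (E ^ 4 * u ^ 10)) ^ 2 ≤ (3 * E ^ 5) ^ 2 :=
      pow_le_pow_left₀ (by positivity) (by linarith) 2
    have b5 := mul_le_mul_of_nonneg_left r2 (show 0 ≤ 9 * E ^ 10 by positivity)
    linarith [mul_le_mul_of_nonneg_right (N.small' 10 10) r0]

end Crest.Agent.N067.M.Er

namespace Crest.Agent.N067.M

open Crest.Agent.R077 Wd Y Er

/-- **ERR** -/
theorem err {n : ℕ} (fl : FLStmt n) (x0 : X0Stmt n) : ErrStmt n := by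
  intro β ε ηt C K lam κ0 e η0 hX _ hl he
  obtain ⟨Ac, Ac0, hAc⟩ := charge n (r0 := 1 / 2) (by norm_num)
  obtain ⟨A', hA', hthin⟩ := thin n C
  obtain ⟨K', hK'⟩ : ∃ K', K' = 2 * (3 + 72 * K / κ0) := ⟨_, rfl⟩
  obtain ⟨A, hA⟩ := ({K, K', 1 / κ0, 1 / ηt, 3 * A', |C|, 10 / √(β.η * β.h), Ac / e, 1 / e,
    ((n + 1 : ℕ) : ℝ)} : Set ℝ).toFinite.bddAbove
  simp only [mem_upperBounds, mem_insert_iff, mem_singleton_iff, forall_eq_or_imp, forall_eq] at hA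
  obtain ⟨a1, a2, a3, a4, a5, a6, a7, a8, a9, a10⟩ := hA
  refine ((big_bas fl x0 K lam κ0 β).and (big_M (P := fun D => D.Bas → _) fun C2 => ?_)).mono
    fun D h => h.2 h.1
  obtain ⟨M1, hM1, hx1⟩ := hX C2 K'
  obtain ⟨M2, hM2, hx2⟩ := foot fl A C2
  refine ⟨max M1 M2, fun D C1 rs e1 e2 e3 hM O B th T => ?_⟩
  subst e1 e2 e3
  obtain ⟨c, hc⟩ : ∃ c : EE n → ℝ, c = fun x =>
    D.ch x ^ 2 * D.dens x * (th x * D.rp x * tt D.v x ^ 2) := ⟨_, rfl⟩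
  obtain ⟨S, hS⟩ : ∃ S : Set (EE n), S = {x | K' ^ 2 * tt D.v x ^ 2 ≤
    e * ‖fderiv ℝ D.rp x‖ ^ 2 * ph0 D.v x ^ 2} := ⟨_, rfl⟩
  have mS : MeasurableSet S := by
    have h1 := B.sol.tt_sm.continuous.measurable
    have h2 := (continuous_ph0 B.sol).measurable
    have h3 := (measurable_fderiv ℝ D.rp).norm
    rw [hS]
    exact measurableSet_le (by fun_prop) (by fun_prop)
  have ng : ∀ x, ‖∇ D.rp x‖ = ‖fderiv ℝ D.rp x‖ := fun x => (toDual ℝ (EE n)).symm.norm_map _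
  have d0 : ∀ x, 0 ≤ D.ch x ^ 2 * D.dens x := fun x => by unfold Dat.dens; positivity
  have i1 : ∫⁻ x in D.In ∩ S, ENNReal.ofReal (c x) ≤ ENNReal.ofReal e * D.Kept th := by
    rw [Dat.Kept, ← lintegral_const_mul' _ _ ENNReal.ofReal_ne_top]
    refine (setLIntegral_mono' ((O.meas_In B).inter mS) fun x hx => ?_).trans
      (lintegral_mono_set inter_subset_left)
    rw [← ENNReal.ofReal_mul he.le, mul_left_comm, hc]
    refine ENNReal.ofReal_le_ofReal (mul_le_mul_of_nonneg_left ?_ (d0 x))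
    by_cases h0 : th x = 0
    · simp [h0]
    have r8 := B.rp8 hx.1.1
    have b1 := O.act_ph B hl hx.1.1 (T.act x hx.1.1 h0)
    have b2 := hx.2
    have px := B.ph x
    rw [hS, mem_ofPred_eq, ← ng] at b2
    have b3 : (D.rp x * ph0 D.v x) ^ 2 * tt D.v x ^ 2 ≤ K' ^ 2 * tt D.v x ^ 2 := by
      rw [hK']; gcongr
    have b4 : D.rp x ^ 2 * tt D.v x ^ 2 ≤ e * ‖∇ D.rp x‖ ^ 2 :=
      le_of_mul_le_mul_right (by linarith) (pow_pos px 2)
    rw [← mul_div_assoc, le_div_iff₀ (by linarith)]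
    linarith [mul_le_mul_of_nonneg_left b4 (T.nonneg x)]
  have hW := O.Wcd.continuous.measurable
  have hg : Measurable fun y => D.Gain y * D.W y ^ 2 := (O.meas_Gain B).mul (hW.pow_const 2)
  have i2 : ∫⁻ x in (D.In \ S) ∩ {x | DifferentiableAt ℝ D.rp x}, ENNReal.ofReal (c x) ≤
      ENNReal.ofReal e * D.GG := by
    refine (hAc _ {x | |dd D.v x| ≤ 1} _ (fun y => e / Ac * (D.Gain y * D.W y ^ 2))
      (measurableSet_le B.sol.dd_sm.continuous.abs.measurable measurable_const) (hg.const_mul _)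
      ?_).trans_eq ?_
    · rintro x ⟨⟨hx, hs⟩, hd⟩
      obtain ⟨E, u, N, hu, hL⟩ := hx2 D.v D.M D.ρm O.pos (le_of_max_le_right hM) x hx.1
      refine ⟨ft D.v x, fun y hy => ⟨(hL y hy).dy, ?_⟩⟩
      have L := hL y hy
      have G0 : 0 ≤ D.Gain y := (mul_nonneg (B.sol.tt_nonneg y) (sq_nonneg _)).trans (O.gain_t B y)
      by_cases h0 : th x = 0
      · simp only [hc, h0, zero_mul, mul_zero]; positivity
      have u0 := N.u0
      have E0 := N.E0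
      have t0 := B.sol.tt_nonneg x
      have ty := B.sol.tt_nonneg y
      have r8 := B.rp8 hx.1
      have th0 := T.nonneg x
      have W0 := O.Wpos x
      have W1 := O.Wpos y
      have b1 := O.act_ph B hl hx.1 (T.act x hx.1 h0)
      rw [← hK'] at b1
      have hp := pay O B hl T hx.1 h0 N L hu η0 a1 (hK' ▸ a2) a3 a4 (by linarith) a5 fun hm hη => by
        obtain ⟨w, om, z, ct⟩ := (hx1 D.v D.ρm O.pos x
          (Val_mono (by linarith) (le_of_max_le_left hM) hx.1) b1 hd).2 hm hη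
        refine hthin _ _ _ _ _ _ _ _ _ _ _ _ _ B.sol ct N L (by linarith) a6 a7 ?_ (B.p.dep x hx.1)
          (hu ▸ b1.trans (a2.trans N.le)) ?_
        · rw [hS, mem_ofPred_eq, ← ng, not_le, ← hu] at hs
          have K0 : 0 ≤ K' := le_trans (mul_nonneg (by linarith) (B.ph x).le) b1
          have b2 : K' ^ 2 * tt D.v x ^ 2 ≤ E ^ 2 * (u ^ 19) ^ 2 := by
            gcongr
            exacts [a2.trans N.le, L.tx]
          have b3 : 1 ≤ E * e := (div_le_iff₀ he).1 (a9.trans N.le)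
          have b4 := mul_le_mul_of_nonneg_left (hs.le.trans b2) (show 0 ≤ E by linarith)
          have b5 := mul_le_mul_of_nonneg_right b3
            (show 0 ≤ ‖∇ D.rp x‖ ^ 2 * (u ^ 10) ^ 2 by positivity)
          have b6 := mul_le_mul_of_nonneg_right (N.small 3 2) (pow_pos u0 36).le
          refine (abs_le_of_sq_le_sq' (le_of_mul_le_mul_right ?_ (pow_pos u0 20))
            (by positivity)).2
          exact (show ‖∇ D.rp x‖ ^ 2 * u ^ 20 ≤ (u ^ 8) ^ 2 * u ^ 20 by linarith)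
        · rw [hu, ← div_le_iff₀' (mul_pos two_pos (B.ph x))]
          exact (min_le_iff.1 (B.p.lo x hx.1)).resolve_left hm.not_ge
      have y1 : 1 + ‖x - y‖ ≤ |dd D.v x| + 2 := by linarith [L.dist]
      have b2 : D.W x ≤ E * E * D.W y := (O.Wcmp x y).trans (mul_le_mul_of_nonneg_right
        (mul_le_mul (a1.trans N.le) ((Real.rpow_le_rpow (by positivity) y1
          (by linarith [O.K1])).trans (N.pow _ a1)) (by positivity) (by positivity)) W1.le)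
      have b3 : (1 + ‖x - y‖) ^ (n + 1) ≤ E := (pow_le_pow_left₀ (by positivity) y1 _).trans
        ((Real.rpow_natCast _ _).symm.trans_le (N.pow _ a10))
      have b4 : D.ch x ^ 2 ≤ 1 :=
        pow_le_one₀ (Real.smoothTransition.nonneg _) (Real.smoothTransition.le_one _)
      have b5 : 1 ≤ e / Ac * E := by
        rw [div_mul_eq_mul_div, one_le_div Ac0, ← div_le_iff₀' he]; exact a8.trans N.le
      have b6 := L.qq
      have b7 := L.tx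
      calc _ = 1 * D.ch x ^ 2 * (psi D.v x ^ 2 * tt D.v x) * tt D.v x * D.W x ^ 2 *
            (1 + ‖x - y‖) ^ (n + 1) * 1 * (th x * D.rp x * D.Z x ^ 2) := by
            simp only [hc, Dat.dens]; ring
        _ ≤ e / Ac * E * 1 * (E ^ 2 * tt D.v y) * u ^ 19 * (E * E * D.W y) ^ 2 * E * E *
            (th x * D.rp x * D.Z x ^ 2) := by gcongr; exact N.E1
        _ = e / Ac * (E ^ 9 * u ^ 19 * (th x * D.rp x) * tt D.v y * D.Z x ^ 2 * D.W y ^ 2) := by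
            ring
        _ ≤ _ := by gcongr
    · rw [Dat.GG, ← lintegral_const_mul' _ _ ENNReal.ofReal_ne_top,
        ← lintegral_const_mul' _ _ ENNReal.ofReal_ne_top]
      refine lintegral_congr fun y => ?_
      rw [← ENNReal.ofReal_mul Ac0.le, ← ENNReal.ofReal_mul he.le]
      congr 1
      field_simp
  have i3 : (D.In \ S : Set (EE n)) =ᵐ[volume]
      ((D.In \ S) ∩ {x | DifferentiableAt ℝ D.rp x} : Set (EE n)) := by
    filter_upwards [V.ae_diff B.op (B.p.sc.locLip B.op)] with x h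
    refine propext ⟨fun hx => ⟨hx, ?_⟩, fun hx => hx.1⟩
    have e : D.rp = fun y => (ph D.β D.v D.ρm y)⁻¹ := funext fun y => (inv_inv _).symm
    rw [mem_ofPred_eq, e]
    exact (h hx.1.1).inv (inv_ne_zero (by linarith [B.p.eight hx.1.1]))
  rw [mul_add]
  refine le_trans ?_ (add_le_add i1 i2)
  rw [← setLIntegral_congr i3, hc]
  exact (lintegral_mono_set (inter_union_sdiff D.In S).ge).trans (lintegral_union_le _ _ _)

end Crest.Agent.N067.M
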