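import Crest.Agent.N067.M.PDefs
import Crest.Agent.N067.W.Dat

-- ▼ part N067/M/Pset
section

/-!
# Row 67, block FLUX (helper55): the local picture `FP` at almost every active point in case F
-/

set_option autoImplicit false
set_option linter.dupNamespace false

open MeasureTheory InnerProductSpace Topology Filter Set Metric
open scoped RealInnerProductSpace Gradient ContDiff ENNReal

namespace Crest.Agent.N067.M

open Crest.Agent.R077 Crest.Agent.N067.V Crest.Agent.N067.Y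

noncomputable section

variable {n : ℕ} {v : EE n → ℝ} {x x0 : EE n} {β : Bo} {C2 C3 T KK Kb ηt M ρm : ℝ}

namespace Ps

/-- the numerical largeness conditions -/
structure Nm (C2 C3 T KK Kb ηt M : ℝ) : Prop where
  m1 : 1 ≤ M
  c2 : C2 + 1 ≤ C3
  c0 : 0 ≤ C3
  t : Real.exp (|T| + 4) ≤ M
  s : (4000 * C3) ^ 2 ≤ M
  k0 : 0 ≤ KK
  k : KK * √Kb ≤ ηt * M

theorem log_small {C ρ : ℝ} (hC : 0 ≤ C) (h0 : 0 < ρ) (h : (4000 * C) ^ 2 ≤ ρ) :
    2000 * (C * Real.log ρ) ≤ ρ := by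
  have h1 : 4000 * C ≤ √ρ := Real.le_sqrt_of_sq_le h
  have h2 : Real.log ρ ≤ 2 * √ρ := by
    have a := Real.log_le_sub_one_of_pos (Real.sqrt_pos.2 h0)
    rw [Real.log_sqrt h0.le] at a
    linarith
  have h3 := Real.mul_self_sqrt h0.le
  have h4 := Real.sqrt_nonneg ρ
  nlinarith [mul_le_mul_of_nonneg_left h2 hC, mul_le_mul_of_nonneg_right h1 h4]

theorem Nm.rho (N : Nm C2 C3 T KK Kb ηt M) (hp : 0 < ph0 v x) (hx : x ∈ Val v M C2 ρm) :
    M < 1 / ph0 v x := (lt_one_div (by linarith [N.m1]) hp).2 hx.1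

theorem Nm.c3 (N : Nm C2 C3 T KK Kb ηt M) (hp : 0 < ph0 v x) (hx : x ∈ Val v M C2 ρm) :
    |dd v x| + |T| + 4 ≤ C3 * lg v x := by
  have h1 : |T| + 4 ≤ lg v x := by
    rw [lg, Real.le_log_iff_exp_le (one_div_pos.2 hp)]
    exact N.t.trans (N.rho hp hx).le
  have h2 : |dd v x| < C2 * lg v x := hx.2.1
  have h3 : 0 ≤ lg v x := by linarith [abs_nonneg T]
  nlinarith [mul_le_mul_of_nonneg_right N.c2 h3]

theorem Nm.c3' (N : Nm C2 C3 T KK Kb ηt M) (hp : 0 < ph0 v x) (hx : x ∈ Val v M C2 ρm) :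
    2000 * (C3 * lg v x) ≤ 1 / ph0 v x :=
  log_small N.c0 (one_div_pos.2 hp) (N.s.trans (N.rho hp hx).le)

/-- `t` is tiny at `x` -/
theorem Nm.tt_le (N : Nm C2 C3 T KK Kb ηt M) (hp : 0 < ph0 v x) (hx : x ∈ Val v M C2 ρm)
    (hb : Bot v C3 x x0) : tt v x ≤ ph0 v x ^ 5 := by
  have h1 := N.c3 hp hx
  have h2 := N.c3' hp hx
  have h3 := N.rho hp hx
  have m1 := N.m1
  have p1 : ph0 v x ≤ 1 := hx.1.le.trans ((div_le_one (by linarith)).2 m1)
  have hu := hb.sh.unit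
  have hn := hb.near
  set q := x - (x0 + dd v x • nu v x0) with hq
  have e : x - x0 = q + dd v x • nu v x0 := by rw [hq]; abel
  have a1 : ‖x - x0‖ ≤ ph0 v x + |dd v x| := by
    rw [e]
    refine (norm_add_le _ _).trans (add_le_add hn ?_)
    rw [norm_smul, hu, mul_one, Real.norm_eq_abs]
  have a2 : |⟪nu v x0, x - x0⟫| ≤ ph0 v x + |dd v x| :=
    (abs_real_inner_le_norm _ _).trans (by rwa [hu, one_mul])
  have a3 := abs_le.1 a2
  have T0 := abs_nonneg T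
  have d0 := abs_nonneg (dd v x)
  refine (hb.sh.est x ?_ (by linarith) (by linarith)).2.2
  nlinarith

/-- one side: the situation `Geo`, and the point is thin -/
theorem Nm.side (N : Nm C2 C3 T KK Kb ηt M) (hη : 0 < ηt) (hK0 : 0 ≤ Kb)
    (hK : hsq (dd v) x ≤ Kb * tt v x) (hv : PS v) (hp : 0 < ph0 v x) {M' : ℝ} {Ω : Set (EE n)}
    (S : Sd β v ρm M' Ω) (hΩ : x ∈ Ω) (hx : x ∈ Val v M C2 ρm) (ff : FF v x)
    (hb : Bot v C3 x x0) (hi : rt β v ρm x * ph0 v x ≤ KK) (hlt : rt β v ρm x < ρm) :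
    Geo β v ρm M C2 KK x ∧ rt β v ρm x * Bn v x ≤ ηt := by
  have r8 := S.dep x hΩ
  have d0 := abs_nonneg (dd v x)
  refine ⟨⟨hv, hx, ff, r8, ?_, hi, S.fit x hΩ _ (by linarith) le_rfl⟩, ?_⟩
  · rcases min_le_iff.1 (S.lo x hΩ) with h | h
    · exact absurd hlt (not_lt.2 h)
    · exact h
  have m1 := N.m1
  have p1 : ph0 v x ≤ 1 := hx.1.le.trans ((div_le_one (by linarith)).2 m1)
  have h1 : Bn v x ≤ √Kb * ph0 v x ^ 2 := by
    rw [Bn, Real.sqrt_le_iff]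
    refine ⟨by positivity, hK.trans ?_⟩
    rw [mul_pow, Real.sq_sqrt hK0, ← pow_mul]
    exact mul_le_mul_of_nonneg_left ((N.tt_le hp hx hb).trans
      (pow_le_pow_of_le_one hp.le p1 (by norm_num))) hK0
  have h2 : M * ph0 v x ≤ 1 := by
    have := hx.1.le
    rwa [le_div_iff₀ (by linarith), mul_comm] at this
  have s0 := Real.sqrt_nonneg Kb
  calc rt β v ρm x * Bn v x ≤ rt β v ρm x * (√Kb * ph0 v x ^ 2) :=
        mul_le_mul_of_nonneg_left h1 (by linarith)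
    _ = rt β v ρm x * ph0 v x * (√Kb * ph0 v x) := by ring
    _ ≤ KK * (√Kb * ph0 v x) := mul_le_mul_of_nonneg_right hi (by positivity)
    _ = KK * √Kb * ph0 v x := by ring
    _ ≤ ηt * M * ph0 v x := mul_le_mul_of_nonneg_right N.k hp.le
    _ = ηt * (M * ph0 v x) := by ring
    _ ≤ ηt := mul_le_of_le_one_right hη.le h2

variable {D : Dat n} {K lam C1 rs : ℝ}

theorem in_flip (hv : Sol D.v) : D.flip.In = D.In := by
  ext x
  have e : |dd (ng D.v) x| = |dd D.v x| := by rw [dd_ng hv, abs_neg]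
  have e' : D.flip.v = ng D.v := rfl
  simp only [Dat.In, mem_ofPred_eq, W.flip_Om hv, e', e]
  rfl

theorem ok_flip (O : D.Ok K lam C1 rs) : D.flip.Ok K lam C1 rs := by
  have hv := O.pos.toSol
  have e : ∀ x, ft (ng D.v) x = ft D.v x := fun x => by
    rw [ft, nn_ng hv, dd_ng hv, neg_smul_neg, ft]
  have e' : D.flip.v = ng D.v := rfl
  exact { O with
    pos := ps_ng O.pos
    Tlo := fun x hx => by
      rw [e', ph0_ng]
      exact O.Tlo x (in_flip hv ▸ hx)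
    Tlip := fun x hx y => by
      rw [e', ph0_ng, e, e]
      exact O.Tlip x (in_flip hv ▸ hx) y }

theorem ae_rm (B : D.Bas) : ∀ᵐ x, x ∈ D.Om → DifferentiableAt ℝ D.rm x := by
  filter_upwards [V.ae_diff B.op (B.m.sc.locLip B.op)] with x h hx
  have e : D.rm = fun y => (ph D.β (ng D.v) D.ρm y)⁻¹ := funext fun y => (inv_inv _).symm
  rw [e]
  exact (h hx).inv (inv_ne_zero (by linarith [B.m.eight hx]))

end Ps

/-- **SET** -/
theorem set_of (fl : FLStmt n) (x0 : X0Stmt n) (hB : BotStmt n) (hC : CapStmt n) (hL : ColStmt n)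
    (hT : TopsStmt n) : SetStmt n := by
  intro β ε ηt C K lam κ0 T a hη hX hl ha
  obtain ⟨Kb, Kb0, hKb⟩ := hk_hsq n
  have e0 : 0 < √(β.η * β.h) / 20 := div_pos (Real.sqrt_pos.2 (mul_pos β.η0 β.h0)) (by norm_num)
  refine Big.mono ((big_bas fl x0 K lam κ0 β).and (big_M (P := fun D => D.Bas → ∀ᵐ x,
    x ∈ D.Om → FF D.v x → D.κ0 * D.h (D.rm x) ≤ D.h (D.rp x) →
      ∇ D.rp x = 0 ∨ ∃ C3 x0 w om z, D.FP ε C K T a C3 x x0 w om z) fun C2 => ?_))
    fun D h => h.2 h.1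
  obtain ⟨c1, hC⟩ := hC β C (KA K κ0) C2 _ e0
  obtain ⟨c2, hL⟩ := hL β C (KA K κ0) C2 (|T| + 2) a ha
  obtain ⟨c3, hT⟩ := hT β C (KA K κ0) C2 T a ha
  obtain ⟨C3, k1, k2, k3, k4, k5⟩ : ∃ C3 : ℝ, c1 ≤ C3 ∧ c2 ≤ C3 ∧ c3 ≤ C3 ∧ C2 + 1 ≤ C3 ∧ 0 ≤ C3 :=
    ⟨max (max c1 c2) (max c3 (max (C2 + 1) 0)), by simp, by simp, by simp, by simp, by simp⟩
  obtain ⟨M1, m1, hB⟩ := hB C2 C3
  obtain ⟨M2, m2, hC⟩ := hC C3 k1
  obtain ⟨M3, m3, hL⟩ := hL C3 k2
  obtain ⟨M4, m4, hT⟩ := hT C3 k3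
  obtain ⟨M5, m5, hX⟩ := hX C2 (KA K κ0)
  refine ⟨max (max (max M1 M2) (max M3 M4)) (max (max M5 (Real.exp (|T| + 4)))
    (max ((4000 * C3) ^ 2) (KA K κ0 * √Kb / ηt))), fun D C1 rs e1 e2 e3 hM O B => ?_⟩
  subst e1 e2 e3
  simp only [max_le_iff] at hM
  obtain ⟨⟨⟨b1, b2⟩, b3, b4⟩, ⟨b5, b6⟩, b7, b8⟩ := hM
  have N : Ps.Nm D.C2 C3 T (KA K D.κ0) Kb ηt D.M := ⟨B.M1, k4, k5, b6, b7, by
    have := O.k0; have := O.K1; unfold KA; positivity, by rwa [div_le_iff₀ hη, mul_comm D.M] at b8⟩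
  filter_upwards [Ps.ae_rm B] with x hdm hx ff act
  by_cases hd : DifferentiableAt ℝ D.rp x
  swap
  · exact Or.inl (gradient_eq_zero_of_not_differentiableAt hd)
  rcases (B.p.le x hx).eq_or_lt with hlt | hlt
  · exact Or.inl (B.p.top x hx hlt)
  obtain ⟨y0, hb⟩ := hB D.v D.ρm x O.pos (Val_mono (by linarith) b1 hx) ff
  have hi := O.act_ph B hl hx act
  obtain ⟨G, thin⟩ := N.side hη Kb0 (hKb _ B.sol x) O.pos (B.ph x) B.p hx hx ff hb hi hlt
  obtain ⟨w, om, z, ct⟩ := (hX _ _ O.pos x (Val_mono (by linarith) b5 hx) hi hd).2 hlt thin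
  have colp := hL _ _ _ _ _ _ _ _ _ (G.mono (by linarith) b3 le_rfl) hb ct
  refine Or.inr ⟨C3, y0, w, om, z, act, G, N.c3 (B.ph x) hx, ?_, hb, ct,
    hC _ _ _ _ _ _ _ _ _ (G.mono (by linarith) b2 le_rfl) hb ct, colp,
    fun y hy => O.Z_own B hl hx ha.le (fun _ => colp y hy) fun hy' act' => ?_, fun h2 => ?_⟩
  · have h1 := N.c3' (B.ph x) hx
    have h2 : 1 / (2 * ph0 D.v x) ≤ D.rp x := G.lo
    rw [mul_comm 2, ← div_div] at h2
    linarith
  · rcases (B.m.le x hx).eq_or_lt with hlm | hlm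
    · exact (B.m.le y hy').trans (by rw [Dat.rm, hlm]; linarith)
    have hx' : x ∈ Val (ng D.v) D.M D.C2 D.ρm := by rw [Val_ng B.sol]; exact hx
    have hi' : rt D.β (ng D.v) D.ρm x * ph0 (ng D.v) x ≤ KA K D.κ0 :=
      (Ps.ok_flip O).act_ph (W.bas_flip B) hl hx' (by rw [W.flip_rm]; exact act')
    obtain ⟨G', thin'⟩ := N.side hη Kb0 (hKb _ (sol_ng B.sol) x) (ps_ng O.pos)
      ((B.ph x).trans_eq (ph0_ng _ x).symm) B.m hx hx' (ff.ng B.sol) (hb.ng B.sol) hi' hlm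
    obtain ⟨w', om', z', ct'⟩ :=
      (hX _ _ (ps_ng O.pos) x (Val_mono (by linarith) b5 hx') hi' (hdm hx)).2 hlm thin'
    exact hL _ _ _ _ _ _ _ _ _ (G'.mono (by linarith) b3 le_rfl) (hb.ng B.sol) ct' y hy
  · obtain ⟨f, q1, q2, q3, q4, q5, q6⟩ :=
      hT _ _ _ _ _ _ _ _ _ (G.mono (by linarith) b4 le_rfl) hb ct h2
    exact ⟨f, q1, q2, q3, q4, q5, q6⟩

end

end Crest.Agent.N067.M
end

-- ▼ part N067/M/Pphi

/-!
# Row 67, block FLUX (helper2): the source of the top foot is charged there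
-/

set_option autoImplicit false
set_option linter.dupNamespace false

open MeasureTheory InnerProductSpace Topology Filter Set Metric
open scoped RealInnerProductSpace Gradient ContDiff ENNReal

namespace Crest.Agent.N067.M

open Crest.Agent.R077 Crest.Agent.N067.V Crest.Agent.N067.Y

variable {n : ℕ}

theorem neg_of_dd_neg {v : EE n → ℝ} {x : EE n} (h : dd v x < 0) : v x < 0 := by
  by_contra h1
  exact absurd (mul_nonneg (Real.sqrt_nonneg 2) (Real.artanh_nonneg (not_lt.1 h1))) (not_le.2 h)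

/-- the height of a point near the axis -/
theorem height_near {x0 e p : EE n} {τ c : ℝ} (he : ‖e‖ = 1) (h : ‖p - (x0 + τ • e)‖ ≤ c) :
    |⟪e, p - x0⟫ - τ| ≤ c := by
  have e1 : ⟪e, p - x0⟫ - τ = ⟪e, p - (x0 + τ • e)⟫ := by
    rw [← sub_sub, inner_sub_right e (p - x0), inner_smul_right, real_inner_self_eq_norm_sq, he]
    ring
  rw [e1]
  exact (abs_real_inner_le_norm _ _).trans (by rwa [he, one_mul])

theorem norm_axis {x0 e p : EE n} {τ σ c : ℝ} (he : ‖e‖ = 1) (h : ‖p - (x0 + τ • e)‖ ≤ c) :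
    ‖p - (x0 + σ • e)‖ ≤ c + |τ - σ| := by
  have e1 : p - (x0 + σ • e) = (p - (x0 + τ • e)) + (τ - σ) • e := by rw [sub_smul]; abel
  rw [e1]
  exact (norm_add_le _ _).trans (by rw [norm_smul, he, mul_one, Real.norm_eq_abs]; linarith)

/-- the geometry of the top foot -/
theorem Slab.foot {v : EE n → ℝ} {x0 e y : EE n} {f R T l δ : ℝ} (S : Slab v x0 e f R T l δ)
    (hT : 4 ≤ T) (hl : T ≤ l) (hf : 4 ≤ f) (hR : 4 * f ≤ R) (hδ : δ * (f + 3) ≤ 1 / 2)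
    (hy : ‖y - (x0 + f • e)‖ ≤ 1 / 4) : |dd v y| ≤ 1 ∧ ‖Phi v y - x0‖ ≤ 4 := by
  have he := S.bot.unit
  have h1 : |⟪-e, y - (x0 + f • e)⟫| ≤ 1 / 4 :=
    (abs_real_inner_le_norm _ _).trans (by rwa [norm_neg, he, one_mul])
  obtain ⟨k1, k2, -⟩ := S.top.est y (by linarith) (by linarith [(abs_le.1 h1).1])
    (by linarith [(abs_le.1 h1).2])
  have d0 : 0 ≤ δ := (abs_nonneg _).trans k1
  have d1 : δ ≤ 1 / 2 := by nlinarith
  rw [sub_neg_eq_add] at k2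
  refine ⟨?_, Phi_near he (by linarith) (by linarith)
    ((mul_le_mul_of_nonneg_right k2 (by linarith)).trans hδ) (fun p τ hp a b => ?_)
    fun p τ hp a b => ?_⟩
  · rw [abs_le] at h1 k1 ⊢
    constructor <;> linarith [h1.1, h1.2, k1.1, k1.2]
  · have h2 := abs_le.1 (height_near he hp)
    have h3 : |τ - f / 2| ≤ f / 2 := abs_le.2 ⟨by linarith, by linarith⟩
    exact (S.mid p ((norm_axis he hp).trans (by linarith)) (by linarith [h2.1])
      (by linarith [h2.2])).le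
  · have h2 := abs_le.1 (height_near he hp)
    have h3 := norm_axis (σ := 0) he hp
    rw [zero_smul, add_zero, sub_zero, abs_of_nonpos (by linarith)] at h3
    have h4 := abs_le.1 (S.bot.est p (by linarith) (by linarith [h2.1]) (by linarith [h2.2])).1
    exact neg_of_dd_neg (by linarith [h2.2, h4.2])

theorem pphi_num {p r f h k g δ : ℝ} (p0 : 0 < p) (k0 : 0 ≤ k) (g0 : 0 ≤ g) (δ0 : 0 < δ)
    (h0 : 0 < h) (h1 : h ≤ 1) (lo : 1 / (2 * p) ≤ r) (hi : r * p ≤ k)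
    (len : |f - (2 - h) * r| ≤ 1) (M1 : 2 * g + 8 * k + 20 ≤ 1 / p) (M2 : (2 * k + 1) / δ ≤ 1 / p) :
    p ≤ 1 ∧ 4 ≤ f ∧ g ≤ f ∧ f ≤ 2 * r + 1 ∧ 4 * f ≤ (1 / p) ^ 2 ∧ p ^ 5 * (f + 3) ≤ 1 / 2 ∧
      p ^ 5 * f ≤ δ ∧ 3 * r * p ^ 2 ≤ 1 / 2 := by
  obtain ⟨l1, l2⟩ := abs_le.1 len
  have lo' : 1 / p / 2 ≤ r := by rwa [div_div, mul_comm]
  have hi' : r ≤ k * (1 / p) := by rwa [mul_one_div, le_div_iff₀ p0]
  have q1 : (8 * k + 20) * p ≤ 1 := (le_div_iff₀ p0).1 (by linarith)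
  have q2 : (2 * k + 1) * p ≤ δ := by
    rw [div_le_div_iff₀ δ0 p0] at M2; linarith
  have kp := mul_nonneg k0 p0.le
  have p1 : p ≤ 1 / 20 := by linarith
  have r0 : 0 ≤ r := by linarith
  have f2 : f ≤ 2 * r + 1 := by linarith [mul_nonneg h0.le r0]
  have f3 : r - 1 ≤ f := by linarith [mul_le_mul_of_nonneg_right h1 r0]
  have q3 : p ^ 5 ≤ p ^ 2 := pow_le_pow_of_le_one p0.le (by linarith) (by norm_num)
  have q4 : p ^ 2 * r ≤ k * p := by linarith [mul_le_mul_of_nonneg_right hi p0.le]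
  have q5 : p ^ 2 ≤ p := by linarith [mul_le_mul_of_nonneg_right p1 p0.le]
  have q6 := mul_le_mul_of_nonneg_left f2 (sq_nonneg p)
  refine ⟨by linarith, by linarith, by linarith, f2, ?_, ?_, ?_, by linarith⟩
  · generalize 1 / p = ρ at *
    linarith [mul_le_mul_of_nonneg_right (show 8 * k + 20 ≤ ρ by linarith)
      (show 0 ≤ ρ by linarith)]
  · linarith [mul_le_mul_of_nonneg_right q3 (show 0 ≤ f + 3 by linarith)]
  · linarith [mul_le_mul_of_nonneg_right q3 (show 0 ≤ f by linarith)]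

theorem pphi_of (fl : FLStmt n) (X0 : X0Stmt n) (hO : OppStmt n) : PphiStmt n := by
  intro β ε C K lam κ0 T G e hl hT hG he
  obtain ⟨f1, δ1, δ0, hO⟩ := hO β T 1 one_pos
  obtain ⟨H, H0, hH⟩ := hk_har n
  set θ := (κ0 * Real.exp (-(3 * 1)) / 2) ^ 2 with hθ
  refine ⟨min δ1 1, by positivity, ?_⟩
  refine (((big_bas fl X0 K lam κ0 β).and (big_num n K lam κ0 β
    (max (2 * |f1| + 8 * |KA K κ0| + 20) ((2 * |KA K κ0| + 1) / δ1)))).and
    (big_exp fl X0 K lam κ0 β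
      (G * Real.exp (H * (1 / 4)) * Real.exp (2 * K * (1 / 2)) ^ 2 / θ ^ 2) (n + 1) (A := 5)
      (by norm_num) (show (0 : ℝ) < 1 / 4 by norm_num) he)).mono ?_
  rintro D ⟨⟨B, e1, e2, hM, -, C1, rs, -, -, O⟩, hE⟩ x hx a C3 f c x0 w om z ha P Q hw hc
  replace hE := hE x hx
  obtain ⟨M1, M2⟩ := max_le_iff.1 (hM.trans (B.rho hx.1.1).le)
  obtain ⟨a1, a2⟩ := le_min_iff.1 ha
  have dep : 8 * |dd D.v x| + 8 ≤ D.rp x := P.geo.dep
  have len' := (abs_le.1 (Q.len.trans a1)).2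
  have S := Q.slab
  have hu := S.bot.unit
  have d0 := abs_nonneg (dd D.v x)
  obtain ⟨p1, f4, f0, f2, hR, q1, q2, q3⟩ := pphi_num (r := D.rp x) (B.ph x) (abs_nonneg _)
    (abs_nonneg _) δ0 D.β.h0 (by linarith [D.β.h1, D.β.η1]) P.geo.lo
    (P.geo.hi.trans (e2 ▸ le_abs_self _)) (Q.len.trans a2) M1 M2
  have hTl : T ≤ C3 * lg D.v x := by linarith [le_abs_self T, P.c3]
  refine ⟨x0 + f • nu D.v x0, fun y hy => ?_⟩
  have hy : ‖y - (x0 + f • nu D.v x0)‖ ≤ 1 / 4 := (mem_ball_iff_norm.1 hy).le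
  obtain ⟨g1, g2⟩ := S.foot hT hTl f4 hR q1 hy
  refine ⟨g1, ?_⟩
  have x1 : ‖x - x0‖ ≤ |dd D.v x| + 1 := by
    have := norm_axis (σ := 0) hu P.bot.near
    rw [zero_smul, add_zero, sub_zero] at this
    linarith
  have x2 : ‖x - Phi D.v y‖ ≤ 2 * |dd D.v x| + 5 := by
    have := norm_sub_le_norm_sub_add_norm_sub x x0 (Phi D.v y)
    rw [norm_sub_rev x0] at this
    linarith
  have x3 : ‖x - y‖ ≤ 3 * D.rp x := by
    have := norm_sub_le_norm_sub_add_norm_sub x x0 y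
    have h3 := norm_axis (σ := 0) hu hy
    rw [zero_smul, add_zero, sub_zero, abs_of_nonneg (by linarith)] at h3
    rw [norm_sub_rev x0] at this
    linarith
  have y1 : D.rp y ≤ D.rp x + 1 := by
    have := hO D.v x0 _ f _ _ _ (D.rp x) D.ρm B.sol S (by linarith) hTl
      ((le_abs_self f1).trans f0) hR q2 (by rw [← e1]; linarith) y
      ⟨(height_near hu hy).trans (by linarith), by linarith⟩
    rwa [← e1] at this
  have z1 := O.Z_cmp B hl hx.1.1 P.act zero_le_one (y := y) fun _ => y1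
  rw [e2, ← hθ] at z1
  have θ0 : 0 < θ := by have := e2 ▸ O.k0; positivity
  rw [← le_div_iff₀' θ0] at z1
  have w1 := (O.W_near (x := x) (y := y) (δ := 1 / 2) ((mul_le_mul x3 hw (O.lwpos x).1.le
    (by linarith)).trans q3) le_rfl).2
  have t1 := (hH D.v B.sol y (x0 + f • nu D.v x0)).trans (mul_le_mul_of_nonneg_right
    (Real.exp_le_exp.2 (mul_le_mul_of_nonneg_left hy H0)) (B.sol.tt_nonneg y))
  have := (O.Z_mem B x).1.le
  have := (O.Wpos x).le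
  have := B.sol.tt_nonneg (x0 + f • nu D.v x0)
  have := B.sol.tt_nonneg y
  calc _ ≤ D.Z x ^ 2 * D.W x ^ 2 * (G * Real.exp (-(1 / 4 * |dd D.v x|)) *
        tt D.v (x0 + f • nu D.v x0)) * (1 + ‖x - Phi D.v y‖) ^ (n + 1) := by gcongr
    _ ≤ (D.Z y / θ) ^ 2 * (Real.exp (2 * K * (1 / 2)) * D.W y) ^ 2 *
        (G * Real.exp (-(1 / 4 * |dd D.v x|)) * (Real.exp (H * (1 / 4)) * tt D.v y)) *
        (1 + (2 * |dd D.v x| + 5)) ^ (n + 1) := by gcongr
    _ = G * Real.exp (H * (1 / 4)) * Real.exp (2 * K * (1 / 2)) ^ 2 / θ ^ 2 *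
        (1 + (2 * |dd D.v x| + 5)) ^ (n + 1) * Real.exp (-(1 / 4 * |dd D.v x|)) *
        (tt D.v y * D.Z y ^ 2 * D.W y ^ 2) := by ring
    _ ≤ _ := by gcongr; exact O.gain_t B y

end Crest.Agent.N067.M
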