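import Crest.Agent.N067.Y.OM_Mg
import Crest.Agent.N067.Y.SK2_Mg
import Crest.Agent.N067.Y.Out_Mg
import Crest.Agent.N067.Y.St
import Crest.Agent.N067.A.All
import Crest.Agent.N067.K.Defs
import Crest.Agent.N067.E.Defs
import Crest.Agent.N067.K.Good_Mg
import Crest.Agent.N067.K.Seven_Mg
import Crest.Agent.N067.P.Cmp0
import Crest.Agent.N067.P.Pot
import Crest.Agent.N067.M.Sheet0
import Crest.Agent.N067.M.TLow
import Crest.Agent.N067.Z.Th
import Crest.Agent.N067.M.ChS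
import Crest.Agent.N067.T.Dat
import Crest.Agent.N067.Z.I
import Crest.Agent.N067.Z.Flip
import Crest.Agent.N067.Z.Defs
import Crest.Agent.N067.Z.Abs
import Crest.Agent.N067.X2.Fx
import Mathlib
import Crest.Agent.N067.V.BallM
import Crest.Agent.N067.Z.GT_Mg
import Crest.Agent.N067.M.Err_Mg

-- ▼ part N067/Y/Top
section

/-! # Row 67, block X5: unconditional forms -/

set_option autoImplicit false

namespace Crest.Agent.N067.Y

/-- **X5**, the truncated SSY estimate -/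
theorem x5 {n : ℕ} (h3 : 3 ≤ n) (h8 : n ≤ 8) : X5Stmt n :=
  x5_of (np1 (hkS n)) (np2 (hkS n)) (ybS (hkS n)) (omS (hkS n) (geS n) (np1 (hkS n))) (sk n)
    (stS n) h3 h8

theorem out (n : ℕ) : OUTStmt n := outS (hkS n)

end Crest.Agent.N067.Y
end

-- ▼ part N067/A/Top
section

/-! Row 67 (helper47): `S0090` from the rigidity of strict solutions. -/

set_option autoImplicit false

open MeasureTheory Laplacian InnerProductSpace
open scoped RealInnerProductSpace Gradient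

namespace Crest.Agent.N067

open Crest.Agent.R077

theorem s90_of_seven (h : SevenStmt) : E.S90 := fun v hv hs => by
  rcases dich 7 v hv with h1 | h1 | h1
  · exact Or.inl h1
  · exact Or.inr (Or.inl h1)
  · exact Or.inr (Or.inr (h v h1 hs))

/-- the literal statement `S0090` -/
theorem s0090_of (h : E.S90) (v : EuclideanSpace ℝ (Fin 7) → ℝ) (hv : ContDiff ℝ 2 v)
    (hrange : ∀ x, v x ∈ Set.Icc (-1 : ℝ) 1) (heq : ∀ x, (Δ v) x = v x ^ 3 - v x)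
    (hstable : ∀ φ : EuclideanSpace ℝ (Fin 7) → ℝ, ContDiff ℝ 1 φ → HasCompactSupport φ →
      0 ≤ ∫ x, (‖∇ φ x‖ ^ 2 + (3 * v x ^ 2 - 1) * φ x ^ 2)) :
    (∀ x, v x = 1) ∨ (∀ x, v x = -1) ∨
      ∃ a : EuclideanSpace ℝ (Fin 7), ‖a‖ = 1 ∧
        ∃ b : ℝ, ∀ x, v x = Real.tanh ((⟪a, x⟫ - b) / Real.sqrt 2) :=
  h v ⟨hv, fun x => abs_le.2 (hrange x), heq⟩ hstable

end Crest.Agent.N067
end

-- ▼ part N067/Main
section

/-! Row 67 (helper69): `S0089` and `S0090` from the master inequality `MIStmt`. -/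

set_option autoImplicit false

open MeasureTheory Laplacian InnerProductSpace
open scoped RealInnerProductSpace Gradient

namespace Crest.Agent.N067

open Crest.Agent.R077

theorem s90_of_mi (h : MIStmt) : E.S90 := s90_of_seven (seven_of_mi h)

/-- the literal statement `S0090` -/
theorem s0090_of_mi (h : MIStmt) (v : EuclideanSpace ℝ (Fin 7) → ℝ) (hv : ContDiff ℝ 2 v)
    (hrange : ∀ x, v x ∈ Set.Icc (-1 : ℝ) 1) (heq : ∀ x, (Δ v) x = v x ^ 3 - v x)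
    (hstable : ∀ φ : EuclideanSpace ℝ (Fin 7) → ℝ, ContDiff ℝ 1 φ → HasCompactSupport φ →
      0 ≤ ∫ x, (‖∇ φ x‖ ^ 2 + (3 * v x ^ 2 - 1) * φ x ^ 2)) :
    (∀ x, v x = 1) ∨ (∀ x, v x = -1) ∨
      ∃ a : EuclideanSpace ℝ (Fin 7), ‖a‖ = 1 ∧
        ∃ b : ℝ, ∀ x, v x = Real.tanh ((⟪a, x⟫ - b) / Real.sqrt 2) :=
  s0090_of (s90_of_mi h) v hv hrange heq hstable

/-- the literal statement `S0089` -/
theorem s0089_of_mi (h : MIStmt) (u : EuclideanSpace ℝ (Fin 8) → ℝ) (hu : ContDiff ℝ 2 u)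
    (hrange : ∀ x, u x ∈ Set.Ioo (-1 : ℝ) 1) (heq : ∀ x, (Δ u) x = u x ^ 3 - u x)
    (hmono : ∀ x, 0 < fderiv ℝ u x (EuclideanSpace.single (Fin.last 7) 1)) :
    ∃ e : EuclideanSpace ℝ (Fin 8), ‖e‖ = 1 ∧ 0 < e (Fin.last 7) ∧
      ∃ c : ℝ, ∀ x, u x = Real.tanh ((⟪e, x⟫ - c) / Real.sqrt 2) :=
  E.s89 (s90_of_mi h) pm (tube h area) iS u hu hrange heq hmono

end Crest.Agent.N067
end

-- ▼ part N067/P/Cmp
section

/-! # Row 67, block P (helper53): `CmpStmt` -/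

set_option autoImplicit false

open MeasureTheory Laplacian InnerProductSpace Topology Filter Set Metric
open scoped RealInnerProductSpace Gradient ContDiff ENNReal

namespace Crest.Agent.N067.P

open Crest.Agent.R077 Crest.Agent.N067.V Crest.Agent.N067.Y Crest.Agent.N067.M

noncomputable section

variable {n : ℕ} {v : EE n → ℝ} {x y : EE n}

theorem loc_of (hv : Sol v) (hy : y ∈ ball (ft v x) 1) {D ℓ κ : ℝ} (hD : 2 * |dd v x| + 1 ≤ D)
    (hl : 0 ≤ ℓ) (hκ : 3 * κ * D ^ 2 ≤ 1 / 2)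
    (h : ∀ u ∈ closedBall y (ℓ + D), ‖hb (dd v) u‖ ≤ κ ∧ tt v u ≤ κ) :
    Loc (dd v) (3 * κ * D ^ 2) D ℓ (NN v x) (NN v y) x y (nu v x) (nu v y) := by
  have a0 := abs_nonneg (dd v x)
  have D1 : 1 ≤ D := by linarith
  have xy := norm_sub_ball hv hy
  have mx : x ∈ closedBall y (ℓ + D) := mem_closedBall_iff_norm.2 (by linarith)
  have my : y ∈ closedBall y (ℓ + D) := mem_closedBall_self (by linarith)
  have y1 : ‖y - ft v x‖ < 1 := mem_ball_iff_norm.1 hy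
  have mf : ft v x ∈ closedBall y (ℓ + D) := mem_closedBall_iff_norm'.2 (by linarith)
  have tx := (h x mx).2
  have ty := (h y my).2
  have k0 : 0 ≤ κ := (hv.tt_nonneg x).trans tx
  have k1 : κ ≤ κ * D := le_mul_of_one_le_right k0 D1
  have k2 : κ * D ≤ κ * D ^ 2 := mul_le_mul_of_nonneg_left (by nlinarith) k0
  have Nx : 0 < NN v x := Wd.NN_pos (by linarith)
  have Ny : 0 < NN v y := Wd.NN_pos (by linarith)
  have T : ∀ b ∈ closedBall y (ℓ + D), ∀ p ∈ closedBall y (ℓ + D),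
      ‖nn v p - nn v b‖ ≤ κ * ‖p - b‖ ∧
        |dd v p - dd v b - ⟪nn v b, p - b⟫| ≤ κ * ‖p - b‖ ^ 2 := fun b hb p hp =>
    Wd.seg_taylor hv (fun u hu => (h u ((convex_closedBall _ _).segment_subset hb hp hu)).1)
      (right_mem_segment ℝ b p)
  have n1 : ‖nn v x - nn v y‖ ≤ κ * D :=
    (T y my x mx).1.trans (mul_le_mul_of_nonneg_left (by linarith) k0)
  have inn : ∀ u, 0 < NN v u → ∀ p, NN v u * ⟪nu v u, p⟫ = ⟪nn v u, p⟫ := fun u hu p => by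
    rw [Wd.nn_eq hu, real_inner_smul_left]
  have m1 := Wd.norm_nn_sub_nu hv Nx
  have m2 := Wd.norm_nn_sub_nu hv Ny
  refine ⟨Wd.norm_nu Nx, Wd.norm_nu Ny, by linarith [Wd.one_sub_NN hv x], NN_le_one hv x,
    by linarith [Wd.one_sub_NN hv y], NN_le_one hv y, by linarith, ?_, by linarith, ?_, ?_, ?_, ?_,
    fun z => ?_, fun z hz => ?_⟩
  · have := hv.abs_dd_sub_le y x
    rw [norm_sub_rev] at this
    linarith [abs_sub_abs_le_abs_sub (dd v y) (dd v x)]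
  · have e : nu v y - nu v x = (nn v x - nu v x) - (nn v x - nn v y) - (nn v y - nu v y) := by abel
    have h1 := norm_sub_le ((nn v x - nu v x) - (nn v x - nn v y)) (nn v y - nu v y)
    have h2 := norm_sub_le (nn v x - nu v x) (nn v x - nn v y)
    rw [e]; linarith
  · rw [← Wd.nn_eq Nx, ← Wd.nn_eq Ny]; linarith
  · have e : y - dd v y • nu v y - (x - dd v x • nu v x) =
        y - ft v x - dd v y • nu v y - dd v x • (nn v x - nu v x) := by rw [ft]; module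
    have h1 := norm_sub_le (y - ft v x - dd v y • nu v y) (dd v x • (nn v x - nu v x))
    have h2 := norm_sub_le (y - ft v x) (dd v y • nu v y)
    rw [norm_smul, Wd.norm_nu Ny, Real.norm_eq_abs, mul_one] at h2
    rw [norm_smul, Real.norm_eq_abs] at h1
    have h3 : |dd v x| * ‖nn v x - nu v x‖ ≤ D * κ :=
      mul_le_mul (by linarith) (m1.trans tx) (norm_nonneg _) (by linarith)
    have h4 := (T x mx _ mf).2
    have e2 : dd v (ft v x) - dd v x - ⟪nn v x, ft v x - x⟫ = dd v (ft v x) - dd v x * tt v x := by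
      rw [ft, sub_sub_cancel_left, inner_neg_right, real_inner_smul_right,
        real_inner_self_eq_norm_sq, M.tt_eq, NN]
      ring
    have h5 : ‖ft v x - x‖ ^ 2 ≤ D ^ 2 := pow_le_pow_left₀ (norm_nonneg _)
      (by rw [norm_sub_rev]; linarith [norm_sub_ft hv x]) 2
    have h6 : |dd v x * tt v x| ≤ D * κ := by
      rw [abs_mul, abs_of_nonneg (hv.tt_nonneg x)]
      exact mul_le_mul (by linarith) tx (hv.tt_nonneg x) (by linarith)
    have h7 := hv.abs_dd_sub_le y (ft v x)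
    rw [e2] at h4
    rw [e]
    linarith [abs_sub_abs_le_abs_sub (dd v y) (dd v (ft v x)), mul_le_mul_of_nonneg_left h5 k0,
      abs_sub_abs_le_abs_sub (dd v (ft v x)) (dd v x * tt v x)]
  · have h1 := (abs_le.1 (T y my x mx).2).2
    have h2 : ‖x - y‖ ^ 2 ≤ D ^ 2 := pow_le_pow_left₀ (norm_nonneg _) (by linarith) 2
    rw [inn y Ny]
    linarith [mul_le_mul_of_nonneg_left h2 k0]
  · linarith [(abs_le.1 (hv.abs_dd_sub_le z x)).1]
  · have mz : z ∈ closedBall y (ℓ + D) := mem_closedBall_iff_norm.2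
      ((norm_sub_le_norm_sub_add_norm_sub z x y).trans (by linarith))
    have h1 := (abs_le.1 (T x mx z mz).2).1
    rw [inn x Nx]
    linarith [mul_le_mul_of_nonneg_right (show κ ≤ 3 * κ * D ^ 2 by linarith) (sq_nonneg ‖z - x‖)]

/-- the comparison, without the valid set -/
theorem cmp_core (n : ℕ) (β : Bo) {ε : ℝ} (e0 : 0 < ε) (e1 : ε ≤ 1 / 10) : ∃ δ r0 : ℝ, 0 < δ ∧
    ∀ (v : EE n → ℝ) (ρm : ℝ) (x y : EE n), Sol v → y ∈ ball (ft v x) 1 → rt β v ρm x < ρm →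
      r0 ≤ rt β v ρm x → 2 * |dd v x| + 1 ≤ δ * rt β v ρm x →
      tt v y ≤ Real.exp (-(ε * rt β v ρm x)) → rt β v ρm y ≤ (1 + ε) * rt β v ρm x := by
  obtain ⟨H, hH, har⟩ := hk_har n
  obtain ⟨Cb, hCb, hB⟩ := Wd.exists_hb n
  obtain ⟨L, hL, hp⟩ := poly_le_exp 4 (by norm_num) (show 0 < ε / 4 by positivity)
  have η0 := β.η0
  obtain ⟨δ, δ0, δ1, δ2⟩ : ∃ δ : ℝ, 0 < δ ∧ δ ≤ ε / 100 ∧ H * ((20 / ε + 1) * δ) ≤ ε / 2 := by
    refine ⟨min (ε / 100) (ε / 2 / ((H + 1) * (20 / ε + 1))), by positivity, min_le_left _ _, ?_⟩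
    have h1 := min_le_right (ε / 100) (ε / 2 / ((H + 1) * (20 / ε + 1)))
    rw [le_div_iff₀ (by positivity)] at h1
    have : 0 ≤ (20 / ε + 1) * min (ε / 100) (ε / 2 / ((H + 1) * (20 / ε + 1))) := by positivity
    nlinarith
  refine ⟨δ, 600 * (Cb + 1) * L / (ε * β.η), δ0, fun v ρm x y hv hy hr r0 hd ht => ?_⟩
  obtain ⟨r, hr'⟩ : ∃ r, r = rt β v ρm x := ⟨_, rfl⟩
  have a0 := abs_nonneg (dd v x)
  rw [← hr'] at r0 hd ht ⊢
  have r1 : 0 < r := (mul_pos_iff_of_pos_left δ0).1 (by linarith)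
  obtain ⟨R, R1, R2, R3⟩ := exists_fail hr (show 0 < ε / 4 * r by positivity)
  have R4 := Wd.rt_le (ρm := ρm) R1 R2
  rw [← hr'] at R3 R4
  obtain ⟨E, hE⟩ : ∃ E, E = Real.exp (-(ε / 4 * r)) := ⟨_, rfl⟩
  have E0 : 0 < E := hE ▸ Real.exp_pos _
  have E1 : E ≤ 1 := hE ▸ Real.exp_le_one_iff.2 (neg_nonpos.2 (by positivity))
  have E2 : E * r ^ 4 ≤ L := by
    have h1 := hp r r1.le
    rw [show (4 : ℝ) = (4 : ℕ) by norm_num, Real.rpow_natCast] at h1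
    rw [hE, Real.exp_neg, inv_mul_le_iff₀ (Real.exp_pos _), mul_comm]
    exact (pow_le_pow_left₀ r1.le (by linarith) 4).trans h1
  have dr : δ * r ≤ r := mul_le_of_le_one_left r1.le (by linarith)
  have N : Num ε β.η (3 * ((Cb + 1) * E) * (δ * r) ^ 2) (δ * r) R ((1 + ε) * r) := by
    refine ⟨e0, e1, η0, β.η1, by positivity, by linarith, by nlinarith, ?_, ?_,
      mul_le_mul_of_nonneg_left R4 (by positivity)⟩
    · rw [div_le_iff₀ (by positivity)] at r0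
      refine le_of_mul_le_mul_left (le_trans ?_ r0) r1
      have h1 : (δ * r) ^ 2 * R ≤ r ^ 2 * (2 * r) :=
        mul_le_mul (pow_le_pow_left₀ (by positivity) dr 2) (by nlinarith) (by linarith)
          (by positivity)
      calc _ = 300 * (Cb + 1) * E * r * ((δ * r) ^ 2 * R) := by ring
        _ ≤ 300 * (Cb + 1) * E * r * (r ^ 2 * (2 * r)) := by gcongr
        _ = 600 * (Cb + 1) * (E * r ^ 4) := by ring
        _ ≤ _ := by gcongr
    · refine (mul_le_mul_of_nonneg_left R3.le (by positivity)).trans ?_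
      nlinarith [mul_pos e0 r1]
  have Lc := loc_of hv hy hd (ℓ := 20 * (δ * r) / ε) (κ := (Cb + 1) * E) (by positivity)
    (by linarith [N.t1]) fun u hu => by
      have h1 : tt v u ≤ E ^ 2 := by
        refine (har v hv y u).trans ((mul_le_mul_of_nonneg_left ht (Real.exp_pos _).le).trans ?_)
        rw [hE, ← Real.exp_nat_mul, ← Real.exp_add, Real.exp_le_exp]
        have h2 := mul_le_mul_of_nonneg_left (mem_closedBall_iff_norm'.1 hu) hH
        have h3 := mul_le_mul_of_nonneg_right δ2 r1.le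
        have e : H * (20 * (δ * r) / ε + δ * r) = H * ((20 / ε + 1) * δ) * r := by ring
        push_cast
        linarith
      have h2 : √(tt v u) ≤ E := Real.sqrt_le_iff.2 ⟨E0.le, h1⟩
      exact ⟨(hB v hv u).trans (by nlinarith), by nlinarith⟩
  simp only [Fit, not_forall, not_le] at R2
  obtain ⟨w, hw, z, hz⟩ := R2
  obtain ⟨w', hw', hz'⟩ := core β N Lc hw hz
  refine Wd.rt_le ?_ fun hf => (hf w' hw' z).not_gt hz'
  linarith [Lc.a', N.sig, N.R0, N.D1]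

end

end Crest.Agent.N067.P

namespace Crest.Agent.N067.M

open Crest.Agent.R077 Crest.Agent.N067.V Crest.Agent.N067.Y Crest.Agent.N067.P


end Crest.Agent.N067.M
end

-- ▼ part N067/Z/J
section

/-!
# Row 67, TOP (helper39): the leaf `JStmt`
-/

set_option autoImplicit false
set_option linter.dupNamespace false

open MeasureTheory InnerProductSpace Topology Filter Set Metric
open scoped RealInnerProductSpace Gradient ContDiff ENNReal

namespace Crest.Agent.N067.M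

open Crest.Agent.R077 Crest.Agent.N067.V

noncomputable section

variable {n : ℕ}

theorem ft_ng' {v : EE n → ℝ} (hv : Sol v) (x : EE n) : ft (ng v) x = ft v x := by
  rw [ft, ft, nn_ng hv, dd_ng hv]; simp

/-- the geometry of one side -/
theorem j_geo (n : ℕ) (β : Bo) {T M ε : ℝ} (T0 : 0 ≤ T) (hM : 0 < M) (e0 : 0 < ε) (e1 : ε ≤ 1 / 10) :
    ∃ R0 : ℝ, 1 ≤ R0 ∧ ∀ (v : EE n → ℝ) (ρm : ℝ) (x y : EE n), Sol v → Stable v → |dd v x| ≤ T →
      R0 ≤ rt β v ρm x → 2 * rt β v ρm x < ρm → rt β v ρm x * ph0 v x ≤ 2 →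
      y ∈ ball (ft v x) (1 / 2) → |dd v y| ≤ 1 ∧ ‖x - y‖ ≤ T + 1 ∧ ph0 v y ≤ 1 / M ∧
        (Real.exp (-(ε * rt β v ρm x)) ≤ tt v y ∨ (rt β v ρm y ≤ (1 + ε) * rt β v ρm x ∧
          Real.exp (-(2 * √2 * (1 + ε) * ((1 + ε) * rt β v ρm x))) ≤ tt v y)) := by
  obtain ⟨δ, r0, δ0, h1⟩ := P.cmp_core n β e0 e1
  obtain ⟨M1, m1, h2⟩ := tlow' n ε 1 e0
  obtain ⟨Cp, c1, h3⟩ := fl_ph0 n
  obtain ⟨Ct, c2, h4⟩ := fl_tt n
  have a1 : 0 ≤ (2 * T + 1) / δ := by positivity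
  have a2 : 0 ≤ 2 * (Cp * (T + 2) ^ 2 * (M + M1)) := by positivity
  have a3 : 0 ≤ 4 * (T * Ct + T ^ 2) := by positivity
  have a4 := abs_nonneg r0
  refine ⟨1 + |r0| + (2 * T + 1) / δ + 2 * (Cp * (T + 2) ^ 2 * (M + M1)) + 4 * (T * Ct + T ^ 2),
    by linarith, fun v ρm x y hv hs hd hr hρ hp hy => ?_⟩
  have p0 := ph0_nonneg hv x
  have small : ∀ a b : ℝ, 0 ≤ b → 2 * a ≤ b * rt β v ρm x → 0 ≤ a → a * ph0 v x ≤ b :=
    fun a b hb h ha => le_of_mul_le_mul_left (a := rt β v ρm x)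
      (by nlinarith [mul_le_mul_of_nonneg_left hp ha]) (by linarith)
  have b1 : |dd v (ft v x)| ≤ 1 / 2 := by
    have q1 := h4 v hv hs x x
    rw [sub_self, norm_zero, add_zero, one_pow, one_mul] at q1
    have q2 : dd v x ^ 2 ≤ T ^ 2 := by rw [← sq_abs]; gcongr
    have q3 := hv.tt_nonneg x
    refine (N067.T.abs_dd_ft hv x).trans (le_trans ?_ (small (T * Ct + T ^ 2) (1 / 2) (by norm_num)
      (by linarith) (by positivity)))
    nlinarith [mul_le_mul hd q1 q3 T0, mul_le_mul_of_nonneg_left q2 p0, mul_nonneg p0 (sq_nonneg T)]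
  have b2 : |dd v y| ≤ 1 := by
    have q1 := hv.abs_dd_sub_le y (ft v x)
    have q2 := abs_sub_abs_le_abs_sub (dd v y) (dd v (ft v x))
    linarith [mem_ball_iff_norm.1 hy]
  have b3 : ‖x - y‖ ≤ T + 1 := by linarith [P.norm_sub_ball hv hy]
  have b4 : ph0 v y * (M + M1) ≤ 1 := by
    refine le_trans ?_ (small (Cp * (T + 2) ^ 2 * (M + M1)) 1 zero_le_one (by linarith)
      (by positivity))
    calc _ ≤ Cp * ((T + 2) ^ 2 * ph0 v x) * (M + M1) := by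
          gcongr
          refine (h3 v hv hs x y).trans ?_
          gcongr _ * (?_ ^ 2 * _); linarith
      _ = _ := by ring
  have py := ph0_nonneg hv y
  refine ⟨b2, b3, by rw [le_div_iff₀ hM]; nlinarith, or_iff_not_imp_left.2 fun ht => ?_⟩
  have b5 := h1 v ρm x y hv (ball_subset_ball (by norm_num) hy) (by linarith)
    (by linarith [le_abs_self r0]) (by
      have : (2 * T + 1) / δ ≤ rt β v ρm x := by linarith
      rw [div_le_iff₀' δ0] at this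
      linarith) (not_le.1 ht).le
  refine ⟨b5, le_trans (Real.exp_le_exp.2 ?_) (h2 β v ρm hv hs y
    (by rw [le_div_iff₀ (by linarith)]; nlinarith) b2 (b5.trans_lt (by nlinarith)))⟩
  exact neg_le_neg (mul_le_mul_of_nonneg_left b5 (by positivity))

namespace Ex

variable {D : Dat n} {μ : Mu} {p : Wp n} {K C1 rs ηt C T2 τ : ℝ} {x y : EE n}
  (E : Ex D μ p K C1 rs ηt C T2 τ)
include E

theorem gg_memJ (x : EE n) : 0 ≤ D.gg x ∧ D.gg x ≤ 1 := by
  rw [Dat.gg]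
  split_ifs
  · have z := E.ok.Z_mem E.bas x
    exact ⟨by positivity, mul_le_one₀ (pow_le_one₀ (Real.smoothTransition.nonneg _)
      (Real.smoothTransition.le_one _)) (sq_nonneg _) (pow_le_one₀ z.1.le z.2)⟩
  · exact ⟨zero_le_one, le_rfl⟩
  · exact ⟨le_rfl, zero_le_one⟩

theorem gg_supp (h : D.gg x ≠ 0) : |dd D.v x| ≤ D.Th x + 1 := by
  rw [Dat.gg] at h
  split_ifs at h with h1 h2
  · refine le_of_not_gt fun h3 => h ?_
    rw [Dat.ch, Real.smoothTransition.zero_of_nonpos (by linarith)]; simp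
  · linarith [E.th.lo x, E.th.four]
  · exact absurd rfl h

/-- the gain near the foot of a point with a large gap -/
theorem gain_far {r : ℝ} (r1 : 1 ≤ r) (h1 : |dd D.v y| ≤ 1) (h2 : ph0 D.v y ≤ 1 / (2 * D.M))
    (h : Real.exp (-(1 / 500 * r)) ≤ tt D.v y ∨ (min (D.rp y) (D.rm y) ≤ (1 + 1 / 500) * r ∧
      Real.exp (-(2 * √2 * (1 + 1 / 500) * ((1 + 1 / 500) * r))) ≤ tt D.v y)) :
    D.Z0 ^ 2 / (2 * K ^ 2) * Real.exp (-(2 * la / θ0 * r)) ≤ D.Gain y := by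
  have O := E.ok
  have B := E.bas
  have K1 := O.K1
  have Z0 := O.Z0_pos
  have k2 : 1 ≤ K ^ 2 := one_le_pow₀ K1
  rcases h with h | ⟨h3, h4⟩
  · refine le_trans ?_ (O.gain_Z0 B y)
    calc _ ≤ D.Z0 ^ 2 / (2 * 1) * Real.exp (-(1 / 500 * r)) ^ 3 := by
          rw [← Real.exp_nat_mul]
          gcongr
          norm_num [la, θ0]; linarith
      _ ≤ D.Z0 ^ 2 / (2 * 1) * tt D.v y ^ 3 := by gcongr
      _ = _ := by ring
  · have hy : y ∈ D.Om := E.th.supp y h2 (by linarith [E.th.lo y, E.th.four])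
    have h5 : D.ζ (D.h ((1 + 1 / 500) * r)) ≤ D.Z y := by
      rw [O.Z_eq B hy]
      exact O.zmono (O.h_pos (by positivity)).le (O.U_pos B hy).le ((O.h_anti (lt_min
        (by linarith [B.rp8 hy]) (by linarith [B.rm8 hy])) h3).trans (O.hmin_le_U B hy))
    have h6 : D.Z0 / K * Real.exp (-(la * ((1 + 1 / 500) * r))) ≤ D.Z y := by
      refine le_trans ?_ h5
      rw [div_mul_eq_mul_div, div_le_iff₀' (by linarith)]
      exact E.des.bad1 _ (by linarith)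
    refine le_trans ?_ (O.gain_t B y)
    have s2 : √2 ≤ 14143 / 10000 := Real.sqrt_le_iff.2 ⟨by norm_num, by norm_num⟩
    calc _ ≤ D.Z0 ^ 2 / (1 * K ^ 2) * (Real.exp (-(2 * √2 * (1 + 1 / 500) * ((1 + 1 / 500) * r))) *
          Real.exp (-(la * ((1 + 1 / 500) * r))) ^ 2) := by
          rw [← Real.exp_nat_mul, ← Real.exp_add]
          gcongr
          · norm_num
          · norm_num [la, θ0]; nlinarith
      _ = Real.exp (-(2 * √2 * (1 + 1 / 500) * ((1 + 1 / 500) * r))) *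
          (D.Z0 / K * Real.exp (-(la * ((1 + 1 / 500) * r)))) ^ 2 := by ring
      _ ≤ _ := mul_le_mul h4 (by gcongr) (by positivity) (B.sol.tt_nonneg y)

theorem gg_far {A : ℝ} (hA : ∀ r, 1 ≤ r → D.ζ (2 * D.h r) ≤ A * Real.exp (-(la * r)))
    (hx : x ∈ D.Om) : D.gg x ^ (1 / θ0) ≤
      (A ^ 2) ^ (1 / θ0) * Real.exp (-(2 * la / θ0 * min (D.rp x) (D.rm x))) := by
  have O := E.ok
  have B := E.bas
  have r1 : 1 ≤ min (D.rp x) (D.rm x) := le_min (by linarith [B.rp8 hx]) (by linarith [B.rm8 hx])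
  have h1 : D.Z x ≤ A * Real.exp (-(la * min (D.rp x) (D.rm x))) := by
    rw [O.Z_eq B hx]
    exact (O.zmono (O.U_pos B hx).le ((O.U_pos B hx).le.trans (O.U_le B hx)) (O.U_le B hx)).trans
      (hA _ r1)
  have h2 : D.gg x ≤ A ^ 2 * Real.exp (-(2 * la * min (D.rp x) (D.rm x))) := by
    rw [Dat.gg, if_pos hx]
    refine (mul_le_of_le_one_left (sq_nonneg _) (pow_le_one₀ (Real.smoothTransition.nonneg _)
      (Real.smoothTransition.le_one _))).trans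
      ((pow_le_pow_left₀ (O.Z_mem B x).1.le h1 2).trans_eq ?_)
    rw [mul_pow, ← Real.exp_nat_mul]; congr 2; push_cast; ring
  refine (Real.rpow_le_rpow (E.gg_memJ x).1 h2 (by norm_num [θ0])).trans_eq ?_
  rw [Real.mul_rpow (sq_nonneg _) (Real.exp_pos _).le, ← Real.exp_mul]
  congr 2; ring

end Ex

/-- the partner ball -/
theorem j_pt (n : ℕ) (β : Bo) {K T M Z0 : ℝ} (A : ℝ) (T0 : 0 ≤ T) (hM : 0 < M) (K1 : 1 ≤ K)
    (hZ : 0 < Z0) : ∃ a R : ℝ, 0 < a ∧ 0 ≤ R ∧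
    ∀ (D : Dat n) (μ : Mu) (p : Wp n) (C1 rs ηt C T2 τ : ℝ), D.β = β → D.M = M → D.Z0 = Z0 →
      (∀ r, 1 ≤ r → D.ζ (2 * D.h r) ≤ A * Real.exp (-(la * r))) → Ex D μ p K C1 rs ηt C T2 τ →
      ∀ x, (x ∈ D.Om → 2 * min (D.rp x) (D.rm x) < D.ρm) → |dd D.v x| ≤ T →
        |dd D.v x| ≤ D.Th x + 1 → ∃ y, ∀ y' ∈ ball y (1 / 2), |dd D.v y'| ≤ 1 ∧ ‖x - y'‖ ≤ R ∧
          D.gg x ^ (1 / θ0) ≤ a * D.Gain y' := by
  obtain ⟨R0, r1, hg⟩ := j_geo n β T0 (M := 2 * M) (ε := 1 / 500) (by positivity) (by norm_num)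
    (by norm_num)
  obtain ⟨A0, a0, hz⟩ := zero_near n
  obtain ⟨Cp, c1, h3⟩ := fl_ph0 n
  obtain ⟨C', c2, h4⟩ := tlo n 1
  obtain ⟨c, hc⟩ : ∃ c, c = 1 / (2 * (M + R0)) / (Cp * (2 * T + A0 + 2) ^ 2) := ⟨_, rfl⟩
  have c0 : 0 < c := by rw [hc]; positivity
  obtain ⟨t0, ht⟩ : ∃ t0, t0 = Real.exp (-(C' / c) - C') := ⟨_, rfl⟩
  have t1 : 0 < t0 := ht ▸ Real.exp_pos _
  have q1 : 0 < 2 / (Z0 ^ 2 * t0 ^ 3) := by positivity
  have q2 : 0 ≤ (A ^ 2) ^ (1 / θ0) * (2 * K ^ 2 / Z0 ^ 2) := by positivity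
  refine ⟨2 / (Z0 ^ 2 * t0 ^ 3) + (A ^ 2) ^ (1 / θ0) * (2 * K ^ 2 / Z0 ^ 2), 2 * T + A0 + 1,
    by positivity, by positivity, fun D μ p C1 rs ηt C T2 τ e1 e2 e3 hA E x hx hd hd' => ?_⟩
  subst e1 e2 e3
  have O := E.ok
  have B := E.bas
  have G0 : ∀ y, 0 ≤ D.Gain y := fun y =>
    (mul_nonneg (sq_nonneg _) (sq_nonneg _)).trans (O.gain_lw B y)
  by_cases h : x ∈ D.Om ∧ R0 ≤ min (D.rp x) (D.rm x)
  · obtain ⟨hO, hr⟩ := h
    have b1 : min (D.rp x) (D.rm x) * ph0 D.v x ≤ 2 := by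
      have := B.min_le hO
      rwa [mul_one_div, le_div_iff₀ (B.ph x)] at this
    refine ⟨ft D.v x, fun y hy => ?_⟩
    have b2 : |dd D.v y| ≤ 1 ∧ ‖x - y‖ ≤ T + 1 ∧ D.Z0 ^ 2 / (2 * K ^ 2) *
        Real.exp (-(2 * la / θ0 * min (D.rp x) (D.rm x))) ≤ D.Gain y := by
      have hx := hx hO
      rcases min_choice (D.rp x) (D.rm x) with e | e <;> rw [e] at hr hx b1 ⊢
      · obtain ⟨s1, s2, s3, s4⟩ := hg D.v D.ρm x y B.sol B.pos.stab hd hr hx b1 hy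
        exact ⟨s1, s2, E.gain_far (r1.trans hr) s1 s3
          (s4.imp_right fun h => ⟨(min_le_left _ _).trans h.1, h.2⟩)⟩
      · obtain ⟨s1, s2, s3, s4⟩ := hg (ng D.v) D.ρm x y (sol_ng B.sol) (stable_ng B.pos.stab)
          (by rwa [dd_ng B.sol, abs_neg]) hr hx (by rwa [ph0_ng]) (by rwa [ft_ng' B.sol])
        rw [dd_ng B.sol, abs_neg] at s1
        rw [ph0_ng] at s3
        rw [tt_ng B.sol] at s4
        exact ⟨s1, s2, E.gain_far (r1.trans hr) s1 s3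
          (s4.imp_right fun h => ⟨(min_le_right _ _).trans h.1, h.2⟩)⟩
    refine ⟨b2.1, by linarith [b2.2.1], (E.gg_far hA hO).trans ?_⟩
    calc _ = (A ^ 2) ^ (1 / θ0) * (2 * K ^ 2 / D.Z0 ^ 2) * (D.Z0 ^ 2 / (2 * K ^ 2) *
          Real.exp (-(2 * la / θ0 * min (D.rp x) (D.rm x)))) := by field_simp
      _ ≤ _ := mul_le_mul (le_add_of_nonneg_left q1.le) b2.2.2 (by positivity) (by positivity)
  · have b1 : 1 / (2 * (D.M + R0)) ≤ ph0 D.v x := by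
      by_cases hO : x ∈ D.Om
      · have s1 := not_le.1 fun h' => h ⟨hO, h'⟩
        have s2 := hx hO
        have s3 : 1 / ph0 D.v x / 2 ≤ min (D.rp x) (D.rm x) :=
          (min_le_iff.1 (B.le_min hO)).resolve_left fun h' => by
            have : 8 ≤ min (D.rp x) (D.rm x) := le_min (B.rp8 hO) (B.rm8 hO)
            linarith
        rw [one_div_le (by positivity) (B.ph x)]
        linarith
      · exact (one_div_le_one_div_of_le (by positivity) (by linarith)).trans (E.ph_gt hd' hO).le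
    obtain ⟨y0, s1, s2⟩ := hz D.v B.sol x
    refine ⟨y0, fun y hy => ?_⟩
    have s3 := mem_ball_iff_norm.1 hy
    have s4 : |dd D.v y| ≤ 1 := (N067.T.band_of_zero B.sol s1).trans (by linarith)
    have s5 : ‖y - x‖ ≤ 2 * T + A0 + 1 := by
      linarith [norm_sub_le_norm_sub_add_norm_sub y y0 x]
    have s6 : c ≤ ph0 D.v y := by
      rw [hc, div_le_iff₀' (by positivity), mul_assoc]
      refine b1.trans ((h3 D.v B.sol B.pos.stab y x).trans ?_)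
      have := (B.ph y).le
      gcongr _ * (?_ ^ 2 * _); linarith
    have s7 : t0 ≤ tt D.v y := by
      refine ht ▸ le_trans (Real.exp_le_exp.2 ?_) (h4 D.v B.sol y (B.ph y) s4)
      have : C' / ph0 D.v y ≤ C' / c := by gcongr
      linarith
    refine ⟨s4, by rwa [norm_sub_rev], (Real.rpow_le_one (E.gg_memJ x).1 (E.gg_memJ x).2
      (by norm_num [θ0])).trans ?_⟩
    calc (1 : ℝ) = 2 / (D.Z0 ^ 2 * t0 ^ 3) * (D.Z0 ^ 2 * t0 ^ 3 / 2) := by field_simp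
      _ ≤ _ := mul_le_mul (le_add_of_nonneg_right q2) (le_trans (by gcongr) (O.gain_Z0 B y))
          (by positivity) (by positivity)

theorem jS (n : ℕ) : JStmt n := by
  refine fun K T2 β C1 C2 c1 _ => ⟨1, fun M hM => ⟨1, fun f0 hf h ζ => ?_⟩⟩
  by_cases H : (∃ A : ℝ, ∀ r, 1 ≤ r → ζ (2 * h r) ≤ A * Real.exp (-(la * r))) ∧ 1 ≤ K ∧
    0 < ζ (80 / f0)
  swap
  · refine ⟨1, one_pos, fun D μ p rs ηt C τ _ _ _ e1 e2 e3 E => absurd ?_ H⟩
    subst e1 e2 e3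
    exact ⟨E.des.jdec, E.ok.K1, E.ok.Z0_pos⟩
  obtain ⟨⟨A, hA⟩, K1, hZ⟩ := H
  have l0 := Real.log_nonneg hf
  obtain ⟨a, R, a0, R0, hp⟩ := j_pt n β (T := C1 * Real.log f0 + 1) (M := M) A (by positivity)
    (by linarith) K1 hZ
  obtain ⟨A1, a1, hc⟩ := P.charge' n (r0 := 1 / 2) (by norm_num)
  obtain ⟨A0, -, hz⟩ := zero_near n
  refine ⟨A1 * (a * (K * (1 + R) ^ K) ^ 2 * (1 + R) ^ (n + 1)), by positivity,
    fun D μ p rs ηt C τ e1 _ e2 e3 e4 e5 E => ?_⟩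
  subst e3 e4 e5
  have O := E.ok
  have B := E.bas
  have G0 : ∀ y, 0 ≤ D.Gain y := fun y =>
    (mul_nonneg (sq_nonneg _) (sq_nonneg _)).trans (O.gain_lw B y)
  refine hc _ _ _ _ _ (by positivity) (T.meas_band B.sol 1)
    ((O.meas_Gain B).mul (O.Wcd.continuous.measurable.pow_const 2)) fun x hx => ?_
  by_cases h0 : D.gg x = 0
  · obtain ⟨y0, s1, -⟩ := hz D.v B.sol x
    refine ⟨y0, fun y hy => ⟨(T.band_of_zero B.sol s1).trans
      (by linarith [mem_ball_iff_norm.1 hy]), ?_⟩⟩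
    have := G0 y
    rw [h0, Real.zero_rpow (by norm_num [θ0]), zero_mul, zero_mul, zero_mul]
    positivity
  have h1 := E.gg_supp h0
  obtain ⟨y0, hy⟩ := hp D μ p C1 rs ηt C T2 τ e1 e2 rfl hA E x hx (by linarith [O.Thi x]) h1
  refine ⟨y0, fun y h2 => ⟨(hy y h2).1, ?_⟩⟩
  obtain ⟨-, s1, s2⟩ := hy y h2
  have := G0 y
  have w0 := O.Wpos x
  have w1 := O.Wpos y
  have s3 : D.W x ≤ K * (1 + R) ^ K * D.W y := (O.Wcmp x y).trans (by gcongr)
  calc _ ≤ a * D.Gain y * 1 * (K * (1 + R) ^ K * D.W y) ^ 2 * (1 + R) ^ (n + 1) := by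
        gcongr; exact W.psi_sq_le B.sol x
    _ = _ := by ring

end

end Crest.Agent.N067.M
end

-- ▼ part N067/Z/Main
section

/-!
# Row 67, TOP (helper47): the leaf MAIN (pointwise inequality, integrated)
-/

set_option autoImplicit false
set_option linter.dupNamespace false
set_option linter.unusedSectionVars false

open MeasureTheory Laplacian InnerProductSpace Topology Filter Set Metric
open scoped RealInnerProductSpace Gradient ContDiff ENNReal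

namespace Crest.Agent.N067.M

open Crest.Agent.R077 Crest.Agent.N067.V Crest.Agent.N067.Y

noncomputable section

variable {n : ℕ} {D : Dat n} {μ : Mu} {p : Wp n} {K C1 rs ηt C T2 τ : ℝ} {x : EE n}

namespace Mn

/-- lower integral of the positive part -/
def LI (f : EE n → ℝ) : ℝ≥0∞ := ∫⁻ x, ENNReal.ofReal (f x)

variable {f g h : EE n → ℝ}

theorem add_ge (hf : ∀ x, 0 ≤ f x) (hg : ∀ x, 0 ≤ g x) : LI f + LI g ≤ LI fun x => f x + g x :=
  (le_lintegral_add _ _).trans (lintegral_mono fun x => (ENNReal.ofReal_add (hf x) (hg x)).ge)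

theorem add_le (hg : AEMeasurable g) : (LI fun x => f x + g x) ≤ LI f + LI g :=
  (lintegral_mono fun _ => ENNReal.ofReal_add_le).trans
    (lintegral_add_right' _ hg.ennreal_ofReal).le

theorem mul_eq {c : ℝ} (hc : 0 ≤ c) (f : EE n → ℝ) :
    (LI fun x => c * f x) = ENNReal.ofReal c * LI f := by
  simp only [LI, ENNReal.ofReal_mul hc]
  exact lintegral_const_mul' _ _ ENNReal.ofReal_ne_top

theorem ind_eq {S : Set (EE n)} (hS : MeasurableSet S) (f : EE n → ℝ) :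
    ∫⁻ x in S, ENNReal.ofReal (f x) = LI (S.indicator f) := by
  rw [LI, ← lintegral_indicator hS]
  refine lintegral_congr fun x => ?_
  by_cases hx : x ∈ S <;> simp [hx]

theorem key (hh : Integrable h) (h0 : ∫ x, h x ≤ 0) (hg : ∀ᵐ x, f x ≤ h x + g x)
    (f0 : ∀ x, 0 ≤ f x) : LI f ≤ LI g := by
  have a1 : LI h ≠ ⊤ := hh.lintegral_lt_top.ne
  have a2 : LI (fun x => -h x) ≠ ⊤ := hh.neg.lintegral_lt_top.ne
  have a3 : LI h ≤ LI fun x => -h x := by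
    rw [integral_eq_lintegral_pos_part_sub_lintegral_neg_part hh, sub_nonpos] at h0
    exact (ENNReal.toReal_le_toReal a1 a2).1 h0
  have a4 : LI f + LI (fun x => -h x) ≤ LI g + LI h := by
    rw [LI, LI, LI, LI, ← lintegral_add_right' (g := fun x => ENNReal.ofReal (-h x)) _
      hh.1.aemeasurable.neg.ennreal_ofReal,
      ← lintegral_add_right' _ hh.1.aemeasurable.ennreal_ofReal]
    refine lintegral_mono_ae (hg.mono fun x hx => ?_)
    rcases le_total 0 (h x) with h1 | h1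
    · rw [ENNReal.ofReal_of_nonpos (neg_nonpos.2 h1), add_zero]
      exact (ENNReal.ofReal_le_ofReal (by linarith)).trans ENNReal.ofReal_add_le
    · rw [ENNReal.ofReal_of_nonpos h1, add_zero, ← ENNReal.ofReal_add (f0 x) (neg_nonneg.2 h1)]
      exact ENNReal.ofReal_le_ofReal (by linarith)
  exact (ENNReal.add_le_add_iff_right a2).1 (a4.trans (add_le_add_right a3 _))

theorem meas_sign : Measurable fun y : ℝ => (SignType.sign y : ℝ) := by
  have e : (fun y : ℝ => (SignType.sign y : ℝ)) =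
      fun y => if 0 < y then 1 else if y < 0 then -1 else 0 := funext fun y => by
    rw [sign_apply]; split_ifs <;> simp
  rw [e]
  exact Measurable.ite measurableSet_Ioi measurable_const
    (Measurable.ite measurableSet_Iio measurable_const measurable_const)

theorem potD_eq (D : Dat n) (ηt C : ℝ) (x : EE n) :
    W.potD D ep ηt C x = D.tk ηt x + C * tt D.v x ^ 2 := by
  rw [W.potD, Dat.tk]

theorem flx_flip (hv : Sol D.v) (x a : EE n) :
    (SignType.sign (dd D.flip.v x) : ℝ) * ⟪nn D.flip.v x, a⟫ =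
      SignType.sign (dd D.v x) * ⟪nn D.v x, a⟫ := by
  rw [flip_v, nn_ng hv, dd_ng hv, Left.sign_neg, inner_neg_left]; simp

end Mn

open Mn

namespace Ex

variable (E : Ex D μ p K C1 rs ηt C T2 τ)
include E

theorem lw_eq (x : EE n) : D.lw x = (rh p.I p.x0 p.r0 x)⁻¹ := by rw [E.hl]

theorem P_nonneg (x : EE n) : 0 ≤ D.ch x ^ 2 * D.dens x := by rw [Dat.dens]; positivity

theorem P_le (x : EE n) : D.ch x ^ 2 * D.dens x ≤ D.W x ^ 2 := by
  have h1 : D.ch x ^ 2 ≤ 1 := by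
    rw [← sq_abs]; exact pow_le_one₀ (abs_nonneg _) (W.abs_cut _)
  have h2 := E.ok.Z_mem E.bas x
  have h3 : D.Z x ^ 2 ≤ 1 := pow_le_one₀ h2.1.le h2.2
  have h4 := W.psi_sq_le E.bas.sol x
  calc _ ≤ 1 * (1 * 1 * D.W x ^ 2) := by rw [Dat.dens]; gcongr
    _ = _ := by ring

/-- `th |∇ rp| ≤ 2 M / U` -/
theorem th_grad (hx : x ∈ D.Om) : ‖W.thD D x • ∇ D.rp x‖ ≤ 2 * D.M / D.U x := by
  have R := E.br
  have p0 := R.rp_pos hx
  have t0 := R.th'.nonneg x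
  have h1 := (E.des.one _ (inv_pos.2 p0)).1
  rw [R.H1_inv p0] at h1
  have h2 := R.th'.le x hx
  have h3 : ‖∇ D.rp x‖ ≤ D.M * D.rp x ^ 2 := E.bas.p.grad x hx
  have M0 : 0 ≤ D.M := by linarith [E.hM]
  have U0 := R.U_pos hx
  rw [norm_smul, Real.norm_of_nonneg t0, le_div_iff₀ U0]
  calc _ = W.thD D x * D.U x * ‖∇ D.rp x‖ := by ring
    _ ≤ 2 * |D.hd (D.rp x)| * (D.M * D.rp x ^ 2) := by
        gcongr ?_ * ?_
        exact h2.trans (by gcongr; linarith [R.k1])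
    _ = 2 * D.M * (D.rp x ^ 2 * |D.hd (D.rp x)|) := by ring
    _ ≤ _ := mul_le_of_le_one_right (by positivity) h1

/-- the pointwise inequality at valid points -/
theorem pt_Om (Ce : ℝ) (hx : x ∈ D.Om)
    (hg : D.XX x = -(W.thD D x • ∇ D.rp x + W.thD D.flip x • ∇ D.rm x)) :
    D.ch x ^ 2 * D.dens x * ((1 + ep) * ‖μ.s (D.U x) • D.XX x + D.VV x‖ ^ 2) +
      1 / 40000 * (D.ch x ^ 2 * D.dens x * (μ.b (D.U x) * ‖D.XX x‖ ^ 2)) +
      1 / 200 * (if D.U x ≤ μ.U3 then D.ch x ^ 2 * D.dens x * D.lw x ^ 2 else 0) +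
      6 / 5 * (et * k0 / 4) * (D.ch x ^ 2 * D.dens x * (D.th μ x * ‖∇ D.rp x‖ ^ 2 / D.rp x) +
        D.ch x ^ 2 * D.dens x * (D.flip.th μ x * ‖∇ D.rm x‖ ^ 2 / D.rm x)) ≤
    (D.h1 μ ηt C x + 11 / 10 * D.h2 μ p Ce x) +
      (D.ch x ^ 2 * D.dens x * (μ.b (D.U x) *
        (W.thD D x * D.rp x * D.tk ηt x + W.thD D.flip x * D.rm x * D.flip.tk ηt x)) +
      (420 * Ce ^ 2 + 2 * C) * (D.ch x ^ 2 * D.dens x * (D.th μ x * D.rp x * tt D.v x ^ 2) +
        D.ch x ^ 2 * D.dens x * (D.flip.th μ x * D.rm x * tt D.v x ^ 2)) +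
      6 / 5 * (D.dens x * (2 * D.ch x * D.chd x * D.th μ x *
          (-(SignType.sign (dd D.v x) * ⟪nn D.v x, ∇ D.rp x⟫))) +
        D.dens x * (2 * D.ch x * D.chd x * D.flip.th μ x *
          (-(SignType.sign (dd D.v x) * ⟪nn D.v x, ∇ D.rm x⟫)))) +
      60000 * D.chd x ^ 2 * (D.dens x * (μ.b (D.U x) * ‖∇ D.Th x‖ ^ 2)) +
      (if μ.U3 ≤ D.U x then 4000000 * D.lw x ^ 2 else 0) * (D.ch x ^ 2 * D.dens x) +
      (if 1 / D.M ^ 2 ≤ D.U x then μ.be else 0) * ‖D.XX x‖ ^ 2 * (D.ch x ^ 2 * D.dens x) +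
      20000 * ‖H.V2 p.x0 p.R x‖ ^ 2 * (D.ch x ^ 2 * D.dens x)) := by
  have hv := E.bas.sol
  have U0 := E.br.U_pos hx
  have u0 := E.U3_pos
  obtain ⟨s0, s1, b0, b1, -⟩ := E.des.bd _ U0
  have d0 : 0 ≤ D.dens x := by rw [Dat.dens]; positivity
  have P0 := E.P_nonneg x
  have ht := (E.ts x hx).trans E.τ1
  have hL : ‖∇ (H.lr p.I p.x0 p.r0) x‖ ≤ D.lw x := E.lw_eq x ▸ H.norm_grad_lr E.r0_pos x
  have htr := H.le_trT (I := p.I) D.v E.card x
  have one := E.one_le hx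
  have eF : ⟪nn D.v x, D.XX x⟫ =
      -(W.thD D x * ⟪nn D.v x, ∇ D.rp x⟫ + W.thD D.flip x * ⟪nn D.v x, ∇ D.rm x⟫) := by
    rw [hg, inner_neg_right, inner_add_right, real_inner_smul_right, real_inner_smul_right]
  have q1 : D.ch x ^ 2 * D.dens x * (μ.b (D.U x) * tt D.v x ^ 2) * 1 ≤
      D.ch x ^ 2 * D.dens x * (μ.b (D.U x) * tt D.v x ^ 2) *
        (W.thD D x * D.rp x + W.thD D.flip x * D.rm x) := by gcongr
  have q2 : 0 ≤ D.ch x ^ 2 * D.dens x * (μ.b (D.U x) * tt D.v x ^ 2) *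
      (W.thD D x * D.rp x + W.thD D.flip x * D.rm x) :=
    mul_nonneg (by positivity) (zero_le_one.trans one)
  have q3 := mul_le_mul_of_nonneg_left q1 (sq_nonneg Ce)
  have q4 := mul_nonneg E.C0 q2
  have q5 : 0 ≤ (if 1 / D.M ^ 2 ≤ D.U x then μ.be else 0) * ‖D.XX x‖ ^ 2 *
      (D.ch x ^ 2 * D.dens x) :=
    mul_nonneg (mul_nonneg (by split_ifs; exacts [E.des.be, le_rfl]) (sq_nonneg _)) P0
  have q6 : 0 ≤ (if μ.U3 ≤ D.U x then 4000000 * D.lw x ^ 2 else 0) * (D.ch x ^ 2 * D.dens x) :=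
    mul_nonneg (by split_ifs <;> positivity) P0
  have q7 : 0 ≤ ‖H.V2 p.x0 p.R x‖ ^ 2 * (D.ch x ^ 2 * D.dens x) := by positivity
  rw [E.h1_eq hx, E.h2_eq hx, W.GD, potD_eq, potD_eq, flip_v, tt_ng hv, E.hk, Dat.th, Dat.th,
    W.flip_U, div_eq_mul_inv (H.trT _ _ _), div_eq_mul_inv (Ce * _), ← inv_pow, ← E.lw_eq,
    E.VV_eq, Dat.gC]
  change _ ≤ D.dens x * W.hh1 _ _ _ _ _ _ _ (_ + _ * ‖D.XX x‖ ^ 2 + _) + _ + _
  rcases le_or_gt (D.U x) μ.U3 with h | h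
  · obtain ⟨c1, c2⟩ := Mu.c_low u0 h
    have a := W.alg_low (X := D.XX x) (U := H.V2 p.x0 p.R x) (gT := ∇ D.Th x) (ch := D.ch x)
      (chd := D.chd x) (sg := SignType.sign (dd D.v x)) (CH := Ce) (ε := ep)
      (P := W.thD D x * D.rp x * (D.tk ηt x + C * tt D.v x ^ 2) +
        W.thD D.flip x * D.rm x * (D.flip.tk ηt x + C * tt D.v x ^ 2))
      (Kp := et * k0 / 4 * (W.thD D x * ‖∇ D.rp x‖ ^ 2 / D.rp x +
        W.thD D.flip x * ‖∇ D.rm x‖ ^ 2 / D.rm x))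
      hv ht (by norm_num [ep]) (by norm_num [ep]) (E.des.main _ U0 h)
      (E.des.half _ U0 (by linarith)) b1 hL htr
    rw [← nn, eF] at a
    rw [c1, c2, if_pos h, ← nn]
    linear_combination mul_le_mul_of_nonneg_left a d0 + 350 * q3 + 2 / 3 * q4 + q5 + q6
  · obtain ⟨s2, ha⟩ := E.des.top _ h.le
    have hc : μ.c (D.U x) ≤ 12 / 5 * μ.b (D.U x) ∧ |μ.cu (D.U x)| ≤ 24 / 5 * μ.b (D.U x) := by
      rcases le_total (D.U x) (2 * μ.U3) with h1 | h1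
      · have := E.des.half _ U0 h1
        exact ⟨by linarith [(μ.c_mem (D.U x)).2], by linarith [Mu.abs_cu u0 (D.U x)]⟩
      · rw [(Mu.c_top u0 h1).1, (Mu.c_top u0 h1).2, abs_zero]
        exact ⟨by positivity, by positivity⟩
    have a := W.alg_top (x := x) (X := D.XX x) (U := H.V2 p.x0 p.R x) (gT := ∇ D.Th x) (ch := D.ch x)
      (chd := D.chd x) (sg := SignType.sign (dd D.v x)) (CH := Ce) (ε := ep)
      (P := W.thD D x * D.rp x * (D.tk ηt x + C * tt D.v x ^ 2) +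
        W.thD D.flip x * D.rm x * (D.flip.tk ηt x + C * tt D.v x ^ 2))
      (Kp := et * k0 / 4 * (W.thD D x * ‖∇ D.rp x‖ ^ 2 / D.rp x +
        W.thD D.flip x * ‖∇ D.rm x‖ ^ 2 / D.rm x))
      hv (by norm_num [ep]) (by norm_num [ep]) b0 b1 s0 s1 s2 ha (μ.c_mem _).1 hc.1 hc.2 hL
      (E.lw_eq x ▸ H.norm_V2_le' E.r0_pos E.hr.2.2.1 x) (le_trans (by linarith) htr)
    rw [← nn, eF] at a
    rw [if_neg h.not_ge, if_pos h.le, ← nn]
    linear_combination mul_le_mul_of_nonneg_left a d0 + 350 * q3 + 2 / 3 * q4 + 20000 * q7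

/-- the set of `TOP` -/
def _root_.Crest.Agent.N067.M.Dat.TS (D : Dat n) (U1 T2 : ℝ) : Set (EE n) :=
  {x | (x ∈ D.In ∧ U1 ≤ D.U x) ∨ (x ∉ D.Om ∧ |dd D.v x| < T2)}

set_option maxHeartbeats 1000000 in
/-- the pointwise inequality -/
theorem pt {Ce A Cm : ℝ} (hA : ∀ y, |deriv Real.smoothTransition y| ≤ A)
    (hC : 4000000 + 420 * Ce ^ 2 + 60000 * A ^ 2 ≤ Cm) : ∀ᵐ x,
    (1 + ep) * {x | |dd D.v x| < T2}.indicator (fun x => psi D.v x ^ 2 * gsq D.zz x) x +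
      1 / 40000 * D.In.indicator
        (fun x => D.ch x ^ 2 * D.dens x * (μ.b (D.U x) * ‖D.XX x‖ ^ 2)) x +
      1 / 200 * {x | x ∈ D.In ∧ D.U x ≤ μ.U3}.indicator
        (fun x => D.ch x ^ 2 * D.dens x * D.lw x ^ 2) x +
      6 / 5 * (et * k0 / 4) * (D.In.indicator
          (fun x => D.ch x ^ 2 * D.dens x * (D.th μ x * ‖∇ D.rp x‖ ^ 2 / D.rp x)) x +
        D.In.indicator
          (fun x => D.ch x ^ 2 * D.dens x * (D.flip.th μ x * ‖∇ D.rm x‖ ^ 2 / D.rm x)) x) ≤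
    (D.h1 μ ηt C x + 11 / 10 * D.h2 μ p Ce x) +
      (D.In.indicator (fun x => D.ch x ^ 2 * D.dens x * (μ.b (D.U x) *
        (W.thD D x * D.rp x * D.tk ηt x + W.thD D.flip x * D.rm x * D.flip.tk ηt x))) x +
      (Cm + 2 * C) * (D.In.indicator
          (fun x => D.ch x ^ 2 * D.dens x * (D.th μ x * D.rp x * tt D.v x ^ 2)) x +
        D.In.indicator
          (fun x => D.ch x ^ 2 * D.dens x * (D.flip.th μ x * D.rm x * tt D.v x ^ 2)) x) +
      6 / 5 * (D.Cut.indicator (fun x => D.dens x * (2 * D.ch x * D.chd x * D.th μ x *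
          (-(SignType.sign (dd D.v x) * ⟪nn D.v x, ∇ D.rp x⟫)))) x +
        D.Cut.indicator (fun x => D.dens x * (2 * D.ch x * D.chd x * D.flip.th μ x *
          (-(SignType.sign (dd D.v x) * ⟪nn D.v x, ∇ D.rm x⟫)))) x) +
      Cm * D.Cut.indicator (fun x => D.dens x * (μ.b (D.U x) * ‖∇ D.Th x‖ ^ 2)) x +
      Cm / rs ^ 2 * (D.TS μ.U3 T2).indicator (fun x => D.W x ^ 2) x +
      μ.be * (Cm * D.M ^ 6) * (D.TS (1 / D.M ^ 2) T2).indicator (fun x => D.W x ^ 2) x +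
      Cm / p.R ^ 2 * (D.gg x * psi D.v x ^ 2 * D.W x ^ 2)) := by
  have hv := E.bas.sol
  have a1 : 0 ≤ 420 * Ce ^ 2 := by positivity
  have a2 : 0 ≤ 60000 * A ^ 2 := by positivity
  have C0 : 0 ≤ Cm := by linarith
  have rs1 := E.hr.1
  have R0 : 0 < p.R := E.r0_pos.trans_le E.hr.2.2.1
  have M0 : 0 < D.M := by linarith [E.hM]
  have be0 := E.des.be
  filter_upwards [E.out.grad, zgS n D μ p K C1 rs ηt C T2 τ E] with x hg hz
  have l0 := (E.ok.lwpos x).1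
  have l1 : D.lw x ^ 2 ≤ 1 / rs ^ 2 := by
    rw [← one_div_pow]; exact pow_le_pow_left₀ l0.le (E.ok.lwpos x).2 2
  have t1 : ∀ U1, 0 ≤ (D.TS U1 T2).indicator (fun x => D.W x ^ 2) x := fun U1 =>
    indicator_nonneg (fun _ _ => sq_nonneg _) x
  have t2 : 0 ≤ Cm / rs ^ 2 * (D.TS μ.U3 T2).indicator (fun x => D.W x ^ 2) x :=
    mul_nonneg (by positivity) (t1 _)
  have t3 : 0 ≤ μ.be * (Cm * D.M ^ 6) *
      (D.TS (1 / D.M ^ 2) T2).indicator (fun x => D.W x ^ 2) x := mul_nonneg (by positivity) (t1 _)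
  have t4 : 0 ≤ Cm / p.R ^ 2 * (D.gg x * psi D.v x ^ 2 * D.W x ^ 2) := by
    have : 0 ≤ D.gg x := by rw [Dat.gg]; split_ifs <;> positivity
    positivity
  by_cases hx : x ∈ D.In
  · have P0 := E.P_nonneg x
    have P1 := E.P_le x
    have U0 := E.br.U_pos hx.1
    have b0 := (E.des.bd _ U0).2.2.1
    have d0 : 0 ≤ D.dens x := by rw [Dat.dens]; positivity
    have q := E.pt_Om Ce hx.1 (hg hx.1)
    have e1 : (1 + ep) * {x | |dd D.v x| < T2}.indicator (fun x => psi D.v x ^ 2 * gsq D.zz x) x ≤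
        D.ch x ^ 2 * D.dens x * ((1 + ep) * ‖μ.s (D.U x) • D.XX x + D.VV x‖ ^ 2) := by
      by_cases h : |dd D.v x| < T2
      · rw [indicator_of_mem (show x ∈ {x | |dd D.v x| < T2} from h), gsq_eq, (hz h).1 hx.1,
          norm_smul, mul_pow, Real.norm_eq_abs, sq_abs, Dat.ch_one (h.le.trans (E.th.lo x)),
          Dat.dens, Dat.zz]
        exact le_of_eq (by ring)
      · rw [indicator_of_notMem (show x ∉ {x | |dd D.v x| < T2} from h), mul_zero]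
        have : 0 ≤ 1 + ep := by norm_num [ep]
        positivity
    have e2 : {x | x ∈ D.In ∧ D.U x ≤ μ.U3}.indicator
        (fun x => D.ch x ^ 2 * D.dens x * D.lw x ^ 2) x =
        if D.U x ≤ μ.U3 then D.ch x ^ 2 * D.dens x * D.lw x ^ 2 else 0 := by
      split_ifs with h
      · exact indicator_of_mem (show x ∈ {x | x ∈ D.In ∧ D.U x ≤ μ.U3} from ⟨hx, h⟩) _
      · exact indicator_of_notMem (fun h1 => h h1.2) _
    have cz : x ∉ D.Cut → D.chd x = 0 := fun h => Dat.chd_zero (not_le.1 fun h1 => h ⟨hx, h1⟩)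
    have e3 : ∀ (t : EE n → ℝ) (a : EE n → EE n), D.Cut.indicator (fun x => D.dens x *
        (2 * D.ch x * D.chd x * t x * (-(SignType.sign (dd D.v x) * ⟪nn D.v x, a x⟫)))) x =
        D.dens x * (2 * D.ch x * D.chd x * t x *
          (-(SignType.sign (dd D.v x) * ⟪nn D.v x, a x⟫))) := fun t a => by
      by_cases h : x ∈ D.Cut
      · exact indicator_of_mem h _
      · rw [indicator_of_notMem h, cz h]; ring
    have e4 : 60000 * D.chd x ^ 2 * (D.dens x * (μ.b (D.U x) * ‖∇ D.Th x‖ ^ 2)) ≤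
        Cm * D.Cut.indicator (fun x => D.dens x * (μ.b (D.U x) * ‖∇ D.Th x‖ ^ 2)) x := by
      by_cases h : x ∈ D.Cut
      · have : D.chd x ^ 2 ≤ A ^ 2 := by
          rw [← sq_abs]; exact pow_le_pow_left₀ (abs_nonneg _) (hA _) 2
        rw [indicator_of_mem h]
        gcongr ?_ * _
        linarith
      · rw [indicator_of_notMem h, cz h]; simp
    have e5 : (if μ.U3 ≤ D.U x then 4000000 * D.lw x ^ 2 else 0) * (D.ch x ^ 2 * D.dens x) ≤
        Cm / rs ^ 2 * (D.TS μ.U3 T2).indicator (fun x => D.W x ^ 2) x := by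
      split_ifs with h
      · rw [indicator_of_mem (show x ∈ D.TS μ.U3 T2 from Or.inl ⟨hx, h⟩), ← mul_one_div Cm]
        gcongr
        linarith
      · rwa [zero_mul]
    have e6 : (if 1 / D.M ^ 2 ≤ D.U x then μ.be else 0) * ‖D.XX x‖ ^ 2 * (D.ch x ^ 2 * D.dens x) ≤
        μ.be * (Cm * D.M ^ 6) * (D.TS (1 / D.M ^ 2) T2).indicator (fun x => D.W x ^ 2) x := by
      split_ifs with h
      · have b1 : 2 * D.M / D.U x ≤ 2 * D.M ^ 3 := by
          rw [div_le_iff₀ U0]; rw [div_le_iff₀ (by positivity)] at h; nlinarith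
        have b2 := E.flip.th_grad ((W.flip_Om hv).symm ▸ hx.1)
        rw [W.flip_U] at b2
        have b3 : ‖D.XX x‖ ≤ 4 * D.M ^ 3 := by
          rw [Dat.XX, hg hx.1, norm_neg]
          exact (norm_add_le_of_le ((E.th_grad hx.1).trans b1) (b2.trans b1)).trans_eq (by ring)
        have b4 : ‖D.XX x‖ ^ 2 ≤ Cm * D.M ^ 6 := (pow_le_pow_left₀ (norm_nonneg _) b3 2).trans (by
          rw [show (4 * D.M ^ 3) ^ 2 = 16 * D.M ^ 6 by ring]; gcongr; linarith)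
        rw [indicator_of_mem (show x ∈ D.TS (1 / D.M ^ 2) T2 from Or.inl ⟨hx, h⟩)]
        gcongr
      · rwa [zero_mul, zero_mul]
    have e7 : 20000 * ‖H.V2 p.x0 p.R x‖ ^ 2 * (D.ch x ^ 2 * D.dens x) ≤
        Cm / p.R ^ 2 * (D.gg x * psi D.v x ^ 2 * D.W x ^ 2) := by
      have b1 := pow_le_pow_left₀ (norm_nonneg _) (H.norm_V2_le (c := p.x0) R0 x) 2
      rw [Dat.gg, if_pos hx.1, show D.ch x ^ 2 * D.Z x ^ 2 * psi D.v x ^ 2 * D.W x ^ 2 =
        D.ch x ^ 2 * D.dens x by rw [Dat.dens]; ring]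
      gcongr ?_ * _
      calc _ ≤ 20000 * (5 / p.R) ^ 2 := by gcongr
        _ = 500000 / p.R ^ 2 := by ring
        _ ≤ _ := by gcongr; linarith
    have e8 : 0 ≤ D.ch x ^ 2 * D.dens x * (D.th μ x * D.rp x * tt D.v x ^ 2) +
        D.ch x ^ 2 * D.dens x * (D.flip.th μ x * D.rm x * tt D.v x ^ 2) := by
      have := E.th1.nonneg x
      have := E.flip.th1.nonneg x
      have := E.br.rp_pos hx.1
      have := E.br.rm_pos hx.1
      positivity
    simp only [indicator_of_mem hx]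
    rw [e2, e3, e3]
    linarith [mul_le_mul_of_nonneg_right (show 420 * Ce ^ 2 ≤ Cm by linarith) e8]
  · have n1 : x ∉ {x | x ∈ D.In ∧ D.U x ≤ μ.U3} := fun h => hx h.1
    have n2 : x ∉ D.Cut := fun h => hx h.1
    simp only [indicator_of_notMem hx, indicator_of_notMem n1, indicator_of_notMem n2]
    by_cases hO : x ∈ D.Om
    · have h1 : D.Th x + 1 < |dd D.v x| := not_le.1 fun h => hx ⟨hO, h⟩
      have n3 : x ∉ {x | |dd D.v x| < T2} := fun h => by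
        linarith [E.th.lo x, show |dd D.v x| < T2 from h]
      rw [indicator_of_notMem n3, Dat.h1, Dat.h2, indicator_of_mem hO, indicator_of_mem hO,
        Dat.ch_zero h1]
      linarith
    · rw [Dat.h1, Dat.h2, indicator_of_notMem hO, indicator_of_notMem hO]
      by_cases h : |dd D.v x| < T2
      · have b1 : ‖∇ D.W x‖ ≤ 22 * D.lw x * D.W x := by
          have := E.W_pos x
          rw [E.lw_eq] at l0 ⊢
          rw [E.hW] at this ⊢
          exact (H.norm_grad_WW (by norm_num) E.r0_pos E.hr.2.2.1 x).trans (by gcongr; norm_num)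
        have b2 : (1 + ep) * (psi D.v x ^ 2 * ‖∇ D.W x‖ ^ 2) ≤ Cm / rs ^ 2 * D.W x ^ 2 :=
          calc _ ≤ 2 * (1 * (22 * D.lw x * D.W x) ^ 2) := by
                gcongr
                · norm_num [ep]
                · exact W.psi_sq_le hv x
            _ = 968 * D.lw x ^ 2 * D.W x ^ 2 := by ring
            _ ≤ Cm * (1 / rs ^ 2) * D.W x ^ 2 := by gcongr; linarith
            _ = _ := by ring
        rw [indicator_of_mem (show x ∈ {x | |dd D.v x| < T2} from h), gsq_eq, (hz h).2 hO,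
          indicator_of_mem (show x ∈ D.TS μ.U3 T2 from Or.inr ⟨hO, h⟩)]
        linarith
      · rw [indicator_of_notMem (show x ∉ {x | |dd D.v x| < T2} from h)]
        linarith

theorem meas_U (P : ℝ → Prop) (hP : MeasurableSet {y | P y}) :
    MeasurableSet {x | x ∈ D.In ∧ P (D.U x)} := by
  classical
  have m : Measurable (D.Om.piecewise D.U fun _ => 1) :=
    (E.ok.U_cont E.bas).measurable_piecewise continuousOn_const E.bas.op.measurableSet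
  convert (E.ok.meas_In E.bas).inter (m hP) using 1
  ext x
  exact and_congr_right fun hx => by rw [mem_preimage, piecewise_eq_of_mem _ _ _ hx.1]; rfl

theorem meas_TS (U1 : ℝ) : MeasurableSet (D.TS U1 T2) :=
  (E.meas_U (fun y => U1 ≤ y) measurableSet_Ici).union (E.bas.op.measurableSet.compl.inter
    (measurableSet_lt E.bas.sol.dd_sm.continuous.abs.measurable measurable_const))

theorem am_ind {S : Set (EE n)} {f : EE n → ℝ} (hS : MeasurableSet S) (h : S ⊆ D.Om)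
    (hf : AEMeasurable f (volume.restrict D.Om)) : AEMeasurable (S.indicator f) :=
  (aemeasurable_indicator_iff hS).2 (hf.mono_measure (Measure.restrict_mono h le_rfl))

theorem meas_ch1 : Measurable D.ch := Real.smoothTransition.continuous.measurable.comp
  (measurable_const.sub (E.bas.sol.dd_sm.continuous.abs.measurable.sub E.ok.Tmeas))

theorem meas_chd1 : Measurable D.chd := (measurable_deriv _).comp
  (measurable_const.sub (E.bas.sol.dd_sm.continuous.abs.measurable.sub E.ok.Tmeas))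

theorem meas_gg1 : Measurable D.gg :=
  Measurable.ite E.bas.op.measurableSet
    ((E.meas_ch1.pow_const 2).mul ((E.ok.meas_Z E.bas).pow_const 2)) (Measurable.ite
      (measurableSet_le E.bas.sol.dd_sm.continuous.abs.measurable measurable_const)
      measurable_const measurable_const)

end Ex

theorem mainS (n : ℕ) : MainStmt n := fun K => by
  obtain ⟨Ce, -, h2⟩ := i2S n
  obtain ⟨A, -, hA⟩ := W.exists_deriv_ST
  have a1 : 0 ≤ 420 * Ce ^ 2 := by positivity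
  have a2 : 0 ≤ 60000 * A ^ 2 := by positivity
  refine ⟨4000000 + 420 * Ce ^ 2 + 60000 * A ^ 2, by linarith, fun D μ p C1 rs ηt C T2 τ E => ?_⟩
  have q := E.pt hA (le_refl (4000000 + 420 * Ce ^ 2 + 60000 * A ^ 2))
  have c0 : 0 ≤ 4000000 + 420 * Ce ^ 2 + 60000 * A ^ 2 := by linarith
  generalize 4000000 + 420 * Ce ^ 2 + 60000 * A ^ 2 = Cm at q c0 ⊢
  obtain ⟨i1, j1⟩ := i1S n D μ p K C1 rs ηt C T2 τ E
  obtain ⟨i2, j2⟩ := h2 D μ p K C1 rs ηt C T2 τ E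
  have hv := E.bas.sol
  have mI := E.ok.meas_In E.bas
  have mC := E.ok.meas_Cut E.bas
  have mO := E.bas.op.measurableSet
  have sI : D.In ⊆ D.Om := fun _ h => h.1
  have sC : D.Cut ⊆ D.Om := fun _ h => h.1.1
  have m1 := E.meas_ch1
  have m2 := E.meas_chd1
  have m3 := E.ok.meas_dens E.bas
  have m4 := E.th1.meas
  have m5 := E.flip.th1.meas
  have m6 : AEMeasurable D.rp (volume.restrict D.Om) := (E.bas.p.cont E.bas.op).aemeasurable mO
  have m7 : AEMeasurable D.rm (volume.restrict D.Om) := (E.bas.m.cont E.bas.op).aemeasurable mO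
  have m8 := hv.tt_sm.continuous.measurable
  have m9 : AEMeasurable (fun x => μ.b (D.U x)) (volume.restrict D.Om) :=
    E.des.meas.2.1.comp_aemeasurable ((E.ok.U_cont E.bas).aemeasurable mO)
  have m10 := E.ok.Wcd.continuous.measurable
  have m11 : Measurable fun x => (SignType.sign (dd D.v x) : ℝ) :=
    meas_sign.comp hv.dd_sm.continuous.measurable
  have mf : ∀ {t : EE n → ℝ} (r : EE n → ℝ), Measurable t → AEMeasurable (D.Cut.indicator
      fun x => D.dens x * (2 * D.ch x * D.chd x * t x *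
        (-(SignType.sign (dd D.v x) * ⟪nn D.v x, ∇ r x⟫)))) := fun r ht =>
    ((m3.mul ((((m1.const_mul 2).mul m2).mul ht).mul (m11.mul ((W.measurable_grad _).inner
      (W.measurable_grad r))).neg)).indicator mC).aemeasurable
  have me : ∀ {t r : EE n → ℝ}, Measurable t → AEMeasurable r (volume.restrict D.Om) →
      AEMeasurable (D.In.indicator fun x => D.ch x ^ 2 * D.dens x * (t x * r x * tt D.v x ^ 2)) :=
    fun ht hr => E.am_ind mI sI (((m1.pow_const 2).mul m3).aemeasurable.mul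
      ((ht.aemeasurable.mul hr).mul (m8.pow_const 2).aemeasurable))
  have n1 : ∀ x, 0 ≤ {x | |dd D.v x| < T2}.indicator (fun x => psi D.v x ^ 2 * gsq D.zz x) x :=
    indicator_nonneg fun x _ => mul_nonneg (sq_nonneg _) (gsq_nonneg _ _)
  have n2 : ∀ x, 0 ≤ D.In.indicator
      (fun x => D.ch x ^ 2 * D.dens x * (μ.b (D.U x) * ‖D.XX x‖ ^ 2)) x :=
    indicator_nonneg fun x hx => mul_nonneg (E.P_nonneg x)
      (mul_nonneg (E.des.bd _ (E.br.U_pos hx.1)).2.2.1 (sq_nonneg _))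
  have n3 : ∀ x, 0 ≤ {x | x ∈ D.In ∧ D.U x ≤ μ.U3}.indicator
      (fun x => D.ch x ^ 2 * D.dens x * D.lw x ^ 2) x :=
    indicator_nonneg fun x _ => mul_nonneg (E.P_nonneg x) (sq_nonneg _)
  have n4 : ∀ x, 0 ≤ D.In.indicator
      (fun x => D.ch x ^ 2 * D.dens x * (D.th μ x * ‖∇ D.rp x‖ ^ 2 / D.rp x)) x :=
    indicator_nonneg fun x hx => mul_nonneg (E.P_nonneg x)
      (div_nonneg (mul_nonneg (E.th1.nonneg x) (sq_nonneg _)) (E.br.rp_pos hx.1).le)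
  have n5 : ∀ x, 0 ≤ D.In.indicator
      (fun x => D.ch x ^ 2 * D.dens x * (D.flip.th μ x * ‖∇ D.rm x‖ ^ 2 / D.rm x)) x :=
    indicator_nonneg fun x hx => mul_nonneg (E.P_nonneg x)
      (div_nonneg (mul_nonneg (E.flip.th1.nonneg x) (sq_nonneg _)) (E.br.rm_pos hx.1).le)
  have k1 : (0 : ℝ) ≤ 1 + ep := by norm_num [ep]
  have k2 : (0 : ℝ) ≤ 6 / 5 * (et * k0 / 4) := by norm_num [et, k0]
  have k3 : 0 ≤ Cm + 2 * C := by linarith [E.C0]
  have k4 : 0 ≤ μ.be * (Cm * D.M ^ 6) := mul_nonneg E.des.be (by positivity)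
  have s1 := fun x => mul_nonneg k1 (n1 x)
  have s2 := fun x => mul_nonneg (show (0 : ℝ) ≤ 1 / 40000 by norm_num) (n2 x)
  have s3 := fun x => mul_nonneg (show (0 : ℝ) ≤ 1 / 200 by norm_num) (n3 x)
  have s4 := fun x => mul_nonneg k2 (add_nonneg (n4 x) (n5 x))
  have key := Mn.key (i1.add (i2.const_mul (11 / 10))) (by
    rw [integral_add' i1 (i2.const_mul _), integral_const_mul]; linarith) q
    fun x => add_nonneg (add_nonneg (add_nonneg (s1 x) (s2 x)) (s3 x)) (s4 x)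
  simp only [Dat.COST, Dat.GB, Dat.GH, Dat.Kept, Dat.POT, Dat.ERR, Dat.FLX, Dat.GT, Dat.TOP, Dat.RR,
    flip_In hv, flip_Cut hv, flip_ch hv, flip_chd hv, flip_dens hv, flx_flip hv, flip_rp]
  rw [flip_v]
  simp only [tt_ng hv]
  rw [ind_eq (measurableSet_lt hv.dd_sm.continuous.abs.measurable measurable_const),
    ind_eq (E.meas_U (fun y => y ≤ μ.U3) measurableSet_Iic)]
  simp only [ind_eq mI, ind_eq mC]
  rw [ind_eq (S := {x | _ ∨ _}) (E.meas_TS μ.U3), ind_eq (S := {x | _ ∨ _}) (E.meas_TS (1 / D.M ^ 2))]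
  refine le_trans ?_ (key.trans ?_)
  · refine le_trans ?_ (add_ge (fun x => add_nonneg (add_nonneg (s1 x) (s2 x)) (s3 x)) s4)
    refine add_le_add (le_trans ?_ (add_ge (fun x => add_nonneg (s1 x) (s2 x)) s3)) ?_
    · refine add_le_add (le_trans ?_ (add_ge s1 s2)) (mul_eq (by norm_num) _).ge
      exact add_le_add (mul_eq k1 _).ge (mul_eq (by norm_num) _).ge
    · rw [mul_eq k2]
      exact mul_le_mul_right (add_ge n4 n5) _
  · refine (add_le (((E.meas_gg1.mul (hv.psi_sm.continuous.measurable.pow_const 2)).mul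
      (m10.pow_const 2)).const_mul _).aemeasurable).trans
        (add_le_add ?_ (mul_eq (by positivity) _).le)
    refine (add_le (((m10.pow_const 2).indicator (E.meas_TS _)).const_mul _).aemeasurable).trans
      (add_le_add ?_ (mul_eq k4 _).le)
    refine (add_le (((m10.pow_const 2).indicator (E.meas_TS _)).const_mul _).aemeasurable).trans
      (add_le_add ?_ (mul_eq (by positivity) _).le)
    refine (add_le ((E.am_ind mC sC (m3.aemeasurable.mul (m9.mul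
      ((W.measurable_grad _).norm.pow_const 2).aemeasurable))).const_mul _)).trans
      (add_le_add ?_ (mul_eq c0 _).le)
    refine (add_le (((mf _ m4).add (mf _ m5)).const_mul _)).trans (add_le_add ?_ ?_)
    · refine (add_le (((me m4 m6).add (me m5 m7)).const_mul _)).trans (add_le_add le_rfl ?_)
      rw [mul_eq k3]
      exact mul_le_mul_right (add_le (me m5 m7)) _
    · rw [mul_eq (by norm_num)]
      exact mul_le_mul_right (add_le (mf _ m5)) _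

end

end Crest.Agent.N067.M
end

-- ▼ part N067/Z/PSplit
section

/-!
# Row 67, TOP (helper1): the splitting of the potential, `M.psplit : PSplitStmt n`
-/

set_option autoImplicit false
set_option linter.dupNamespace false

open MeasureTheory Laplacian InnerProductSpace Topology Filter Set Metric
open scoped RealInnerProductSpace Gradient ContDiff ENNReal

namespace Crest.Agent.N067.M

open Crest.Agent.R077 Crest.Agent.N067.V Crest.Agent.N067.Y Crest.Agent.N067.P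

noncomputable section

variable {n : ℕ} {v th : EE n → ℝ} {x : EE n} {D : Dat n} {μ : Mu} {p : Wp n}
  {K lam C1 rs ηt C T2 τ : ℝ}

namespace PSp

theorem hsq_ng (hv : Sol v) (x : EE n) : hsq (dd (ng v)) x = hsq (dd v) x := by
  have : ∀ j, pdv j (fun y => -dd v y) = fun y => -pdv j (dd v) y := fun j =>
    funext fun y => pdv_neg _ _ _
  simp only [hsq, hs, dd_ng hv, this, pdv_neg, neg_sq]

theorem ft_ng (hv : Sol v) (x : EE n) : ft (ng v) x = ft v x := by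
  simp only [ft, nn_ng hv, dd_ng hv, smul_neg, neg_smul, neg_neg]

theorem ok_flip (O : D.Ok K lam C1 rs) : D.flip.Ok K lam C1 rs := by
  have hv : Sol D.v := O.pos.toPos.toSol
  have e : D.flip.In = D.In := by
    ext x
    change x ∈ D.flip.Om ∧ |dd (ng D.v) x| ≤ D.Th x + 1 ↔ x ∈ D.Om ∧ _
    rw [W.flip_Om hv, dd_ng hv, abs_neg]
  exact { O with
    pos := ps_ng O.pos
    Tlo := fun x hx => by
      change _ * Real.log (min (1 / ph0 (ng D.v) x) D.f0) ≤ D.Th x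
      rw [ph0_ng]; exact O.Tlo x (e ▸ hx)
    Tlip := fun x hx y => by
      change ‖ft (ng D.v) x - ft (ng D.v) y‖ ≤ 1 →
        |D.Th x - D.Th y| ≤ ‖ft (ng D.v) x - ft (ng D.v) y‖ / ph0 (ng D.v) x
      rw [ph0_ng, ft_ng hv, ft_ng hv]; exact O.Tlip x (e ▸ hx) y }

theorem br (E : Ex D μ p K C1 rs ηt C T2 τ) :
    W.Br D (HH D.h) (HH1 D.hd) μ.H2 μ.kap ep ηt C et where
  bas := E.bas
  k0 := E.ok.k0
  k1 := by rw [E.hk]; norm_num [k0]
  sp := E.sp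
  sm := E.sm
  hH _ _ := rfl
  hH1 _ _ := rfl
  mhd := E.des.mhd
  des := E.des.des
  e0 := by norm_num [ep]
  η1 := by norm_num [et]
  e1 := by rw [E.hk]; norm_num [k0, ep, et]
  mkap := E.des.mkap
  bkap := ⟨2, E.des.bkap⟩
  kato a b ha hb := by rw [E.hk]; exact E.des.kato a ha b hb

theorem tk_mem (D : Dat n) (ηt : ℝ) (x : EE n) :
    0 ≤ D.tk ηt x ∧ D.tk ηt x ≤ (1 + ep) * hsq (dd D.v) x := by
  have : 0 ≤ (1 + ep) * hsq (dd D.v) x := mul_nonneg (by norm_num [ep]) (hsq_nonneg _ _)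
  unfold Dat.tk
  split_ifs
  exacts [⟨le_rfl, this⟩, ⟨this, le_rfl⟩]

/-- an active thick side sees the thick set -/
theorem thick (O : D.Ok K la C1 rs) (B : D.Bas) (T : D.Th' th) (hk : D.κ0 = k0)
    (hx : x ∈ D.Om) (h : th x * D.rp x * D.tk ηt x ≠ 0) :
    ηt / (2 * (3 + 72 * |K| / k0)) * ph0 D.v x ≤ Bn D.v x := by
  have h1 := O.act_ph B (by norm_num [la]) hx (T.act x hx fun e => h (by simp [e]))
  have h2 : ηt < D.rp x * Bn D.v x := by
    by_contra h2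
    exact h (by rw [Dat.tk, if_pos (not_lt.1 h2), mul_zero])
  have K1 := O.K1
  have k : 0 < k0 := by norm_num [k0]
  rw [hk, ← abs_of_nonneg (by linarith : 0 ≤ K)] at h1
  rw [div_mul_eq_mul_div, div_le_iff₀ (by positivity)]
  have b0 : 0 ≤ Bn D.v x := Real.sqrt_nonneg _
  nlinarith [mul_le_mul_of_nonneg_left h1 b0, mul_le_mul_of_nonneg_right h2.le (B.ph x).le]

theorem num {η m y F : ℝ} (hη : 0 < η) (hm : 1 ≤ m) (hy : 0 ≤ y)
    (h : (η / m) ^ 2 * √((η / m) ^ 2 / (1 + (η / m) ^ 2)) * y ≤ F) :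
    y ≤ m ^ 3 * ((1 + η) / η ^ 3 * F) := by
  have m0 : 0 < m := by linarith
  have c0 : 0 < η / m := by positivity
  have c1 : η / m ≤ η := div_le_self hη.le hm
  have h1 : η / m / (1 + η) ≤ √((η / m) ^ 2 / (1 + (η / m) ^ 2)) := by
    refine Real.le_sqrt_of_sq_le ?_
    rw [div_pow (η / m)]
    exact div_le_div_of_nonneg_left (by positivity) (by positivity) (by nlinarith)
  have h2 := (mul_le_mul_of_nonneg_right (mul_le_mul_of_nonneg_left h1 (sq_nonneg (η / m))) hy).trans h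
  calc y = m ^ 3 * ((1 + η) / η ^ 3 * ((η / m) ^ 2 * (η / m / (1 + η)) * y)) := by field_simp
    _ ≤ _ := by gcongr

/-- one side below the scale `80 / f0` -/
theorem low (O : D.Ok K la C1 rs) (B : D.Bas) (T : D.Th' th)
    (des : Des D.h D.hd D.ζ μ K D.f0 D.M) (hη : 0 < ηt) (hx : x ∈ D.Om)
    (hU : D.U x ≤ 80 / D.f0) :
    D.ζ (D.U x) ^ 2 * (th x * D.rp x * D.tk ηt x) ≤
      2 * |K| * (1 + ep) * ((1 + ηt) / ηt ^ 3) * (D.Z0 ^ 2 * D.f0 ^ 3 * D.F (hsq (dd D.v) x)) := by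
  have y0 := hsq_nonneg (dd D.v) x
  have F0 := F_nonneg D y0
  have f0 : 0 < D.f0 := by linarith [O.f1]
  have e0 : 0 < 1 + ep := by norm_num [ep]
  by_cases h2 : D.rp x * Bn D.v x ≤ ηt
  · rw [Dat.tk, if_pos h2, mul_zero, mul_zero]; positivity
  rw [Dat.tk, if_neg h2]
  have r0 : 0 < D.rp x := by linarith [B.rp8 hx]
  have U0 := O.U_pos B hx
  have h0 := O.hp_pos B hx
  have hh := O.hp_le_U B hx
  have K1 := O.K1
  have Z0 := O.Z0_pos
  have z0 := (O.zbd _ U0).1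
  have zle : D.ζ (D.U x) ≤ D.Z0 := O.zmono U0.le (U0.le.trans hU) hU
  have h3 := O.z1 _ (D.h (D.rp x) / D.U x) U0 hU (by positivity) ((div_le_one U0).2 hh)
  rw [div_mul_cancel₀ _ U0.ne'] at h3
  have h4 := des.pot2 _ r0 (hh.trans hU)
  set m := max 1 (D.rp x / D.f0) with hm
  have m1 : 1 ≤ m := le_max_left _ _
  have m0 : 0 < m := by linarith
  have h5 : (ηt / m) ^ 2 ≤ D.f0 ^ 2 * hsq (dd D.v) x := by
    rw [← Bn_sq, ← mul_pow]
    refine pow_le_pow_left₀ (by positivity) ?_ 2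
    rw [div_le_iff₀ m0]
    have b0 : 0 ≤ Bn D.v x := Real.sqrt_nonneg _
    have : D.rp x ≤ m * D.f0 := (div_le_iff₀ f0).1 (le_max_right _ _)
    nlinarith [mul_le_mul_of_nonneg_right this b0]
  have h6 := num hη m1 y0 (le_F D f0.le (by positivity) y0 h5)
  have t0 := T.nonneg x
  have h7 : th x * D.U x ≤ 2 * |D.hd (D.rp x)| :=
    (T.le x hx).trans (mul_le_mul_of_nonneg_right (by linarith [O.k1]) (abs_nonneg _))
  have h8 : D.ζ (D.U x) * (th x * D.rp x) * m ^ 3 ≤ 2 * K * D.Z0 := by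
    refine le_of_mul_le_mul_right ?_ h0
    calc _ = th x * D.U x * D.rp x * (D.h (D.rp x) / D.U x * D.ζ (D.U x)) * m ^ 3 := by
          field_simp
      _ ≤ 2 * |D.hd (D.rp x)| * D.rp x * D.ζ (D.h (D.rp x)) * m ^ 3 := by gcongr
      _ ≤ _ := by rw [Dat.Z0]; linarith
  rw [abs_of_nonneg (by linarith : 0 ≤ K)]
  calc _ = D.ζ (D.U x) * (D.ζ (D.U x) * (th x * D.rp x)) * (1 + ep) * hsq (dd D.v) x := by ring
    _ ≤ D.Z0 * (D.ζ (D.U x) * (th x * D.rp x)) * (1 + ep) *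
        (m ^ 3 * ((1 + ηt) / ηt ^ 3 * (D.f0 ^ 3 * D.F (hsq (dd D.v) x)))) := by gcongr
    _ = D.Z0 * (D.ζ (D.U x) * (th x * D.rp x) * m ^ 3) * (1 + ep) *
        ((1 + ηt) / ηt ^ 3 * (D.f0 ^ 3 * D.F (hsq (dd D.v) x))) := by ring
    _ ≤ D.Z0 * (2 * K * D.Z0) * (1 + ep) *
        ((1 + ηt) / ηt ^ 3 * (D.f0 ^ 3 * D.F (hsq (dd D.v) x))) := by gcongr
    _ = _ := by ring

/-- the potential -/
def Pq (D : Dat n) (μ : Mu) (ηt : ℝ) (x : EE n) : ℝ :=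
  μ.b (D.U x) * (W.thD D x * D.rp x * D.tk ηt x + W.thD D.flip x * D.rm x * D.flip.tk ηt x)

theorem point (E : Ex D μ p K C1 rs ηt C T2 τ) (hx : x ∈ D.Om) :
    (Pq D μ ηt x ≠ 0 → ηt / (2 * (3 + 72 * |K| / k0)) * ph0 D.v x ≤ Bn D.v x) ∧
    (80 / D.f0 ≤ D.U x → Pq D μ ηt x ≤ (1 - ep) * hsq (dd D.v) x) ∧
    (D.U x ≤ 80 / D.f0 → D.Z x ^ 2 * Pq D μ ηt x ≤
      5 * |K| * ((1 + ηt) / ηt ^ 3) * (D.Z0 ^ 2 * D.f0 ^ 3 * D.F (hsq (dd D.v) x))) := by
  have R := br E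
  have O := E.ok
  have B := E.bas
  have hv := B.sol
  have hx' : x ∈ D.flip.Om := W.flip_Om hv ▸ hx
  have y0 := hsq_nonneg (dd D.v) x
  have U0 := O.U_pos B hx
  have f0 : 0 < D.f0 := by linarith [O.f1]
  obtain ⟨-, -, b0, b1, -⟩ := E.des.bd _ U0
  have a0 : 0 ≤ W.thD D x * D.rp x := mul_nonneg (R.th'.nonneg x) (R.rp_pos hx).le
  have a0' : 0 ≤ W.thD D.flip x * D.rm x := mul_nonneg (R.flip.th'.nonneg x) (R.rm_pos hx).le
  have t := tk_mem D ηt x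
  have t' := tk_mem D.flip ηt x
  refine ⟨fun h => ?_, fun hU => ?_, fun hU => ?_⟩
  · by_cases h1 : W.thD D x * D.rp x * D.tk ηt x = 0
    · have := thick (ok_flip O) R.flip.bas R.flip.th' E.hk hx' fun e => h (by
        rw [Pq, h1, show W.thD D.flip x * D.rm x * D.flip.tk ηt x = 0 from e, add_zero, mul_zero])
      change _ * ph0 (ng D.v) x ≤ √(hsq (dd (ng D.v)) x) at this
      rwa [ph0_ng, hsq_ng hv] at this
    · exact thick O B R.th' E.hk hx h1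
  · have h1 := R.am_sum_le (c := 5 / (8 * D.f0)) (by positivity) E.des.one hx
    have h2 : 2 * (5 / (8 * D.f0)) / D.U x ≤ 1 / 64 := by
      rw [div_le_iff₀ U0]
      refine le_trans (le_of_eq ?_) (mul_le_mul_of_nonneg_left hU (by norm_num))
      field_simp; norm_num
    have h3 := E.des.bmain _ hU
    have h4 : D.flip.tk ηt x ≤ (1 + ep) * hsq (dd D.v) x := hsq_ng hv x ▸ t'.2
    have e0 : 0 ≤ (1 + ep) * hsq (dd D.v) x := t.1.trans t.2
    calc _ ≤ 24 / 25 * (W.thD D x * D.rp x * ((1 + ep) * hsq (dd D.v) x) +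
          W.thD D.flip x * D.rm x * ((1 + ep) * hsq (dd D.v) x)) := by
          have := t.1; have := t'.1
          unfold Pq; gcongr; exact t.2
      _ = 24 / 25 * ((W.thD D x * D.rp x + W.thD D.flip x * D.rm x) *
          ((1 + ep) * hsq (dd D.v) x)) := by ring
      _ ≤ 24 / 25 * ((1 + 1 / 64) * ((1 + ep) * hsq (dd D.v) x)) :=
          mul_le_mul_of_nonneg_left (mul_le_mul_of_nonneg_right (by linarith) e0) (by norm_num)
      _ ≤ _ := by unfold ep; linarith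
  · have h1 := low O B R.th' E.des E.η0 hx hU
    have h2 := low (ok_flip O) R.flip.bas R.flip.th' E.des E.η0 hx' (W.flip_U D ▸ hU)
    rw [W.flip_U] at h2
    change D.ζ (D.U x) ^ 2 * (W.thD D.flip x * D.rm x * D.flip.tk ηt x) ≤
      _ * (D.Z0 ^ 2 * D.f0 ^ 3 * D.F (hsq (dd (ng D.v)) x)) at h2
    rw [hsq_ng hv] at h2
    have η0 := E.η0
    have F0 := F_nonneg D y0
    have g0 : 0 ≤ |K| * ((1 + ηt) / ηt ^ 3) * (D.Z0 ^ 2 * D.f0 ^ 3 * D.F (hsq (dd D.v) x)) := by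
      positivity
    rw [O.Z_eq B hx]
    calc _ = μ.b (D.U x) * (D.ζ (D.U x) ^ 2 * (W.thD D x * D.rp x * D.tk ηt x) +
          D.ζ (D.U x) ^ 2 * (W.thD D.flip x * D.rm x * D.flip.tk ηt x)) := by unfold Pq; ring
      _ ≤ 6 / 5 * (2 * (2 * |K| * (1 + ep) * ((1 + ηt) / ηt ^ 3) *
          (D.Z0 ^ 2 * D.f0 ^ 3 * D.F (hsq (dd D.v) x)))) := by
          have := mul_nonneg a0 t.1; have := mul_nonneg a0' t'.1
          exact mul_le_mul b1 (by linarith) (by positivity) (by norm_num)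
      _ ≤ _ := by unfold ep; nlinarith

end PSp

open PSp in
theorem psplit (n : ℕ) : PSplitStmt n := by
  intro K ηt hη
  have k : 0 < k0 := by norm_num [k0]
  refine ⟨ηt / (2 * (3 + 72 * |K| / k0)), 5 * |K| * ((1 + ηt) / ηt ^ 3), by positivity,
    by positivity, fun D μ p C1 rs C T2 τ T0 T1 E hT => ?_⟩
  have O := E.ok
  have B := E.bas
  have m1 := B.sol.psi_sm.continuous.measurable
  have m2 := O.meas_Z B
  have m3 := O.Wcd.continuous.measurable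
  have m4 := B.sol.hsq_sm.continuous.measurable
  have f0 : 0 < D.f0 := by linarith [O.f1]
  have e0 : 0 ≤ 1 - ep := by norm_num [ep]
  have e1 : 1 - ep ≤ 1 := by norm_num [ep]
  have ch : ∀ x c, 0 ≤ c → D.ch x ^ 2 * c ≤ c := fun x c hc => mul_le_of_le_one_left hc
    (pow_le_one₀ (Real.smoothTransition.nonneg _) (Real.smoothTransition.le_one _))
  have d0 : ∀ x, 0 ≤ D.dens x := fun x => by unfold Dat.dens; positivity
  set η' := ηt / (2 * (3 + 72 * |K| / k0))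
  set Cp := 5 * |K| * ((1 + ηt) / ηt ^ 3)
  have Cp0 : 0 ≤ Cp := by positivity
  have key : ∀ x c, 0 ≤ c → D.dens x * Pq D μ ηt x ≤ c →
      ENNReal.ofReal (D.ch x ^ 2 * D.dens x * Pq D μ ηt x) ≤ ENNReal.ofReal c := fun x c c0 h =>
    ENNReal.ofReal_le_ofReal (by
      rw [mul_assoc]
      exact (mul_le_mul_of_nonneg_left h (sq_nonneg _)).trans (ch x c c0))
  have sub : D.In ⊆ ((({x | x ∈ D.In ∧ 80 / D.f0 ≤ D.U x ∧ |dd D.v x| ≤ T0} ∪
      {x | x ∈ D.In ∧ T1 ≤ |dd D.v x| ∧ 80 / D.f0 ≤ D.U x ∧ η' * ph0 D.v x ≤ Bn D.v x}) ∪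
      {x | x ∈ D.In ∧ η' * ph0 D.v x ≤ Bn D.v x ∧ D.U x ≤ 80 / D.f0}) ∪
      {x | Pq D μ ηt x = 0}) := fun x hx => by
    by_cases h0 : Pq D μ ηt x = 0
    · exact Or.inr h0
    have h1 := (point E hx.1).1 h0
    rcases le_total (80 / D.f0) (D.U x) with h2 | h2
    · rcases le_total |dd D.v x| T0 with h3 | h3
      · exact Or.inl (Or.inl (Or.inl ⟨hx, h2, h3⟩))
      · exact Or.inl (Or.inl (Or.inr ⟨hx, hT.trans h3, h2, h1⟩))
    · exact Or.inl (Or.inr ⟨hx, h1, h2⟩)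
  change ∫⁻ x in D.In, ENNReal.ofReal (D.ch x ^ 2 * D.dens x * Pq D μ ηt x) ≤ _
  refine (lintegral_mono_set sub).trans ((lintegral_union_le _ _ _).trans ?_)
  rw [← add_zero (_ + _ + ENNReal.ofReal Cp * _)]
  refine add_le_add ((lintegral_union_le _ _ _).trans (add_le_add
    ((lintegral_union_le _ _ _).trans (add_le_add ?_ ?_)) ?_)) ?_
  · rw [← lintegral_const_mul' _ _ ENNReal.ofReal_ne_top]
    refine le_trans (setLIntegral_mono ?_ ?_) (lintegral_mono_set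
      fun x hx => ⟨hx.2.2, E.ts x hx.1.1⟩)
    · unfold Dat.zz; fun_prop
    · rintro x ⟨hx, h1, -⟩
      rw [← ENNReal.ofReal_mul e0]
      have := hsq_nonneg (dd D.v) x
      refine key x _ (by positivity) ((mul_le_mul_of_nonneg_left ((point E hx.1).2.1 h1)
        (d0 x)).trans_eq ?_)
      unfold Dat.dens Dat.zz; ring
  · refine setLIntegral_mono ((O.meas_dens B).mul m4).ennreal_ofReal ?_
    rintro x ⟨hx, -, h1, -⟩
    have := hsq_nonneg (dd D.v) x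
    exact key x _ (mul_nonneg (d0 x) this) (mul_le_mul_of_nonneg_left
      (((point E hx.1).2.1 h1).trans (mul_le_of_le_one_left this e1)) (d0 x))
  · rw [← lintegral_const_mul' _ _ ENNReal.ofReal_ne_top,
      ← lintegral_const_mul' _ _ ENNReal.ofReal_ne_top]
    refine le_trans (setLIntegral_mono ?_ ?_) (lintegral_mono_set fun x hx => ⟨hx.1, hx.2.1⟩)
    · unfold Dat.F; fun_prop
    · rintro x ⟨hx, -, h1⟩
      rw [← ENNReal.ofReal_mul (by positivity), ← ENNReal.ofReal_mul Cp0]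
      have := F_nonneg D (hsq_nonneg (dd D.v) x)
      refine key x _ (by positivity) ?_
      calc _ = psi D.v x ^ 2 * D.W x ^ 2 * (D.Z x ^ 2 * Pq D μ ηt x) := by unfold Dat.dens; ring
        _ ≤ psi D.v x ^ 2 * D.W x ^ 2 *
            (Cp * (D.Z0 ^ 2 * D.f0 ^ 3 * D.F (hsq (dd D.v) x))) :=
          mul_le_mul_of_nonneg_left ((point E hx.1).2.2 h1) (by positivity)
        _ = _ := by ring
  · refine (setLIntegral_mono (g := fun _ => 0) measurable_const fun x hx => ?_).trans_eq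
      lintegral_zero
    rw [show Pq D μ ηt x = 0 from hx, mul_zero, ENNReal.ofReal_zero]

end

end Crest.Agent.N067.M
end

-- ▼ part N067/Z/Fin
section

/-!
# Row 67, TOP (helper72): the leaf FINITE

Every integrand is bounded by a constant multiple of the integrable function `W²`.
-/

set_option autoImplicit false
set_option linter.dupNamespace false
set_option linter.unusedSectionVars false

open MeasureTheory Laplacian InnerProductSpace Topology Filter Set Metric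
open scoped RealInnerProductSpace Gradient ContDiff ENNReal

namespace Crest.Agent.N067.M

open Crest.Agent.R077 Crest.Agent.N067.V Crest.Agent.N067.Y

noncomputable section

variable {n : ℕ} {D : Dat n} {μ : Mu} {p : Wp n} {K C1 rs ηt C T2 τ : ℝ} {x : EE n}

namespace Ex

variable (E : Ex D μ p K C1 rs ηt C T2 τ)
include E

theorem int_W_sq : Integrable fun x => D.W x ^ 2 := by
  rw [E.hW]
  exact H.integrable_WW_sq E.n9 (by norm_num) (E.hr.1.trans E.hr.2.1)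
    (by linarith [E.hr.1, E.hr.2.1, E.hr.2.2.1])

theorem fin_of {S : Set (EE n)} {f : EE n → ℝ} (A : ℝ)
    (h : ∀ᵐ x ∂volume.restrict S, f x ≤ A * D.W x ^ 2) :
    ∫⁻ x in S, ENNReal.ofReal (f x) ≠ ⊤ :=
  ne_top_of_le_ne_top (E.int_W_sq.const_mul A).lintegral_lt_top.ne
    ((lintegral_mono_ae (h.mono fun _ hx => ENNReal.ofReal_le_ofReal hx)).trans
      (setLIntegral_le_lintegral _ _))

theorem lw_le_one (x : EE n) : D.lw x ≤ 1 :=
  (E.ok.lwpos x).2.trans ((div_le_one (by linarith [E.hr.1])).2 E.hr.1)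

theorem Z_sq_le (x : EE n) : D.Z x ^ 2 ≤ 1 :=
  pow_le_one₀ (E.ok.Z_mem E.bas x).1.le (E.ok.Z_mem E.bas x).2

theorem cd_le (x : EE n) : D.ch x ^ 2 * D.dens x ≤ D.W x ^ 2 := by
  have h1 : D.ch x ^ 2 ≤ 1 :=
    pow_le_one₀ (Real.smoothTransition.nonneg _) (Real.smoothTransition.le_one _)
  rw [Dat.dens, ← mul_assoc]
  exact mul_le_of_le_one_left (sq_nonneg _) (mul_le_one₀ h1 (by positivity)
    (mul_le_one₀ (W.psi_sq_le E.bas.sol x) (sq_nonneg _) (E.Z_sq_le x)))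

theorem cd_mul_le {a A : ℝ} (x : EE n) (h : a ≤ A) (hA : 0 ≤ A) :
    D.ch x ^ 2 * D.dens x * a ≤ A * D.W x ^ 2 := by
  have h0 : 0 ≤ D.ch x ^ 2 * D.dens x := by rw [Dat.dens]; positivity
  exact (mul_le_mul_of_nonneg_left h h0).trans
    ((mul_le_mul_of_nonneg_right (E.cd_le x) hA).trans_eq (mul_comm _ _))

theorem norm_grad_W (x : EE n) : ‖∇ D.W x‖ ≤ K * D.W x :=
  (E.ok.Wlip x).trans (mul_le_mul_of_nonneg_right
    (mul_le_of_le_one_right (by linarith [E.ok.K1]) (E.lw_le_one x)) (E.W_pos x).le)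

theorem kept_fin : D.Kept (D.th μ) ≠ ⊤ := by
  refine E.fin_of (3 * (D.M * D.ρm ^ 2) ^ 2)
    (ae_restrict_of_forall_mem (E.ok.meas_In E.bas) fun x hx => E.cd_mul_le x ?_ (by positivity))
  have r8 := E.bas.rp8 hx.1
  have h1 := E.ok.th_three E.bas (by norm_num [la]) E.th1 hx.1
  have h2 : ‖∇ D.rp x‖ ≤ D.M * D.ρm ^ 2 := (E.bas.p.grad x hx.1).trans
    (mul_le_mul_of_nonneg_left (pow_le_pow_left₀ (by linarith [E.bas.p.eight hx.1])
      (E.bas.p.le x hx.1) 2) (by linarith [E.hM]))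
  have h3 := E.th1.nonneg x
  refine (div_le_self (by positivity) (by linarith)).trans ?_
  gcongr

end Ex

theorem finS (n : ℕ) : FinStmt n := fun D μ p K C1 rs ηt C T2 τ E => by
  have B := E.bas
  have K1 := E.ok.K1
  obtain ⟨A, hA⟩ := E.out.bd
  refine ⟨E.fin_of ((2 * |A| + K) ^ 2) ?_, E.fin_of (6 / 5 * |A| ^ 2) ?_,
    E.fin_of 1 (ae_of_all _ fun x => E.cd_mul_le x
      (pow_le_one₀ (E.ok.lwpos x).1.le (E.lw_le_one x)) zero_le_one),
    E.fin_of (2 + D.Z0 ^ 2 * D.f0 ^ 3) (ae_of_all _ fun x => ?_), E.kept_fin, E.flip.kept_fin, ?_⟩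
  · refine (ae_restrict_iff' (isOpen_lt B.sol.dd_sm.continuous.abs
      continuous_const).measurableSet).2 ?_
    filter_upwards [zgS n D μ p K C1 rs ηt C T2 τ E, hA] with x h1 h2 hx
    have W0 := E.W_pos x
    have hW := E.norm_grad_W x
    have h3 : ‖∇ D.zz x‖ ≤ (2 * |A| + K) * D.W x := by
      by_cases ho : x ∈ D.Om
      · obtain ⟨s0, s1, -⟩ := E.des.bd _ (E.out.pos x ho)
        have z := E.ok.Z_mem B x
        have a1 : ‖D.XX x‖ ≤ |A| := (h2 ho).1.trans (le_abs_self A)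
        have a2 : ‖D.VV x‖ ≤ K := by
          rw [Dat.VV, norm_smul, norm_inv, Real.norm_of_nonneg W0.le, inv_mul_le_iff₀ W0]
          linarith
        have a3 : ‖μ.s (D.U x) • D.XX x + D.VV x‖ ≤ 2 * |A| + K := by
          refine (norm_add_le _ _).trans (add_le_add ?_ a2)
          rw [norm_smul, Real.norm_of_nonneg s0]
          exact mul_le_mul (by linarith) a1 (norm_nonneg _) zero_le_two
        rw [(h1 hx).1 ho, norm_smul, Dat.zz, Real.norm_of_nonneg (mul_pos z.1 W0).le, mul_comm]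
        exact mul_le_mul a3 (mul_le_of_le_one_left W0.le z.2) (mul_pos z.1 W0).le (by positivity)
      · rw [(h1 hx).2 ho]
        exact hW.trans (mul_le_mul_of_nonneg_right (by linarith [abs_nonneg A]) W0.le)
    rw [gsq_eq, ← mul_pow (2 * |A| + K)]
    exact (mul_le_of_le_one_left (sq_nonneg _) (W.psi_sq_le B.sol x)).trans
      (pow_le_pow_left₀ (norm_nonneg _) h3 2)
  · refine (ae_restrict_iff' (E.ok.meas_In B)).2 ?_
    filter_upwards [hA] with x h2 hx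
    obtain ⟨-, -, b0, b1, -⟩ := E.des.bd _ (E.out.pos x hx.1)
    refine E.cd_mul_le x (mul_le_mul b1 ?_ (sq_nonneg _) (by norm_num)) (by positivity)
    exact pow_le_pow_left₀ (norm_nonneg _) ((h2 hx.1).1.trans (le_abs_self A)) 2
  · refine mul_le_mul_of_nonneg_right ?_ (sq_nonneg _)
    have t0 := B.sol.tt_nonneg x
    have t1 := tt_le_one D.v x
    have f0 : 0 < D.f0 := one_pos.trans_le E.ok.f1
    have a1 := mul_le_one₀ t1 (sq_nonneg _) (E.Z_sq_le x)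
    have a2 := mul_le_one₀ (E.Z_sq_le x) (sq_nonneg _)
      (pow_le_one₀ (n := 2) (E.ok.lwpos x).1.le (E.lw_le_one x))
    have a3 : D.F (tt D.v x) ≤ 1 := by
      refine (div_le_self (Real.rpow_nonneg t0 _) (Real.one_le_sqrt.2 ?_)).trans
        (Real.rpow_le_one t0 t1 (by norm_num))
      exact le_add_of_nonneg_right (by positivity)
    have a4 := mul_le_of_le_one_right (by positivity : 0 ≤ D.Z0 ^ 2 * D.f0 ^ 3) a3
    rw [Dat.Gain]
    linarith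
  · rw [Dat.RR, ← setLIntegral_univ]
    refine E.fin_of 1 (ae_of_all _ fun x => mul_le_mul_of_nonneg_right
      (mul_le_one₀ ?_ (sq_nonneg _) (W.psi_sq_le B.sol x)) (sq_nonneg _))
    rw [Dat.gg]
    split_ifs
    · exact mul_le_one₀ (pow_le_one₀ (Real.smoothTransition.nonneg _)
        (Real.smoothTransition.le_one _)) (sq_nonneg _) (E.Z_sq_le x)
    · exact le_rfl
    · exact zero_le_one

end

end Crest.Agent.N067.M
end

-- ▼ part N067/Z/Top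
section

/-!
# Row 67, TOP (helper90): the order of the constants, `MIStmt` from the leaves
-/

set_option autoImplicit false
set_option linter.dupNamespace false

open MeasureTheory Laplacian InnerProductSpace Topology Filter Set Metric
open scoped RealInnerProductSpace Gradient ENNReal

namespace Crest.Agent.N067.M

open Crest.Agent.R077 Crest.Agent.N067.V Crest.Agent.N067.Y

noncomputable section

variable {n : ℕ}

local notation "oR" => ENNReal.ofReal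

/-- the data attached to a design, a weight and a cap, before the cut -/
def mkD (v : EE n → ℝ) (β : Bo) (f0 M C2 : ℝ) (h hd ζ : ℝ → ℝ) (p : Wp n) (ρ : ℝ) : Dat n where
  v := v
  β := β
  f0 := f0
  ρm := ρ
  M := M
  C2 := C2
  κ0 := k0
  h := h
  hd := hd
  ζ := ζ
  W := H.WW (11 / 10) p.I p.x0 p.r0 p.R
  lw := fun x => (rh p.I p.x0 p.r0 x)⁻¹
  Th := fun _ => 0

theorem mkD_ok {v : EE n → ℝ} (hv : PS v) (β : Bo) {f0 M K C1 rs ρ : ℝ} (C2 : ℝ) {h hd ζ : ℝ → ℝ}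
    {μ : Mu} (d : Des h hd ζ μ K f0 M) (hK : 30 ≤ K) (f1 : 1 ≤ f0) (c0 : 0 ≤ C1) {p : Wp n}
    (r1 : 1 ≤ rs) (r2 : rs ≤ p.r0) (r3 : p.r0 ≤ p.R) (hρ : f0 ^ 2 ≤ ρ) :
    ((mkD v β f0 M C2 h hd ζ p ρ).triv C1).Ok K la C1 rs := by
  have r0 : 0 < p.r0 := by linarith
  obtain ⟨t1, t2, t3, t4⟩ := triv_fields (mkD v β f0 M C2 h hd ζ p ρ) hv.toSol c0 f1
  refine ⟨hv, f1, hρ, by norm_num [mkD, Dat.triv, k0], by norm_num [mkD, Dat.triv, k0], d.hpos,
    d.hlow, d.hhigh, d.zmono, d.zcont, d.zbd, d.ztop, d.z2, d.z1, d.zdec,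
    contDiff_infty.1 (H.cd_WW r0) 1, H.WW_pos r0, fun x => ?_, fun x y => ?_, fun x => ?_,
    fun x y => ?_, t1, t2, t3, t4⟩
  · refine (H.norm_grad_WW (by norm_num) r0 r3 x).trans ?_
    have h1 := H.rh_pos (I := p.I) (c := p.x0) r0 x
    have h2 := H.WW_pos (γ := 11 / 10) (I := p.I) (c := p.x0) (R := p.R) r0 x
    change _ ≤ K * (rh p.I p.x0 p.r0 x)⁻¹ * H.WW (11 / 10) p.I p.x0 p.r0 p.R x
    gcongr; linarith
  · refine (H.WW_cmp (by norm_num) (by norm_num) (by linarith) (by linarith) x y).trans ?_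
    have h2 := H.WW_pos (γ := 11 / 10) (I := p.I) (c := p.x0) (R := p.R) r0 y
    have h3 : 1 ≤ 1 + ‖x - y‖ := le_add_of_nonneg_right (norm_nonneg _)
    have h4 : (1 + ‖x - y‖) ^ 12 ≤ (1 + ‖x - y‖) ^ K := by
      rw [← Real.rpow_natCast]
      exact Real.rpow_le_rpow_of_exponent_le h3 (by push_cast; linarith)
    change _ ≤ K * (1 + ‖x - y‖) ^ K * H.WW (11 / 10) p.I p.x0 p.r0 p.R y
    refine mul_le_mul_of_nonneg_right (h4.trans (le_mul_of_one_le_left (by positivity) ?_)) h2.le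
    linarith
  · have h1 := H.rh_pos (I := p.I) (c := p.x0) r0 x
    refine ⟨inv_pos.2 h1, ?_⟩
    rw [one_div]
    exact inv_anti₀ (by linarith) (r2.trans (le_rh _ _ x))
  · change 1 / (rh p.I p.x0 p.r0 x)⁻¹ ≤ 1 / (rh p.I p.x0 p.r0 y)⁻¹ + _
    rw [one_div, one_div, inv_inv, inv_inv]
    exact H.rh_lip r0 x y

theorem cap_gg (D : Dat n) (W lw : EE n → ℝ) (C1 ρ : ℝ) :
    (({ D with W := W, lw := lw } : Dat n).cap C1 ρ).gg = (D.cap C1 ρ).gg := rfl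

theorem mkD_gg (v : EE n → ℝ) (β : Bo) (f0 M C2 : ℝ) (h hd ζ : ℝ → ℝ) (p q : Wp n) (C1 ρ : ℝ) :
    ((mkD v β f0 M C2 h hd ζ p 0).cap C1 ρ).gg = ((mkD v β f0 M C2 h hd ζ q 0).cap C1 ρ).gg :=
  cap_gg (mkD v β f0 M C2 h hd ζ q 0) _ _ C1 ρ

/-- the points where the cap is not felt -/
def Dat.unc (D : Dat n) : Set (EE n) := {x | x ∈ D.Om → 2 * min (D.rp x) (D.rm x) < D.ρm}

theorem cap_unc (D : Dat n) (W lw : EE n → ℝ) (C1 ρ : ℝ) :
    (({ D with W := W, lw := lw } : Dat n).cap C1 ρ).unc = (D.cap C1 ρ).unc := rfl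

theorem mkD_unc (v : EE n → ℝ) (β : Bo) (f0 M C2 : ℝ) (h hd ζ : ℝ → ℝ) (p q : Wp n) (C1 ρ : ℝ) :
    ((mkD v β f0 M C2 h hd ζ p 0).cap C1 ρ).unc = ((mkD v β f0 M C2 h hd ζ q 0).cap C1 ρ).unc :=
  cap_unc (mkD v β f0 M C2 h hd ζ q 0) _ _ C1 ρ

theorem Dat.Bas.meas_unc {D : Dat n} (B : D.Bas) : MeasurableSet D.unc := by
  have c : ContinuousOn (fun x => 2 * min (D.rp x) (D.rm x)) D.Om :=
    continuousOn_const.mul ((B.p.cont B.op).inf (B.m.cont B.op))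
  have e : D.unc = D.Omᶜ ∪
      (D.Om ∩ (fun x => 2 * min (D.rp x) (D.rm x)) ⁻¹' Iio D.ρm) := by
    ext x; by_cases hx : x ∈ D.Om <;> simp [hx, Dat.unc]
  rw [e]
  exact B.op.measurableSet.compl.union (c.isOpen_inter_preimage B.op isOpen_Iio).measurableSet

theorem cF_le : 6 / 5 * ((1 + 10 * ep) * la / (2 * √2)) ≤ 1 - 2 * ep := by
  have h : 7 / 5 ≤ √2 := Real.le_sqrt_of_sq_le (by norm_num)
  have h1 : (1 + 10 * ep) * la / (2 * √2) ≤ (1 + 10 * ep) * la / (2 * (7 / 5)) := by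
    gcongr; norm_num [ep, la]
  have h2 : 6 / 5 * ((1 + 10 * ep) * la / (2 * (7 / 5))) ≤ 1 - 2 * ep := by norm_num [ep, la]
  linarith

theorem exists_small (a b c : ℝ) (ha : 0 ≤ a) (hc : 0 < c) (hb : 0 ≤ b) :
    ∃ e : ℝ, 0 < e ∧ a * e ≤ c ∧ b * e ≤ c := by
  refine ⟨c / (a + b + 1), by positivity, ?_, ?_⟩ <;>
    rw [mul_div_assoc', div_le_iff₀ (by positivity)] <;> nlinarith

/-- the inequality for one set of data -/
theorem step {D : Dat n} {μ : Mu} {p : Wp n} {K C1 rs ηt C T2 τ : ℝ}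
    (E : Ex D μ p K C1 rs ηt C T2 τ) {e0 e e' Cm Cp A Am A3 AM T0 τ0 Φ : ℝ} {P1 P2 JJ : ℝ≥0∞}
    (fi : D.COST T2 ≠ ⊤ ∧ D.GB μ ≠ ⊤ ∧ D.GH μ ≠ ⊤ ∧ D.GG ≠ ⊤ ∧
      D.Kept (D.th μ) ≠ ⊤ ∧ D.flip.Kept (D.flip.th μ) ≠ ⊤ ∧ D.RR ≠ ⊤)
    (main : oR (1 + ep) * D.COST T2 + oR (1 / 40000) * D.GB μ + oR (1 / 200) * D.GH μ +
        oR (6 / 5 * (et * k0 / 4)) * (D.Kept (D.th μ) + D.flip.Kept (D.flip.th μ)) ≤
      D.POT μ ηt + oR (Cm + 2 * C) * (D.ERR (D.th μ) + D.flip.ERR (D.flip.th μ)) +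
        oR (6 / 5) * (D.FLX (D.th μ) + D.flip.FLX (D.flip.th μ)) +
        oR Cm * D.GT μ + oR (Cm / rs ^ 2) * D.TOP μ.U3 T2 +
        oR (μ.be * (Cm * D.M ^ 6)) * D.TOP (1 / D.M ^ 2) T2 + oR (Cm / p.R ^ 2) * D.RR)
    (stab : oR (1 - ep) * (∫⁻ x in {x | |dd D.v x| ≤ T0 ∧ tt D.v x ≤ τ0}, oR
        (psi D.v x ^ 2 * hsq (dd D.v) x * D.zz x ^ 2)) +
      oR e0 * (∫⁻ x in {x | |dd D.v x| ≤ 1}, oR (tt D.v x * D.zz x ^ 2)) +
      oR (1 - 2 * ep) * PG D.v D.zz (Opp D.v ep T0 0) ≤ oR (1 + ep) * D.COST T2) (hτ : τ ≤ τ0)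
    (ps : D.POT μ ηt ≤ oR (1 - ep) * (∫⁻ x in {x | |dd D.v x| ≤ T0 ∧ tt D.v x ≤ τ}, oR
        (psi D.v x ^ 2 * hsq (dd D.v) x * D.zz x ^ 2)) + P1 +
      oR Cp * (oR (D.Z0 ^ 2 * D.f0 ^ 3) * P2)) (p1 : P1 ≤ oR e * D.GG)
    (p2 : P2 ≤ oR A * ∫⁻ x in {x | |dd D.v x| ≤ 1}, oR (D.F (tt D.v x) * D.W x ^ 2))
    (ea : ∀ th, D.Th' th → D.ERR th ≤ oR e * (D.Kept th + D.GG))
    (eb : ∀ th, D.flip.Th' th → D.flip.ERR th ≤ oR e * (D.flip.Kept th + D.flip.GG))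
    (fa : ∀ th, D.Th' th → D.FLX th ≤ oR e * (D.Kept th + D.GG) +
      oR ((1 + 10 * ep) * la / (2 * √2)) * PG D.v (fun x => D.Z x * D.W x)
        fun x y => Opp D.v ep T0 0 x y ∧ 0 < ⟪y - x, nn D.v x⟫)
    (fb : ∀ th, D.flip.Th' th → D.flip.FLX th ≤ oR e * (D.flip.Kept th + D.flip.GG) +
      oR ((1 + 10 * ep) * la / (2 * √2)) * PG D.flip.v (fun x => D.flip.Z x * D.flip.W x)
        fun x y => Opp D.flip.v ep T0 0 x y ∧ 0 < ⟪y - x, nn D.flip.v x⟫)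
    (gt : D.GT μ ≤ oR e * D.GB μ) (h3 : D.TOP μ.U3 T2 ≤ oR A3 * D.G1)
    (hM : D.TOP (1 / D.M ^ 2) T2 ≤ oR AM * D.G1)
    (mid : D.G2 ≤ oR e' * D.G1 + oR (Am * D.Z0 ^ 2) * SRC D.v D.f0 p) (Φ0 : 0 < Φ)
    (hJ : JJ ≤ oR Φ * D.GG)
    (c : 0 < e0 ∧ 0 ≤ e ∧ 1 ≤ Cm ∧ 0 ≤ Cp ∧ 0 ≤ Am ∧ 0 ≤ e' ∧ 0 ≤ A3 ∧ 0 ≤ AM)
    (n2 : (Cm + 2 * C + 6 / 5) * e ≤ 6 / 5 * (et * k0 / 4)) (n3 : Cm * e ≤ 1 / 40000)
    (n4 : Cm * (1 / rs ^ 2) * A3 ≤ e0 / 8) (n5 : μ.be * (Cm * D.M ^ 6) * AM ≤ e0 / 8)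
    (n6 : 1 / rs ^ 2 * A3 ≤ 1)
    (n7 : (1 + 2 * (Cm + 2 * C + 6 / 5)) * e ≤ min (e0 / 8) (1 / 25600))
    (n8 : (Cp * max A 0 + 1) * e' ≤ min (e0 / 4) 1) :
    (∫⁻ x, oR (D.gg x * psi D.v x ^ 2 * D.W x ^ 2 * D.lw x ^ 2)) + oR Φ⁻¹ * JJ ≤
      oR ((16 / e0 + 26001) * ((Cp * max A 0 + 1) * Am + Cm)) *
        (oR (1 / p.R ^ 2) * D.RR + oR (D.Z0 ^ 2) * SRC D.v D.f0 p) := by
  obtain ⟨c1, c2, c3, c4, c5, c6, c7, c8⟩ := c
  have hs := E.bas.sol
  have C0 := E.C0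
  have c0 : 0 ≤ Cm := zero_le_one.trans c3
  have ep0 : 0 < ep := by norm_num [ep]
  have la0 : 0 < la := by norm_num [la]
  rw [div_eq_mul_one_div Cm, div_eq_mul_one_div Cm] at main
  have eG : (∫⁻ x in {x | |dd D.v x| ≤ 1}, oR (tt D.v x * D.zz x ^ 2)) = D.G1 :=
    lintegral_congr fun x => by rw [Dat.zz, mul_pow, ← mul_assoc]
  rw [eG] at stab
  have d1 := fb _ E.th'.2
  have d2 := eb _ E.th'.2
  rw [flip_GG hs] at d1 d2
  have sub : {x | |dd D.v x| ≤ T0 ∧ tt D.v x ≤ τ} ⊆ {x | |dd D.v x| ≤ T0 ∧ tt D.v x ≤ τ0} :=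
    fun x hx => ⟨hx.1, hx.2.trans hτ⟩
  have q2 : oR (D.Z0 ^ 2 * D.f0 ^ 3) * P2 ≤ oR (max A 0) * D.G2 := by
    rw [Dat.G2, mul_left_comm]
    exact mul_le_mul_right (p2.trans (mul_le_mul_left
      (ENNReal.ofReal_le_ofReal (le_max_left _ _)) _)) _
  have fin := absorb fi E.G1_le E.G2_le main stab (ps.trans (add_le_add_left
      (add_le_add_left (mul_le_mul_right (lintegral_mono_set sub) _) _) _)) p1 q2
    (ea _ E.th'.1) d2 (fa _ E.th'.1) d1 (D.PG_split hs ep T0) gt h3 hM mid E.GG_le E.out_le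
    ⟨c1, c2, c3, by positivity, c4, le_max_right _ _, c5, by positivity,
      mul_nonneg E.des.be (by positivity), by positivity, pow_pos E.ok.Z0_pos 2,
      by positivity, c6⟩
    ⟨ep0.le, by norm_num [ep], c7, c8, by norm_num [et, k0]⟩ cF_le n2 n3 n4 n5 n6 n7 n8
  refine le_trans (add_le_add le_rfl ?_) fin
  calc _ ≤ oR Φ⁻¹ * (oR Φ * D.GG) := mul_le_mul_right hJ _
    _ = _ := by rw [← mul_assoc, ← ENNReal.ofReal_mul (by positivity), inv_mul_cancel₀ Φ0.ne',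
      ENNReal.ofReal_one, one_mul]

/-- the master inequality in one dimension `n` -/
theorem mi_n (hn7 : 7 ≤ n) (n9 : n ≤ 9) (fl : FLStmt n) (x0 : X0Stmt n) (x1 : X1Stmt n)
    (st : StabStmt n) (fx : FluxStmt n) (er : ErrStmt n) (po : PotStmt n) (ds : DesStmt)
    (th : ThStmt n) (te : TestStmt n) (mn : MainStmt n) (fi : FinStmt n) (ps : PSplitStmt n)
    (lo : LowGStmt n) (gt : GTStmt n) (co : CoreStmt n) (mid : MidStmt n) (js : JStmt n)
    (cv : ConvStmt n) (lm : LimGStmt n) {v : EE n → ℝ} (hv : PS v) :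
    ∃ C0 κ1 c C rs fs : ℝ, 0 < C0 ∧ 0 < κ1 ∧ 0 < c ∧ 0 < C ∧ 1 ≤ rs ∧ 1 ≤ fs ∧ ∀ f0, fs ≤ f0 →
      ∃ G J : EE n → ℝ, MIData v (11 / 10) (51 / 50) 3 θ0 2 C0 κ1 c C rs f0 G J := by
  have ep0 : 0 < ep := by norm_num [ep]
  have ep1 : ep ≤ 1 / 100 := by norm_num [ep]
  have la0 : 0 < la := by norm_num [la]
  have la3 : la ≤ 3 := by norm_num [la]
  have kq0 : 0 < 6 / 5 * (et * k0 / 4) := by norm_num [et, k0]
  obtain ⟨K, K30, ds⟩ := ds
  obtain ⟨e0, e00, st⟩ := st ep ep0 ep1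
  obtain ⟨TF, eF, eF0, fx⟩ := fx ep ep0 ep1
  obtain ⟨e1, e10, mid⟩ := mid K
  obtain ⟨β, ηt, C, hβ, η0, -, C1', xat, -⟩ := x1 ep ep0 _ (lt_min eF0 e10)
  have C0 : 0 ≤ C := zero_le_one.trans C1'
  obtain ⟨Cm, Cm1, mn⟩ := mn K
  have Cm0 : 0 ≤ Cm := zero_le_one.trans Cm1
  obtain ⟨K', K1', te⟩ := te K
  obtain ⟨η', Cp, η0', Cp0, ps⟩ := ps K ηt η0
  obtain ⟨p1, A, p2⟩ := po β η' K la k0 η0' la0 la3
  obtain ⟨e, e_0, n23, n7⟩ := exists_small (Cm + 2 * C + 6 / 5) (1 + 2 * (Cm + 2 * C + 6 / 5))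
    (min (min (6 / 5 * (et * k0 / 4)) (1 / 40000)) (min (e0 / 8) (1 / 25600)))
    (by positivity) (by positivity) (by positivity)
  obtain ⟨e', e0', n8, -⟩ := exists_small (Cp * max A 0 + 1) 0 (min (e0 / 4) 1)
    (by positivity) (by positivity) le_rfl
  obtain ⟨T1, p1⟩ := p1 e e_0
  obtain ⟨T0, T2, τ0, hT1, hT4, hT2, τ00, st⟩ := st K' (max TF T1) K1'
  obtain ⟨Am, Am0, mid⟩ := mid β (hβ.trans (min_le_right _ _)) e' e0'
  obtain ⟨Cs1, hB⟩ := ((((((fx β ηt C K la k0 T0 e (hβ.trans (min_le_left _ _)) η0 xat la0 la3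
    ((le_max_left _ _).trans hT1) e_0).and (er β ep ηt C K la k0 e η0 xat la0 la3 e_0)).and
    p1).and p2).and mid).and (big_bas fl x0 K la k0 β)).and (W.big_sup xat K la k0)
  obtain ⟨Cs2, th⟩ := th K T2 (hT4.trans hT2)
  obtain ⟨Cs3, gt⟩ := gt K e e_0
  obtain ⟨C1, c1, c2, c3, c4⟩ : ∃ C1 : ℝ, Cs1 ≤ C1 ∧ Cs2 ≤ C1 ∧ Cs3 ≤ C1 ∧ 1 ≤ C1 :=
    ⟨max (max Cs1 Cs2) (max Cs3 1), by simp, by simp, by simp, by simp⟩
  obtain ⟨M1, hB⟩ := hB C1 c1 (3 * C1)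
  obtain ⟨M2, th⟩ := th C1 c2 _ le_rfl
  obtain ⟨M3, gt⟩ := gt C1 c3 _ le_rfl
  obtain ⟨M4, js⟩ := js K T2 β C1 _ c4 le_rfl
  obtain ⟨Cf, Cf1, cmp⟩ := fl.cmp
  have τ0' : 0 < min τ0 (1 / 10000) := by positivity
  obtain ⟨M, m1, m2, m3, m4, m5, m6⟩ : ∃ M : ℝ, M1 ≤ M ∧ M2 ≤ M ∧ M3 ≤ M ∧ M4 ≤ M ∧ 5000 ≤ M ∧
      Cf / min τ0 (1 / 10000) ≤ M :=
    ⟨max (max (max M1 M2) (max M3 M4)) (max 5000 (Cf / min τ0 (1 / 10000))),
      by simp, by simp, by simp, by simp, by simp, by simp⟩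
  have M0 : 0 < M := by linarith only [m5]
  have c0 : 0 ≤ C1 := zero_le_one.trans c4
  have Cf0 : 0 ≤ Cf := zero_le_one.trans Cf1
  obtain ⟨f1, rs1, r11, hB⟩ := hB M m1
  obtain ⟨f2, th⟩ := th M m2
  obtain ⟨f3, gt⟩ := gt M m3
  obtain ⟨f4, js⟩ := js M m4
  obtain ⟨AM, f5, AM0, cM⟩ := co K (3 * C1) M (1 / M ^ 2) T2 (by positivity)
  obtain ⟨be, be0, n5, -⟩ := exists_small (Cm * M ^ 6 * AM) 0 (e0 / 8) (by positivity)
    (by positivity) le_rfl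
  obtain ⟨U3, f6, U30, ds⟩ := ds M be m5 be0
  obtain ⟨A3, f7, A30, c3⟩ := co K (3 * C1) M U3 T2 U30
  obtain ⟨r2, r20, n4, n6⟩ := exists_small (Cm * A3) (A3 * (e0 / 8)) (e0 / 8) (by positivity)
    (by positivity) (by positivity)
  obtain ⟨rs, s1, s2⟩ : ∃ rs : ℝ, rs1 ≤ rs ∧ 1 / r2 ≤ rs := ⟨max rs1 (1 / r2), by simp, by simp⟩
  have s0 : 1 ≤ rs := r11.trans s1
  have r10 : 0 < rs1 := one_pos.trans_le r11
  have s3 : 1 / rs ^ 2 ≤ r2 := by
    rw [one_div_le (by positivity) r20]; nlinarith only [s0, s2]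
  have n3 : Cm * e ≤ 1 / 40000 :=
    le_trans (mul_le_mul_of_nonneg_right (by linarith only [C0]) e_0.le)
      (n23.trans ((min_le_left _ _).trans (min_le_right _ _)))
  have n4' : Cm * (1 / rs ^ 2) * A3 ≤ e0 / 8 := by
    linarith only [n4, mul_le_mul_of_nonneg_left s3 (mul_nonneg Cm0 A30)]
  have n6' : 1 / rs ^ 2 * A3 ≤ 1 := by
    have : A3 * r2 ≤ 1 :=
      le_of_mul_le_mul_right (by linarith only [n6]) (by positivity : 0 < e0 / 8)
    linarith only [this, mul_le_mul_of_nonneg_left s3 A30]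
  obtain ⟨fs, g1, g2, g3, g4, g5, g6, g7, g8⟩ : ∃ fs : ℝ, f1 ≤ fs ∧ f2 ≤ fs ∧ f3 ≤ fs ∧ f4 ≤ fs ∧
      f5 ≤ fs ∧ f6 ≤ fs ∧ f7 ≤ fs ∧ 1 ≤ fs :=
    ⟨max (max (max f1 f2) (max f3 f4)) (max (max f5 f6) (max f7 1)),
      by simp, by simp, by simp, by simp, by simp, by simp, by simp, by simp⟩
  have Co0 : 0 ≤ (16 / e0 + 26001) * ((Cp * max A 0 + 1) * Am + Cm) := by positivity
  refine ⟨300, U3, 1 / 10 ^ 7, 2 ^ 20 * ((16 / e0 + 26001) * ((Cp * max A 0 + 1) * Am + Cm)) + 1,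
    rs, fs, by norm_num, U30, by norm_num, by positivity, s0, g8, fun f0 hf => ?_⟩
  obtain ⟨h, hd, ζ, μ, eU, eb, des⟩ := ds f0 (g6.trans hf)
  obtain ⟨Φ, Φ0, js⟩ := js f0 (g4.trans hf) h ζ
  have f1' : 1 ≤ f0 := g8.trans hf
  have key : ∀ (p : Wp n) (m : ℕ), 7 ≤ p.I.card → rs ≤ p.r0 → p.r0 ≤ p.R → f0 ≤ p.R →
      Ex ((mkD v β f0 M (3 * C1) h hd ζ p 0).cap C1 (f0 ^ 2 + m)) μ p K C1 rs ηt C T2
        (min τ0 (1 / 10000)) := fun p m a1 a2 a3 a4 => by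
    have o := mkD_ok (ρ := f0 ^ 2 + m) hv β (3 * C1) des K30 f1' c0 s0 a2 a3
      (le_add_of_nonneg_right (Nat.cast_nonneg m))
    have B := (hB ((mkD v β f0 M (3 * C1) h hd ζ p (f0 ^ 2 + m)).triv C1) rfl rfl rfl rfl
      (g1.trans hf) (o.mono_rs r10 s1)).1.2
    have B' : (mkD v β f0 M (3 * C1) h hd ζ p (f0 ^ 2 + m)).Bas := ⟨B.pos, B.ph, B.M1, B.p, B.m⟩
    obtain ⟨o', t⟩ := th (mkD v β f0 M (3 * C1) h hd ζ p (f0 ^ 2 + m)) rs rfl rfl (g2.trans hf) o B'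
    have S := (hB ((mkD v β f0 M (3 * C1) h hd ζ p (f0 ^ 2 + m)).cut (φ0 n) C1) rfl rfl rfl rfl
      (g1.trans hf) (o'.mono_rs r10 s1)).2
    refine ⟨n9, o', B'.cut _ _, rfl, m5, des, t, S.1, S.2, C0, η0, fun x hx => ?_,
      min_le_right _ _, a1, ⟨s0, a2, a3, a4⟩, rfl, rfl⟩
    refine (cmp v hv x x).2.1.trans ((mul_le_mul_of_nonneg_left hx.1.le Cf0).trans ?_)
    change Cf * (1 / M) ≤ _
    rw [mul_one_div, div_le_iff₀' M0, ← div_le_iff₀ τ0']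
    exact m6
  have E0 := fun m => key ⟨Finset.univ, 0, max rs f0, max rs f0⟩ m
    (hn7.trans_eq (Finset.card_fin n).symm) (le_max_left _ _) le_rfl (le_max_right _ _)
  refine lm n9 v 300 U3 (1 / 10 ^ 7) _ rs f0 (ζ (80 / f0)) Φ _ _
    hv.toSol Co0 s0 f1' (E0 0).ok.Z0_pos Φ0 (fun m => (E0 m).meas_gg)
    (fun m => (E0 m).bas.meas_unc) (fun m => (E0 m).gg_mem')
    (cv _ K C1 rs (f0 ^ 2) c0 fun m => ⟨(E0 m).ok, (E0 m).bas⟩)
    (fun m κ a1 a2 => lo _ μ _ K C1 rs ηt C T2 _ (E0 m) κ a1 (eU ▸ a2)) fun p m a1 a2 a3 a4 => ?_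
  have E := key p m a1 a2 a3 a4
  have b := hB _ (by rfl) (by rfl) (by rfl) (by rfl) (g1.trans hf) (E.ok.mono_rs r10 s1)
  have d := hB _ (by rfl) (by rfl) (by rfl) (by rfl) (g1.trans hf) (E.ok.flip.mono_rs r10 s1)
  have mJ := js _ μ p rs ηt C _ (by rfl) (by rfl) (by rfl) (by rfl) (by rfl) (by rfl) E
  have h3 := c3 _ μ p C1 rs ηt C _ (by rfl) (by rfl) (g7.trans hf) E
  have hM := cM _ μ p C1 rs ηt C _ (by rfl) (by rfl) (g5.trans hf) E
  have hG := gt _ μ p rs ηt C T2 _ (by rfl) (by rfl) (g3.trans hf) E rfl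
  rw [← eU] at h3
  rw [mkD_gg _ _ _ _ _ _ _ _ _ p, mkD_unc _ _ _ _ _ _ _ _ _ p]
  exact step E (fi _ μ p K C1 rs ηt C T2 _ E) (mn _ μ p C1 rs ηt C T2 _ E)
    (st v _ hv (te _ μ p C1 rs ηt C T2 _ E)) (min_le_left _ _)
    (ps _ μ p C1 rs C T2 _ T0 T1 E ((le_max_right _ _).trans hT1)) b.1.1.1.1.2 b.1.1.1.2
    b.1.1.1.1.1.2 d.1.1.1.1.1.2 b.1.1.1.1.1.1 d.1.1.1.1.1.1 hG h3 hM
    (b.1.1.2 μ p C1 rs ηt C T2 _ E) Φ0 mJ ⟨e00, e_0.le, Cm1, Cp0, Am0, e0'.le, A30, AM0⟩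
    (n23.trans ((min_le_left _ _).trans (min_le_left _ _))) n3 n4'
    (by rw [eb]; change be * (Cm * M ^ 6) * AM ≤ _; linarith only [n5]) n6'
    (n7.trans (min_le_right _ _)) n8

theorem expo : Expo (11 / 10) (51 / 50) 3 θ0 2 := by
  constructor <;> norm_num [θ0]

/-- `MIStmt` from the leaves in dimensions seven and eight -/
theorem mi_of (ds : DesStmt) (h : ∀ n, n = 7 ∨ n = 8 → FLStmt n ∧ X0Stmt n ∧ X1Stmt n ∧
    StabStmt n ∧ FluxStmt n ∧ ErrStmt n ∧ PotStmt n ∧ ThStmt n ∧ TestStmt n ∧ MainStmt n ∧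
    FinStmt n ∧ PSplitStmt n ∧ LowGStmt n ∧ GTStmt n ∧ CoreStmt n ∧ MidStmt n ∧ JStmt n ∧
    ConvStmt n ∧ LimGStmt n) : MIStmt := by
  refine ⟨11 / 10, 51 / 50, 3, θ0, 2, expo, fun n v hn hv hs hp => ?_⟩
  obtain ⟨a1, a2, a3, a4, a5, a6, a7, a8, a9, a10, a11, a12, a13, a14, a15, a16, a17, a18, a19⟩ :=
    h n hn
  exact mi_n (by omega) (by omega) a1 a2 a3 a4 a5 a6 a7 ds a8 a9 a10 a11 a12 a13 a14 a15 a16 a17
    a18 a19 ⟨⟨hv, fun x => (hv.tt_nonneg x).lt_of_ne' fun h0 => hp (oneD n v hv x h0)⟩, hs⟩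

end

end Crest.Agent.N067.M
end

-- ▼ part N067/X3/New
section

/-!
# Row 67, block X2 (helper53): the support function at a cap or rim contact (implicit function)
-/

set_option autoImplicit false

open MeasureTheory Laplacian InnerProductSpace Topology Filter Set Metric
open scoped RealInnerProductSpace ContDiff Gradient

namespace Crest.Agent.N067.X2

open Crest.Agent.R077 Crest.Agent.N067.V Crest.Agent.N067.M

noncomputable section

variable {n : ℕ} {β : Bo} {v : EE n → ℝ} {x z τ w om : EE n} {r al ga sg δ : ℝ}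

/-- the implicit function of a defect which decreases in the size -/
theorem exists_imp {F : EE n × ℝ → ℝ} {c : ℝ} (hF : ContDiffAt ℝ 2 F (x, r)) (h0 : F (x, r) = 0)
    (hc : 0 < c) (hd : fderiv ℝ F (x, r) (0, 1) = -c) : ∃ R : EE n → ℝ, ContDiffAt ℝ 2 R x ∧
      R x = r ∧ (∀ᶠ y in 𝓝 x, F (y, R y) = 0) ∧ ∀ᶠ q in 𝓝 (x, r), 0 ≤ F q → q.2 ≤ R q.1 := by
  have e : ∀ s : ℝ, fderiv ℝ F (x, r) (0, s) = s * -c := fun s => by
    rw [← hd, ← smul_eq_mul, ← map_smul, Prod.smul_mk, smul_zero, smul_eq_mul, mul_one]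
  have i : (fderiv ℝ F (x, r) ∘L .inr ℝ (EE n) ℝ).IsInvertible :=
    ⟨ContinuousLinearEquiv.unitsEquivAut ℝ (Units.mk0 (-c) (neg_ne_zero.2 hc.ne')), by
      ext; simp [hd]⟩
  have h1 := hF.contDiffAt_implicitFunction two_ne_zero i
  have h2 := hF.implicitFunction_apply_self two_ne_zero i
  have h3 := hF.eventually_apply_implicitFunction two_ne_zero i
  generalize hF.implicitFunction two_ne_zero i = R at h1 h2 h3
  rw [h0] at h3
  refine ⟨R, h1, h2, h3, ?_⟩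
  have t1 : Tendsto (fun q : EE n × ℝ => q.1) (𝓝 (x, r)) (𝓝 x) := continuousAt_fst
  have t2 : Tendsto (fun q : EE n × ℝ => (q, (q.1, R q.1))) (𝓝 (x, r)) (𝓝 ((x, r), (x, r))) := by
    have := h1.continuousAt.tendsto.comp t1
    rw [h2] at this
    exact tendsto_id.prodMk_nhds (t1.prodMk_nhds this)
  filter_upwards [t2.eventually ((hF.hasStrictFDerivAt two_ne_zero).isLittleO.def (half_pos hc)),
    t1.eventually h3] with q h4 h5 h6
  by_contra h7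
  have e2 : q - (q.1, R q.1) = (0, q.2 - R q.1) := Prod.ext (sub_self _) rfl
  simp only [h5, e2, e, Prod.norm_mk, norm_zero, Real.norm_eq_abs] at h4
  rw [abs_of_pos (sub_pos.2 (not_le.1 h7)), max_eq_right (sub_pos.2 (not_le.1 h7)).le] at h4
  nlinarith [le_abs_self (F q - 0 - (q.2 - R q.1) * -c), not_le.1 h7]

/-- **the support at a sphere contact** -/
theorem SD.newton (D : SD v r x z τ om al ga sg) (hL : 0 < La v x τ om al ga sg)
    (hd : |dd v x| < r) (ρm : ℝ) (mem : ∀ R : EE n ≃ₗᵢ[ℝ] EE n,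
      ∀ᶠ q in 𝓝 (x, r), Fit β v q.1 q.2 → 0 ≤ Ps v R x z τ al ga q) :
    ∃ R : EE n → ℝ, ContDiffAt ℝ 2 R x ∧ R x = r ∧ (∀ᶠ y in 𝓝 x, rt β v ρm y ≤ R y) ∧
      La v x τ om al ga sg • ∇ R x = Ga v r x τ om al sg ∧
      ∀ κ > 0, La v x τ om al ga sg * Lm v R x ≤ RH v r x z τ om (∇ R x) al ga sg κ := by
  obtain ⟨R, hR⟩ := exists_R (Wd.norm_nu D.hN) D.ho D.hc
  have cP : ContDiffAt ℝ 2 (Ps v R x z τ al ga) (x, r) := Ps_c2 D.hv D.hN D.hL.ne' (by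
    rw [D.Wx]
    exact smul_ne_zero D.hy.ne' (norm_ne_zero_iff.1 (by rw [D.ho]; exact one_ne_zero)))
  have ch : ∀ u : EE n, fderiv ℝ (Ps v R x z τ al ga) (x, r) (om, ⟪u, om⟫) =
      ⟪Ga v r x τ om al sg - La v x τ om al ga sg • u, om⟫ := fun u => by
    obtain ⟨_, j, -⟩ := D.jet hR (Jt.aff (v := v) (x := x) r u)
    have h1 : HasFDerivAt (Ps v R x z τ al ga) (fderiv ℝ (Ps v R x z τ al ga) (x, r))
        (x, aff r u x x) := by
      rw [aff_self]; exact (cP.differentiableAt two_ne_zero).hasFDerivAt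
    have h2 := h1.comp x ((hasFDerivAt_id x).prodMk (hasFDerivAt_aff r u x x))
    rw [← j.grad, inner_grad, show fderiv ℝ (fun p => Ps v R x z τ al ga (p, aff r u x p)) x = _
      from h2.fderiv]
    rfl
  have oo : ⟪om, om⟫ = 1 := by rw [real_inner_self_eq_norm_sq, D.ho, one_pow]
  have dP : fderiv ℝ (Ps v R x z τ al ga) (x, r) (0, 1) = -La v x τ om al ga sg := by
    have h1 := ch om
    have h2 := ch 0
    rw [inner_zero_left, smul_zero, sub_zero] at h2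
    rw [oo, inner_sub_left, real_inner_smul_left, oo, ← h2] at h1
    rw [show ((0, 1) : EE n × ℝ) = (om, 1) - (om, 0) by simp, map_sub, h1]
    ring
  have P0 : Ps v R x z τ al ga (x, r) = 0 := by
    obtain ⟨_, j, -⟩ := D.jet hR (Jt.const (v := v) (x := x) r)
    exact j.val
  obtain ⟨f, c2, e1, e2, e3⟩ := exists_imp cP P0 hL dP
  obtain ⟨l', j, hl⟩ := D.jet hR ((Jt.of v c2).cast e1 rfl rfl)
  have j0 := (Jt.const (v := v) (x := x) 0).congr e2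
  have hg := (sub_eq_zero.1 (j.grad.symm.trans j0.grad)).symm
  refine ⟨f, c2, e1, Bl.rt_le_of D.hv ρm c2.continuousAt e1 hd ?_, hg, fun κ hκ => ?_⟩
  · filter_upwards [mem R, e3] with q h1 h2 h3 using h2 (h1 h3)
  · have := hl hg κ hκ
    rwa [j.lm.symm.trans j0.lm, zero_add] at this

theorem ev_nu (hv : Sol v) (hN : 0 < NN v x) : ∀ᶠ q : EE n × ℝ in 𝓝 (x, r), ‖nu v q.1‖ = 1 := by
  have t1 : Tendsto (fun q : EE n × ℝ => q.1) (𝓝 (x, r)) (𝓝 x) := continuousAt_fst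
  filter_upwards [t1.eventually ((Bl.cont_NN hv).continuousAt.eventually (lt_mem_nhds hN))]
    with q hq using Wd.norm_nu hq

/-- the moved centre of a rim contact stays in the core -/
theorem mem_rim (hv : Sol v) (hN : 0 < NN v x) (hw : w ∈ Core β (nu v x)) (R : EE n ≃ₗᵢ[ℝ] EE n) :
    ∀ᶠ q in 𝓝 (x, r), Fit β v q.1 q.2 →
      0 ≤ Ps v R x z (Pj (nu v x) w) (1 + ⟪w, nu v x⟫) (-β.η) q := by
  filter_upwards [ev_nu (r := r) hv hN] with q hq hf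
  have hν := Wd.norm_nu hN
  have key : ∀ c : ℝ, ‖⟪w, nu v x⟫ • nu v q.1 + Pj (nu v q.1) (Pj (nu v x) w) + c • nu v q.1‖ ≤
      ‖w + c • nu v x‖ := fun c => by
    refine (sq_le_sq₀ (norm_nonneg _) (norm_nonneg _)).1 ?_
    rw [add_right_comm, ← add_smul, norm_add_sq_real, real_inner_smul_left, real_inner_comm _ (nu v q.1),
      inner_Pj hq, normSq_Pj hq, normSq_Pj hν, norm_add_sq_real, real_inner_smul_right, norm_smul,
      norm_smul, hq, hν, mul_one, mul_one, Real.norm_eq_abs, Real.norm_eq_abs, sq_abs, sq_abs]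
    nlinarith [sq_nonneg ⟪Pj (nu v x) w, nu v q.1⟫]
  have h := hf (⟪w, nu v x⟫ • nu v q.1 + Pj (nu v q.1) (Pj (nu v x) w))
    ⟨by simpa using (key 0).trans (by simpa using hw.1), (key 3).trans hw.2⟩ (z - R x + R q.1)
  have e : z - R x + R q.1 - cen v q.1 q.2 (⟪w, nu v x⟫ • nu v q.1 +
      Pj (nu v q.1) (Pj (nu v x) w)) = Wv v R x z (Pj (nu v x) w) (1 + ⟪w, nu v x⟫) q := by
    rw [cen, Wv]; module
  rw [PP, e] at h
  rw [Ps, neg_mul, sub_neg_eq_add]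
  exact sub_nonneg.2 h

/-- the moved centre of a cap contact stays in the core -/
theorem mem_cap (D : SD v r x z 0 om (-2) (3 - β.h) sg) (hc : IsCap β (nu v x) w om)
    (hp : β.η * r < sg * (r - dd v x)) (R : EE n ≃ₗᵢ[ℝ] EE n) :
    ∀ᶠ q in 𝓝 (x, r), Fit β v q.1 q.2 → 0 ≤ Ps v R x z 0 (-2) (3 - β.h) q := by
  have cW : ContinuousAt (Wv v R x z 0 (-2)) (x, r) := (Wv_c2 D.hv D.hN).continuousAt
  have nW : ‖Wv v R x z 0 (-2) (x, r)‖ = sg * (r - dd v x) + (3 - β.h) * r := by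
    rw [D.Wx, norm_smul, D.ho, mul_one, Real.norm_of_nonneg D.hy.le]
  have cν : ContinuousAt (fun q : EE n × ℝ => nu v q.1) (x, r) :=
    ContinuousAt.comp (g := nu v) (Bl.cont_nu D.hv D.hN) continuousAt_fst
  have h1 : ∀ᶠ q in 𝓝 (x, r), 0 < ‖Wv v R x z 0 (-2) q‖ :=
    continuousAt_const.eventually_lt cW.norm (nW ▸ D.hy)
  have h2 : ∀ᶠ q : EE n × ℝ in 𝓝 (x, r), (3 + β.η - β.h) * q.2 < ‖Wv v R x z 0 (-2) q‖ :=
    ContinuousAt.eventually_lt (f := fun q : EE n × ℝ => (3 + β.η - β.h) * q.2)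
      (continuousAt_const.mul continuousAt_snd) cW.norm (by rw [nW]; linarith)
  have h3 : ∀ᶠ q : EE n × ℝ in 𝓝 (x, r), ‖(3 + β.η - β.h) • ‖Wv v R x z 0 (-2) q‖⁻¹ •
      Wv v R x z 0 (-2) q - (3 : ℝ) • nu v q.1‖ < β.η := by
    have c1 : ContinuousAt (fun q => ‖Wv v R x z 0 (-2) q‖⁻¹) (x, r) :=
      cW.norm.inv₀ (by rw [nW]; exact D.hy.ne')
    have c2 : ContinuousAt (fun q => ‖Wv v R x z 0 (-2) q‖⁻¹ • Wv v R x z 0 (-2) q) (x, r) :=
      c1.smul cW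
    have c3 : ContinuousAt (fun q : EE n × ℝ => (3 + β.η - β.h) • ‖Wv v R x z 0 (-2) q‖⁻¹ •
        Wv v R x z 0 (-2) q - (3 : ℝ) • nu v q.1) (x, r) :=
      (c2.const_smul (3 + β.η - β.h)).sub (cν.const_smul (3 : ℝ))
    refine ContinuousAt.eventually_lt c3.norm continuousAt_const ?_
    rw [nW, D.Wx, inv_smul_smul₀ D.hy.ne', ← hc.1]
    exact hc.2
  filter_upwards [h1, h2, h3] with q h1 h2 h3 hf
  have h4 : 0 ≤ 3 + β.η - β.h := by linarith [β.η0, β.η1, β.h1]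
  have u : ‖‖Wv v R x z 0 (-2) q‖⁻¹ • Wv v R x z 0 (-2) q‖ = 1 := by
    rw [norm_smul, norm_inv, norm_norm, inv_mul_cancel₀ h1.ne']
  have h := hf _ ⟨h3.le, by
    rw [sub_add_cancel, norm_smul, u, mul_one, Real.norm_of_nonneg h4]⟩ (z - R x + R q.1)
  have e : z - R x + R q.1 - cen v q.1 q.2 ((3 + β.η - β.h) • ‖Wv v R x z 0 (-2) q‖⁻¹ •
      Wv v R x z 0 (-2) q - (3 : ℝ) • nu v q.1) = (‖Wv v R x z 0 (-2) q‖ - (3 + β.η - β.h) * q.2) •
        ‖Wv v R x z 0 (-2) q‖⁻¹ • Wv v R x z 0 (-2) q := by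
    rw [sub_smul ‖Wv v R x z 0 (-2) q‖, smul_inv_smul₀ h1.ne']
    generalize ‖Wv v R x z 0 (-2) q‖⁻¹ • Wv v R x z 0 (-2) q = U
    rw [cen, Wv, Pj, inner_zero_left]
    module
  rw [PP, e, norm_smul, u, mul_one, Real.norm_of_nonneg (sub_nonneg.2 h2.le)] at h
  rw [Ps, show ‖Wv v R x z 0 (-2) q‖ - (3 - β.h) * q.2 =
    ‖Wv v R x z 0 (-2) q‖ - (3 + β.η - β.h) * q.2 + β.η * q.2 by ring]
  exact sub_nonneg.2 h

/-- the parameters of the sphere of a contact -/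
def Par (β : Bo) (ν w om τ : EE n) (al ga : ℝ) : Prop :=
  (IsCap β ν w om ∧ τ = 0 ∧ al = -2 ∧ ga = 3 - β.h) ∨
    (IsRim β ν w om ∧ τ = Pj ν w ∧ al = 1 + ⟪w, ν⟫ ∧ ga = -β.η)

/-- **NEWTON**: the support function at a cap or rim contact -/
theorem newton (hv : Sol v) (hδ : δ ≤ 1 / 100) (S : Small v δ r x) (c : Con β v δ r x w om z)
    (k : IsCap β (nu v x) w om ∨ IsRim β (nu v x) w om) (ρm : ℝ) : ∃ (τ : EE n) (al ga : ℝ),
      Par β (nu v x) w om τ al ga ∧ SD v r x z τ om al ga (NN v z / NN v x) ∧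
      La v x τ om al ga (NN v z / NN v x) = Lam v β.η x w om (NN v z / NN v x) ∧
      Ga v r x τ om al (NN v z / NN v x) = G0 v r x w om (NN v z / NN v x) ∧
      ∃ R : EE n → ℝ, ContDiffAt ℝ 2 R x ∧ R x = r ∧ (∀ᶠ y in 𝓝 x, rt β v ρm y ≤ R y) ∧
        La v x τ om al ga (NN v z / NN v x) • ∇ R x = Ga v r x τ om al (NN v z / NN v x) ∧
        ∀ κ > 0, La v x τ om al ga (NN v z / NN v x) * Lm v R x ≤
          RH v r x z τ om (∇ R x) al ga (NN v z / NN v x) κ := by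
  have eN : tt v x = 1 - NN v x ^ 2 := rfl
  have hN1 := NN_le_one hv x
  have hN0 : 0 ≤ NN v x := norm_nonneg _
  have ht := S.t.trans hδ
  have hr := S.r
  have hN : 0 < NN v x := by nlinarith
  have hν := Wd.norm_nu hN
  have ho := c.unit
  obtain ⟨k1, k3⟩ : β.η * (1 - ⟪om, nu v x⟫) ≤ 2 * β.h ∧ (β.η - β.h) * ⟪om, nu v x⟫ ≤ ⟪om, w⟫ :=
    k.elim (fun h => ⟨(h.tl hν ho).1, (h.tl hν ho).2.2⟩) fun h => ⟨h.1, h.2.2.2⟩
  have eS : NN v x * (NN v z / NN v x) = NN v z := mul_div_cancel₀ _ hN.ne'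
  have hc1 : ⟪om, nu v x⟫ ≤ 1 := by simpa [hν, ho] using real_inner_le_norm om (nu v x)
  have how : ⟪om, w⟫ ≤ β.η := by
    have := real_inner_le_norm om w
    rw [ho] at this; linarith [c.mem.1]
  have η0 := β.η0; have η1 := β.η1; have h1 := β.h1
  obtain ⟨hc2, -, hL1, -⟩ := fx_num (δ := 1 / 100) (by norm_num) le_rfl β.η0 β.η1 β.h0
    (by linarith) hN0 hN1 (NN_le_one hv z) (eN ▸ ht) eS (c.sgl.trans hδ) hc1 k1 k3 how
  have hL : 0 < Lam v β.η x w om (NN v z / NN v x) := by rw [Lam, eS]; linarith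
  obtain ⟨d1, d2⟩ := abs_le.1 (S.d.trans (mul_le_mul_of_nonneg_right hδ (by linarith)))
  obtain ⟨s1, s2⟩ := abs_le.1 (c.sgl.trans hδ)
  have gz : ∇ (dd v) z = -(NN v x * (NN v z / NN v x)) • om := by rw [eS]; exact c.grad
  have hpos := c.pos
  have heq := c.eq
  generalize NN v z / NN v x = sg at *
  have hp : β.η * r < sg * (r - dd v x) := by nlinarith
  have hd : |dd v x| < r := abs_lt.2 ⟨by linarith, by linarith⟩
  have L0 : 0 < r - dd v x := by linarith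
  have dz : dd v z = dd v x + NN v x * ((r - dd v x) * (1 - sg ^ 2) / 2) := by
    have e : z - cen v x r w = (sg * (r - dd v x) - β.η * r) • om :=
      sub_eq_iff_eq_add'.2 hpos
    rw [heq, PP, e, norm_smul, ho, mul_one, Real.norm_of_nonneg (sub_nonneg.2 hp.le), gp]
    field_simp
    ring
  have νν : ⟪nu v x, nu v x⟫ = 1 := by rw [real_inner_self_eq_norm_sq, hν, one_pow]
  have oo : ⟪om, om⟫ = 1 := by rw [real_inner_self_eq_norm_sq, ho, one_pow]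
  rcases k with k | k
  · have D : SD v r x z 0 om (-2) (3 - β.h) sg := ⟨hv, hN, L0, by linarith, by nlinarith,
      inner_zero_right _, ho, by linarith, by rw [hpos, cen, k.1]; module, dz, gz⟩
    have e1 : La v x 0 om (-2) (3 - β.h) sg = Lam v β.η x w om sg := by
      rw [La, Lam, k.1, inner_sub_right, real_inner_smul_right, real_inner_smul_right, oo,
        inner_zero_left, real_inner_comm om (nu v x)]
      ring
    refine ⟨0, -2, 3 - β.h, Or.inl ⟨k, rfl, rfl, rfl⟩, D, e1, ?_,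
      D.newton (e1 ▸ hL) hd ρm (mem_cap D k hp)⟩
    rw [Ga, G0, mv, k.1, AA_apply, map_zero, Bu, Pj, real_inner_comm om (nu v x)]
    simp only [inner_sub_left, real_inner_smul_left, νν, map_add, map_sub, map_smul]
    match_scalars <;> field_simp <;> ring
  · have D : SD v r x z (Pj (nu v x) w) om (1 + ⟪w, nu v x⟫) (-β.η) sg := ⟨hv, hN, L0,
      by linarith, by linarith, by rw [real_inner_comm, inner_Pj hν], ho, by linarith,
      by rw [hpos, cen, Pj]; module, dz, gz⟩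
    have e1 : La v x (Pj (nu v x) w) om (1 + ⟪w, nu v x⟫) (-β.η) sg = Lam v β.η x w om sg := by
      rw [La, Lam, Pj, inner_sub_left, real_inner_smul_left, real_inner_comm om (nu v x),
        real_inner_comm om w]
      ring
    refine ⟨_, _, _, Or.inr ⟨k, rfl, rfl, rfl⟩, D, e1, ?_,
      D.newton (e1 ▸ hL) hd ρm (mem_rim hv hN c.mem)⟩
    rw [Ga, G0, mv, AA_apply, AA_apply, Bu, Pj, Pj, inner_Pj hν, Pj, real_inner_comm om (nu v x)]
    simp only [map_add, map_sub, map_smul]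
    match_scalars <;> field_simp <;> ring

end

end Crest.Agent.N067.X2
end

-- ▼ part N067/X3/Cr
section

/-!
# Row 67, block X2 (helper53): `CRStmt` from the support function and the estimate
-/

set_option autoImplicit false

open MeasureTheory Laplacian InnerProductSpace Topology Filter Set Metric
open scoped RealInnerProductSpace ContDiff Gradient

namespace Crest.Agent.N067.X2

open Crest.Agent.R077 Crest.Agent.N067.V Crest.Agent.N067.M

noncomputable section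

open Classical in
def EstS (n : ℕ) : Prop := ∀ ε : ℝ, 0 < ε → ∃ th0 : ℝ, 0 < th0 ∧ ∀ c : ℝ, 0 < c →
  ∃ η0 th C κ : ℝ, 0 < η0 ∧ 0 < th ∧ 1 ≤ C ∧ 0 < κ ∧
  ∀ (v : EE n → ℝ) (r ηt : ℝ) (x z τ om g : EE n) (al ga sg : ℝ), SD v r x z τ om al ga sg →
    Small v th r x → |1 - sg| ≤ th → 0 ≤ ηt → ηt ≤ η0 → tt v x * (r - dd v x) ≤ √2 * NN v x →
    (∀ a, 0 ≤ hb (dd v) x a a + NN v x / (r - dd v x) * ‖a‖ ^ 2) →
    La v x τ om al ga sg • g = Ga v r x τ om al sg → 1 - ⟪nu v x, om⟫ ≤ th0 →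
    ((al = -2 ∧ τ = 0 ∧ ∃ h, 0 ≤ h ∧ h ≤ th0 ∧ ga = 3 - h) ∨
      ∃ η, 0 ≤ η ∧ η ≤ th0 ∧ ga = -η ∧ |al - 1| ≤ η ∧ ‖τ‖ ≤ 4 * ‖Pj (nu v x) om‖ ∧
        c ≤ ‖Pj (nu v x) om‖ ^ 2 ∧ 1 - th0 ≤ al * ⟪nu v x, om⟫ + ga + ⟪τ, om⟫ ∧
        al * ⟪nu v x, om⟫ + ga + ⟪τ, om⟫ ≤ 2) →
    1 ≤ La v x τ om al ga sg ∧ ∀ a, RH v r x z τ om g al ga sg κ ≤ La v x τ om al ga sg *
      (r * (if r * Bn v x ≤ ηt then 0 else (1 + ε) * hsq (dd v) x)
          + (2 + ε) * ‖g‖ ^ 2 / r + 4 * ⟪g, a⟫ + 2 * r ^ 2 * hb (dd v) x a a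
          + 2 * (1 + ε) * r * ‖a‖ ^ 2 + C * r * tt v x ^ 2)

theorem cr_of {n : ℕ} (hE : EstS n) : CRStmt n := by
  intro ε hε
  obtain ⟨th0, h0, hE⟩ := hE ε hε
  refine ⟨th0 / 5, by positivity, fun β b1 b2 => ?_⟩
  have η0 := β.η0; have η1 := β.η1; have k0 := β.h0
  obtain ⟨e0, th, C, κ, a1, a2, a3, a4, hE⟩ := hE (β.η * β.h / 16) (by positivity)
  refine ⟨e0, min th (1 / 100), C, a1, lt_min a2 (by norm_num), a3,
    fun v ρm r ηt x w om z hv t0 t1 S hs psd c k => ?_⟩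
  obtain ⟨τ, al, ga, P, D, eL, eG, R, c2, e1, e2, e3, e4⟩ :=
    newton hv (min_le_right _ _) S c k ρm
  have hν := Wd.norm_nu D.hN
  have ho := c.unit
  obtain ⟨k1, k3⟩ : β.η * (1 - ⟪om, nu v x⟫) ≤ 2 * β.h ∧ (β.η - β.h) * ⟪om, nu v x⟫ ≤ ⟪om, w⟫ :=
    k.elim (fun h => ⟨(h.tl hν ho).1, (h.tl hν ho).2.2⟩) fun h => ⟨h.1, h.2.2.2⟩
  have hc1 : ⟪om, nu v x⟫ ≤ 1 := by simpa [hν, ho] using real_inner_le_norm om (nu v x)
  have hc2 : 1 - ⟪om, nu v x⟫ ≤ 2 * (th0 / 5) := le_of_mul_le_mul_left (by linarith) η0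
  have hh : β.h ≤ th0 / 5 / 100 := b2.trans (by nlinarith)
  have how : ⟪om, w⟫ ≤ β.η := by
    have := real_inner_le_norm om w
    rw [ho] at this; linarith [c.mem.1]
  obtain ⟨hL, hR⟩ := hE v r ηt x z τ om (∇ R x) al ga _ D ⟨S.t.trans (min_le_left _ _),
    S.d.trans (mul_le_mul_of_nonneg_right (min_le_left _ _) (by linarith [S.r])), S.r⟩
    (c.sgl.trans (min_le_left _ _)) t0 t1 hs psd e3 (by rw [real_inner_comm]; linarith) (by
      rcases P with ⟨-, p1, p2, p3⟩ | ⟨p0, p1, p2, p3⟩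
      · exact Or.inl ⟨p2, p1, β.h, k0.le, by linarith, p3⟩
      have e : al * ⟪nu v x, om⟫ + ga + ⟪τ, om⟫ = ⟪om, nu v x⟫ + ⟪om, w⟫ - β.η := by
        rw [p1, p2, p3, Pj, inner_sub_left, real_inner_smul_left, real_inner_comm om (nu v x),
          real_inner_comm om w]
        ring
      refine Or.inr ⟨β.η, η0.le, by linarith, p3, ?_, p1 ▸ p0.2.2.1, p0.2.1, ?_, ?_⟩
      · have := abs_real_inner_le_norm w (nu v x)
        rw [hν, mul_one] at this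
        rw [p2, add_sub_cancel_left]
        exact this.trans c.mem.1
      · rw [e]; nlinarith
      · rw [e]; linarith)
  refine ⟨∇ R x, eL ▸ eG ▸ e3, fun e he => ⟨R, c2, e1, e2, rfl, fun a => ?_⟩⟩
  exact (le_of_mul_le_mul_left ((e4 κ a4).trans (hR a)) (by linarith)).trans (by linarith)

end

end Crest.Agent.N067.X2
end

-- ▼ part N067/X3/Sc
section

/-!
# Row 67, block X2 (helper93): scalar inequalities for the cap and rim estimate
-/

set_option autoImplicit false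

namespace Crest.Agent.N067.X3

noncomputable section

/-- the sum of the error terms; `b = r |B|`, `G = |g|`, `s` = tilt, `u = |1 - sg|`, `T = r t` -/
def Err (K κ b G s u T : ℝ) : ℝ :=
  8 * T ^ 2 + 8 * (1 + κ⁻¹) * (s ^ 2 * (256 * (b * s) ^ 2 + 4 * T ^ 2 + 4 * s ^ 2 + 32 * G ^ 2)) +
    56 * K * (b * s * T) + 48 * (G * (b * s)) + 8 * K * (s * T) + 64 * (b * s) ^ 2 +
    32 * (u ^ 2 * (4 * G ^ 2 + T ^ 2 + u ^ 2 + 36 * K ^ 2 * T ^ 2)) + 2 * K * (u * T) +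
    12 * K ^ 2 * T ^ 2

theorem young {A x y e : ℝ} (he : 0 < e) : A * (x * y) ≤ e * x ^ 2 + A ^ 2 / (4 * e) * y ^ 2 := by
  have h : 0 ≤ (2 * e * x - A * y) ^ 2 / (4 * e) := by positivity
  have e1 : (2 * e * x - A * y) ^ 2 / (4 * e) =
      e * x ^ 2 + A ^ 2 / (4 * e) * y ^ 2 - A * (x * y) := by field_simp; ring
  linarith

/-- a common form: if `s, u, b s, G ≤ w`-type bounds hold -/
theorem Err_le {K κ b G s u T θ w : ℝ} (K0 : 0 ≤ K) (κ0 : 0 < κ) (κ1 : κ ≤ 1) (b0 : 0 ≤ b)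
    (G0 : 0 ≤ G) (s0 : 0 ≤ s) (u0 : 0 ≤ u) (T0 : 0 ≤ T) (θ0 : 0 ≤ θ) (θ1 : θ ≤ 1) (hs : s ≤ θ)
    (hu : u ≤ θ) (sw : s ≤ w) (uw : u ≤ w) (bw : b * s ≤ θ * w) (Gw : G ≤ w) :
    Err K κ b G s u T ≤ 5000 * (θ / κ) * w ^ 2 + 66 * K * (w * T) +
      (104 + 1164 * K ^ 2) / κ * T ^ 2 := by
  have w0 : 0 ≤ w := s0.trans sw
  have k1 : 1 ≤ κ⁻¹ := (one_le_inv₀ κ0).2 κ1
  have bw' : b * s ≤ w := bw.trans (mul_le_of_le_one_left w0 θ1)
  have θ2 : θ ^ 2 ≤ θ := by nlinarith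
  have s2 : s ^ 2 ≤ θ := (pow_le_pow_left₀ s0 hs 2).trans θ2
  have u2 : u ^ 2 ≤ θ := (pow_le_pow_left₀ u0 hu 2).trans θ2
  have a1 : s ^ 2 * (256 * (b * s) ^ 2 + 4 * T ^ 2 + 4 * s ^ 2 + 32 * G ^ 2) ≤
      292 * θ * w ^ 2 + 4 * T ^ 2 := by
    calc _ ≤ θ * (256 * w ^ 2 + 4 * T ^ 2 + 4 * w ^ 2 + 32 * w ^ 2) := by gcongr
      _ ≤ _ := by nlinarith [sq_nonneg T]
  have a2 : u ^ 2 * (4 * G ^ 2 + T ^ 2 + u ^ 2 + 36 * K ^ 2 * T ^ 2) ≤
      5 * θ * w ^ 2 + (1 + 36 * K ^ 2) * T ^ 2 := by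
    have : 0 ≤ (1 + 36 * K ^ 2) * T ^ 2 := by positivity
    calc _ ≤ θ * (4 * w ^ 2 + T ^ 2 + w ^ 2 + 36 * K ^ 2 * T ^ 2) := by gcongr
      _ ≤ _ := by nlinarith
  have a3 : G * (b * s) ≤ θ * w ^ 2 := by
    calc _ ≤ w * (θ * w) := by gcongr
      _ = _ := by ring
  have a4 : (b * s) ^ 2 ≤ θ * w ^ 2 := by
    calc _ ≤ (θ * w) ^ 2 := by gcongr
      _ = θ ^ 2 * w ^ 2 := by ring
      _ ≤ _ := by gcongr
  have a5 : K * (b * s * T) ≤ K * (w * T) := by gcongr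
  have a6 : K * (s * T) ≤ K * (w * T) := by gcongr
  have a7 : K * (u * T) ≤ K * (w * T) := by gcongr
  have a8 : 8 * (1 + κ⁻¹) * (s ^ 2 * (256 * (b * s) ^ 2 + 4 * T ^ 2 + 4 * s ^ 2 + 32 * G ^ 2)) ≤
      8 * (κ⁻¹ + κ⁻¹) * (292 * θ * w ^ 2 + 4 * T ^ 2) := by gcongr
  have a9 : θ * w ^ 2 ≤ κ⁻¹ * (θ * w ^ 2) := le_mul_of_one_le_left (by positivity) k1
  have a10 : T ^ 2 ≤ κ⁻¹ * T ^ 2 := le_mul_of_one_le_left (by positivity) k1
  have a11 : K ^ 2 * T ^ 2 ≤ κ⁻¹ * (K ^ 2 * T ^ 2) := le_mul_of_one_le_left (by positivity) k1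
  have a12 : 0 ≤ κ⁻¹ * (θ * w ^ 2) := by positivity
  unfold Err
  rw [div_eq_mul_inv, div_eq_mul_inv]
  nlinarith

/-- thin and middle range -/
theorem Err_thin {K κ e : ℝ} (K0 : 0 ≤ K) (κ0 : 0 < κ) (κ1 : κ ≤ 1) (e0 : 0 < e) :
    ∃ θ C : ℝ, 0 < θ ∧ θ ≤ 1 / 1000 ∧ 0 ≤ C ∧ ∀ b G s u T : ℝ, 0 ≤ b → 0 ≤ G → 0 ≤ s → 0 ≤ u →
      0 ≤ T → b ≤ θ → s ≤ θ → u ≤ θ → u + s ≤ 72 * (G + T) →
      Err K κ b G s u T ≤ e * G ^ 2 + C * T ^ 2 := by
  refine ⟨min (1 / 1000) (e * κ / 10 ^ 9), e + 4752 * K + (4752 * K) ^ 2 / (4 * (e / 2)) +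
    (104 + 1164 * K ^ 2) / κ, by positivity, min_le_left _ _, by positivity,
    fun b G s u T b0 G0 s0 u0 T0 hb hs hu hw => ?_⟩
  set θ := min (1 / 1000) (e * κ / 10 ^ 9)
  have θ0 : 0 < θ := by positivity
  have θ1 : θ ≤ 1 := (min_le_left _ _).trans (by norm_num)
  have θ2 : θ / κ ≤ e / 10 ^ 9 := by
    rw [div_le_iff₀ κ0]; exact (min_le_right _ _).trans_eq (by ring)
  have h := Err_le K0 κ0 κ1 b0 G0 s0 u0 T0 θ0.le θ1 hs hu (w := 72 * (G + T)) (by linarith)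
    (by linarith) (by gcongr; linarith) (by linarith)
  have a1 : 5000 * (θ / κ) * (72 * (G + T)) ^ 2 ≤ 5000 * (e / 10 ^ 9) * (72 * (G + T)) ^ 2 := by
    gcongr
  have a2 : (G + T) ^ 2 ≤ 2 * G ^ 2 + 2 * T ^ 2 := by nlinarith [sq_nonneg (G - T)]
  have a3 : e * (G + T) ^ 2 ≤ e * (2 * G ^ 2 + 2 * T ^ 2) := by gcongr
  have a4 := young (A := 4752 * K) (x := G) (y := T) (half_pos e0)
  have a5 : 0 ≤ e * G ^ 2 := by positivity
  have a6 : 0 ≤ e * T ^ 2 := by positivity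
  nlinarith

/-- thick range -/
theorem Err_thick {K κ e η A : ℝ} (K0 : 0 ≤ K) (κ0 : 0 < κ) (κ1 : κ ≤ 1) (e0 : 0 < e)
    (η0 : 0 < η) (η1 : η ≤ 1) (A0 : 0 ≤ A) :
    ∃ θ C : ℝ, 0 < θ ∧ 0 ≤ C ∧ ∀ b G s u T : ℝ, 0 ≤ G → 0 ≤ s → 0 ≤ u →
      0 ≤ T → η ≤ b → s ≤ θ → u ≤ θ → G ≤ 2 * s + 2 * T + 2 * u + 28 * b * (u + s) →
      Err K κ b G s u T + A * G ^ 2 ≤ e * b ^ 2 + C * T ^ 2 := by
  obtain ⟨μ, μ0, μ1, μ2, μ3, μ4⟩ : ∃ μ : ℝ, 0 < μ ∧ μ ≤ 1 / 60 ∧ μ / κ ≤ e / 10 ^ 5 ∧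
      A * μ ≤ e / 10 ^ 5 ∧ True := by
    refine ⟨min (1 / 60) (min (e * κ / 10 ^ 5) (e / 10 ^ 5 / (A + 1))), by positivity,
      min_le_left _ _, ?_, ?_, trivial⟩
    · rw [div_le_iff₀ κ0]
      exact ((min_le_right _ _).trans (min_le_left _ _)).trans_eq (by ring)
    · have h1 : min (1 / 60) (min (e * κ / 10 ^ 5) (e / 10 ^ 5 / (A + 1))) ≤
        e / 10 ^ 5 / (A + 1) := (min_le_right _ _).trans (min_le_right _ _)
      rw [le_div_iff₀ (by positivity)] at h1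
      have h2 : 0 < min (1 / 60) (min (e * κ / 10 ^ 5) (e / 10 ^ 5 / (A + 1))) := by positivity
      nlinarith
  refine ⟨μ * η, e + 132 * K + (66 * K) ^ 2 / (4 * (e / 4)) + (104 + 1164 * K ^ 2) / κ + 8 * A,
    by positivity, by positivity, fun b G s u T G0 s0 u0 T0 hb hs hu hG => ?_⟩
  have b0 : 0 < b := η0.trans_le hb
  have m1 : μ * η ≤ μ := mul_le_of_le_one_right μ0.le η1
  have m2 : μ * η ≤ μ * b := by gcongr
  have m3 : b * (u + s) ≤ b * (μ + μ) := by gcongr <;> linarith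
  have g1 : G ≤ 60 * (μ * b) + 2 * T := by nlinarith
  have m4 : 60 * (μ * b) ≤ b := by nlinarith
  have m5 : 0 ≤ μ * b := by positivity
  have h := Err_le K0 κ0 κ1 b0.le G0 s0 u0 T0 μ0.le (by linarith) (hs.trans m1) (hu.trans m1)
    (w := b + 2 * T) (by linarith) (by linarith) (by nlinarith) (by linarith)
  have a1 : 5000 * (μ / κ) * (b + 2 * T) ^ 2 ≤ 5000 * (e / 10 ^ 5) * (2 * b ^ 2 + 8 * T ^ 2) := by
    gcongr; nlinarith [sq_nonneg (b - 2 * T)]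
  have a2 := young (A := 66 * K) (x := b) (y := T) (show 0 < e / 4 by positivity)
  have a3 : G ^ 2 ≤ 7200 * (μ * b) ^ 2 + 8 * T ^ 2 := by
    have := pow_le_pow_left₀ G0 g1 2
    nlinarith [sq_nonneg (60 * (μ * b) - 2 * T)]
  have a4 : A * G ^ 2 ≤ A * (7200 * (μ * b) ^ 2 + 8 * T ^ 2) := by gcongr
  have a5 : A * (μ * b) ^ 2 ≤ e / 10 ^ 5 * b ^ 2 := by
    calc A * (μ * b) ^ 2 = A * μ * μ * b ^ 2 := by ring
      _ ≤ e / 10 ^ 5 * 1 * b ^ 2 := by gcongr; linarith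
      _ = _ := by ring
  have a6 : 0 ≤ e * b ^ 2 := by positivity
  have a7 : 0 ≤ e * T ^ 2 := by positivity
  nlinarith

/-- the potential of a cap is negative -/
theorem pc_cap {r d sg cs h κ θ : ℝ} (r0 : 0 < r) (θ1 : θ ≤ 1 / 100) (hd : |d| ≤ θ * r)
    (hs : |1 - sg| ≤ θ) (hc : 1 - 2 * θ ≤ cs) (h0 : 0 ≤ h) (h1 : h ≤ θ) (κ0 : 0 ≤ κ)
    (κ1 : κ ≤ 1 / 2) : sg * ((1 + κ) * (-2 * r - d) ^ 2) / (sg * (r - d) + (3 - h) * r) +
      (sg * (-2 * r - d) * cs - (r - d) * (1 - sg ^ 2) / 2) ≤ 0 := by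
  obtain ⟨d1, d2⟩ := abs_le.1 hd
  obtain ⟨s1, s2⟩ := abs_le.1 hs
  have θ0 : 0 ≤ θ := h0.trans h1
  have d3 : θ * r ≤ 1 / 100 * r := by gcongr
  have a0 : 98 / 100 * r ≤ sg * (r - d) := by
    calc 98 / 100 * r ≤ 99 / 100 * (99 / 100 * r) := by linarith
      _ ≤ _ := by gcongr <;> linarith
  have y0 : 39 / 10 * r ≤ sg * (r - d) + (3 - h) * r := by nlinarith
  set A := 2 * r + d with hA
  have A0 : 199 / 100 * r ≤ A := by linarith
  have A1 : A ≤ 201 / 100 * r := by linarith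
  have a1 : sg * ((1 + κ) * (-2 * r - d) ^ 2) / (sg * (r - d) + (3 - h) * r) ≤
      sg * A * (78 / 100) := by
    rw [div_le_iff₀ (by linarith)]
    calc sg * ((1 + κ) * (-2 * r - d) ^ 2) = sg * A * ((1 + κ) * A) := by rw [hA]; ring
      _ ≤ sg * A * (3 / 2 * (201 / 100 * r)) := by gcongr <;> nlinarith
      _ ≤ sg * A * (78 / 100 * (39 / 10 * r)) :=
          mul_le_mul_of_nonneg_left (by linarith) (by nlinarith)
      _ ≤ sg * A * (78 / 100 * (sg * (r - d) + (3 - h) * r)) := by gcongr; nlinarith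
      _ = _ := by ring
  have a2 : 99 / 100 * (199 / 100 * r) ≤ sg * A := by gcongr <;> linarith
  have a3 : sg * A * (98 / 100) ≤ sg * A * cs := by gcongr <;> nlinarith
  have a4 : (r - d) * (sg ^ 2 - 1) ≤ 2 * r * (3 / 100) := by
    calc (r - d) * (sg ^ 2 - 1) ≤ (r - d) * (3 / 100) := by gcongr <;> nlinarith
      _ ≤ _ := by gcongr; linarith
  have e : sg * (-2 * r - d) * cs = -(sg * A * cs) := by rw [hA]; ring
  rw [e]
  nlinarith

/-- the potential of a rim -/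
theorem pc_rim {r d sg cs η al κ θ : ℝ} (r0 : 0 < r) (θ1 : θ ≤ 1 / 100) (hd : |d| ≤ θ * r)
    (hs : |1 - sg| ≤ θ) (hc0 : 0 ≤ cs) (hc : cs ≤ 1) (η0 : 0 ≤ η) (η1 : η ≤ θ)
    (ha : |al - 1| ≤ θ) (κ0 : 0 ≤ κ) (κ1 : κ ≤ 1 / 2) :
    sg * ((1 + κ) * (al * r - d) ^ 2) / (sg * (r - d) + -η * r) +
      (sg * (al * r - d) * cs - (r - d) * (1 - sg ^ 2) / 2) ≤ (2 + κ + 30 * θ) * r := by
  obtain ⟨d1, d2⟩ := abs_le.1 hd
  obtain ⟨s1, s2⟩ := abs_le.1 hs
  obtain ⟨l1, l2⟩ := abs_le.1 ha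
  have θ0 : 0 ≤ θ := η0.trans η1
  have d3 : θ * r ≤ 1 / 100 * r := by gcongr
  have a0 : (1 - θ) * ((1 - θ) * r) ≤ sg * (r - d) := by gcongr <;> nlinarith
  have y0 : (1 - 3 * θ) * r ≤ sg * (r - d) + -η * r := by nlinarith [mul_nonneg (sq_nonneg θ) r0.le]
  set A := al * r - d
  have A0 : 0 ≤ A := by nlinarith
  have A1 : A ≤ (1 + 2 * θ) * r := by nlinarith
  have a1 : sg * ((1 + κ) * A ^ 2) / (sg * (r - d) + -η * r) ≤ (1 + κ) * (1 + 12 * θ) * r := by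
    rw [div_le_iff₀ (by nlinarith)]
    have c1 : (1 + θ) * (1 + 2 * θ) ^ 2 ≤ (1 + 12 * θ) * (1 - 3 * θ) := by nlinarith
    calc sg * ((1 + κ) * A ^ 2) ≤ (1 + θ) * ((1 + κ) * ((1 + 2 * θ) * r) ^ 2) := by
          gcongr; linarith
      _ = (1 + κ) * r ^ 2 * ((1 + θ) * (1 + 2 * θ) ^ 2) := by ring
      _ ≤ (1 + κ) * r ^ 2 * ((1 + 12 * θ) * (1 - 3 * θ)) := by gcongr
      _ = (1 + κ) * (1 + 12 * θ) * r * ((1 - 3 * θ) * r) := by ring
      _ ≤ _ := by gcongr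
  have a2 : sg * A * cs ≤ (1 + θ) * ((1 + 2 * θ) * r) * 1 := by gcongr; linarith
  have a4 : (r - d) * (sg ^ 2 - 1) ≤ 2 * r * (3 * θ) := by
    calc (r - d) * (sg ^ 2 - 1) ≤ (r - d) * (3 * θ) := by gcongr <;> nlinarith
      _ ≤ _ := by gcongr; linarith
  have a5 : 0 ≤ θ * r := by positivity
  have a6 : κ * (θ * r) ≤ 1 / 2 * (θ * r) := by gcongr
  have a7 : θ * (θ * r) ≤ 1 / 100 * (θ * r) := by gcongr
  nlinarith

end

end Crest.Agent.N067.X3
end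

-- ▼ part N067/X3/Est
section

/-!
# Row 67, block X2 (helper93): the estimate of `RH`
-/

set_option autoImplicit false

open MeasureTheory Laplacian InnerProductSpace Topology Filter Set Metric
open scoped RealInnerProductSpace ContDiff Gradient

namespace Crest.Agent.N067.X3

open Crest.Agent.R077 Crest.Agent.N067.V Crest.Agent.N067.M Crest.Agent.N067.X2

noncomputable section

variable {n : ℕ} {v : EE n → ℝ} {x z τ om g : EE n} {r al ga sg θ K κ : ℝ}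

/-- the bounds on a sphere contact -/
structure Bd (v : EE n → ℝ) (r : ℝ) (x τ om : EE n) (al ga sg θ K : ℝ) : Prop where
  θ1 : θ ≤ 1 / 100
  r1 : 1 ≤ r
  t : tt v x ≤ θ
  d : |dd v x| ≤ θ * r
  u : |1 - sg| ≤ θ
  s : ‖Pj (nu v x) om‖ ≤ θ
  cs : 1 - 2 * θ ≤ ⟪nu v x, om⟫
  hal : |al| ≤ 2
  y : r / 2 ≤ sg * (r - dd v x) + ga * r
  tau : ‖τ‖ ≤ 4 * ‖Pj (nu v x) om‖
  L1 : 2 - 8 * θ ≤ La v x τ om al ga sg
  L2 : La v x τ om al ga sg ≤ 3
  K0 : 0 ≤ K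
  bu : ‖Bu v x‖ ≤ K * tt v x

/-- the coefficient of the potential -/
def PC (v : EE n → ℝ) (r : ℝ) (x om : EE n) (al ga sg κ : ℝ) : ℝ :=
  sg * ((1 + κ) * (al * r - dd v x) ^ 2) / (sg * (r - dd v x) + ga * r) +
    (sg * (al * r - dd v x) * ⟪nu v x, om⟫ - (r - dd v x) * (1 - sg ^ 2) / 2)

theorem ip_le {a b : EE n} {A B : ℝ} (ha : ‖a‖ ≤ A) (hb : ‖b‖ ≤ B) : |⟪a, b⟫| ≤ A * B :=
  (abs_real_inner_le_norm a b).trans
    (mul_le_mul ha hb (norm_nonneg _) ((norm_nonneg _).trans ha))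

theorem mul_le' {a b A B : ℝ} (ha : |a| ≤ A) (hb : |b| ≤ B) : |a * b| ≤ A * B := by
  rw [abs_mul]; exact mul_le_mul ha hb (abs_nonneg _) ((abs_nonneg _).trans ha)

theorem nsm {c C A : ℝ} {a : EE n} (hc : |c| ≤ C) (ha : ‖a‖ ≤ A) : ‖c • a‖ ≤ C * A := by
  rw [norm_smul, Real.norm_eq_abs]
  exact mul_le_mul hc ha (norm_nonneg _) ((abs_nonneg _).trans hc)

theorem sq4 (a b c d : ℝ) : (a + b + c + d) ^ 2 ≤ 4 * (a ^ 2 + b ^ 2 + c ^ 2 + d ^ 2) := by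
  nlinarith [sq_nonneg (a - b), sq_nonneg (a - c), sq_nonneg (a - d), sq_nonneg (b - c),
    sq_nonneg (b - d), sq_nonneg (c - d)]

theorem t2_bd {N tz : ℝ} (h0 : 9 / 10 ≤ N) (h1 : N ≤ 1) (z0 : 0 ≤ tz) (z1 : tz ≤ 1) :
    |(tz - 1 - N ^ 2) / (2 * N)| ≤ 2 := by
  rw [abs_div, abs_of_pos (by linarith : 0 < 2 * N), div_le_iff₀ (by linarith)]
  exact abs_le.2 ⟨by nlinarith, by nlinarith⟩

theorem le_of_sq_add {A a b : ℝ} (hA : 0 ≤ A) (h : A ^ 2 = a ^ 2 + b ^ 2) : a ≤ A ∧ b ≤ A :=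
  ⟨(abs_le_of_sq_le_sq' (by nlinarith [sq_nonneg b]) hA).2,
    (abs_le_of_sq_le_sq' (by nlinarith [sq_nonneg a]) hA).2⟩

/-- numerical consequences -/
structure Nu (v : EE n → ℝ) (r : ℝ) (x τ om : EE n) (al sg : ℝ) : Prop where
  N0 : 9 / 10 ≤ NN v x
  N1 : NN v x ≤ 1
  Nt : 1 - NN v x ≤ tt v x
  t0 : 0 ≤ tt v x
  s0 : 9 / 10 ≤ sg
  s1 : sg ≤ 11 / 10
  c0 : 9 / 10 ≤ ⟪nu v x, om⟫
  c1 : ⟪nu v x, om⟫ ≤ 1
  L0 : r / 2 ≤ r - dd v x
  L1 : r - dd v x ≤ 2 * r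
  a : |al * r - dd v x| ≤ 3 * r
  F : |1 - sg ^ 2| ≤ 3 * |1 - sg|
  Ao : ‖AA v x om‖ ≤ 2 * (Bn v x * ‖Pj (nu v x) om‖)
  At : ‖AA v x τ‖ ≤ 8 * (Bn v x * ‖Pj (nu v x) om‖)
  An : |⟪nu v x, AA v x om⟫| ≤ 2 * (‖Bu v x‖ * ‖Pj (nu v x) om‖)
  Bu : ‖Bu v x‖ ≤ Bn v x
  ν : ‖nu v x‖ = 1

theorem Bd.num (B : Bd v r x τ om al ga sg θ K) (D : SD v r x z τ om al ga sg) :
    Nu v r x τ om al sg := by
  have hν := Wd.norm_nu D.hN
  have t0 := D.hv.tt_nonneg x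
  have eN : tt v x = 1 - NN v x ^ 2 := rfl
  have N0 := D.hN
  have θ1 := B.θ1
  have N1 : NN v x ≤ 1 := by nlinarith
  have Nt : 1 - NN v x ≤ tt v x := by nlinarith
  have N9 : 9 / 10 ≤ NN v x := by linarith [B.t]
  obtain ⟨d1, d2⟩ := abs_le.1 B.d
  obtain ⟨s1, s2⟩ := abs_le.1 B.u
  have r0 : 0 < r := by linarith [B.r1]
  have d3 : θ * r ≤ 1 / 100 * r := by gcongr
  have iN : |(NN v x)⁻¹| ≤ 2 := by
    rw [abs_of_pos (inv_pos.2 N0), inv_le_comm₀ N0 two_pos]; linarith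
  have B0 : 0 ≤ Bn v x := Real.sqrt_nonneg _
  have hA : ∀ u, ‖AA v x u‖ ≤ 2 * (Bn v x * ‖Pj (nu v x) u‖) := fun u => by
    rw [AA_apply]; exact nsm iN (Bl.norm_hop D.hv x _)
  have pτ : Pj (nu v x) τ = τ := by rw [Pj, real_inner_comm, D.hτ, zero_smul, sub_zero]
  refine ⟨N9, N1, Nt, t0, by linarith, by linarith, by linarith [B.cs], ?_, by linarith,
    by linarith, ?_, ?_, hA om, ?_, ?_, ?_, hν⟩
  · exact (le_abs_self _).trans ((ip_le hν.le D.ho.le).trans_eq (one_mul _))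
  · have := mul_le' B.hal (abs_of_pos r0).le
    exact (abs_sub _ _).trans (by linarith [B.d])
  · rw [show 1 - sg ^ 2 = (1 + sg) * (1 - sg) by ring]
    exact mul_le' (abs_le.2 ⟨by linarith, by linarith⟩) le_rfl
  · refine (hA τ).trans ?_
    rw [pτ]
    have := mul_le_mul_of_nonneg_left B.tau B0
    linarith
  · rw [AA_apply, real_inner_smul_right, ← hop_symm (c2_of D.hv.dd_sm x)]
    exact mul_le' iN (ip_le le_rfl le_rfl)
  · exact (Bl.norm_hop D.hv x _).trans_eq (by rw [hν, mul_one])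

set_option maxHeartbeats 1000000 in
theorem RH_le (B : Bd v r x τ om al ga sg θ K) (D : SD v r x z τ om al ga sg)
    (ht : tt v x * (r - dd v x) ≤ √2 * NN v x) (hκ : 0 < κ) :
    r * RH v r x z τ om g al ga sg κ ≤ PC v r x om al ga sg κ * (r * T2 v x / NN v x) +
      Err K κ (r * Bn v x) ‖g‖ ‖Pj (nu v x) om‖ |1 - sg| (r * tt v x) := by
  obtain ⟨N0, N1, Nt, t0, s0, s1, c0, c1, L0, L1, ha, hF, Ao, At, An, -, hν⟩ := B.num D
  have hL := D.hL
  have hN := D.hN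
  have hy := D.hy
  have hbu := B.bu
  have K0 := B.K0
  have r1 := B.r1
  have r0 : 0 < r := by linarith
  have B0 : 0 ≤ Bn v x := Real.sqrt_nonneg _
  have eN : tt v x = 1 - NN v x ^ 2 := rfl
  have tz0 := D.hv.tt_nonneg z
  have tz1 := tt_le_one v z
  have e1 := EE_nonneg (x := x) (φ := NN v x / (r - dd v x)) D.hv (z := z)
    (by rw [← mul_div_assoc, le_div_iff₀ hL]; exact ht) (by rw [D.tz, D.dz, eN]; field_simp; ring)
  have e0 : NN v x * (T2 v x / NN v x ^ 2) = T2 v x / NN v x := by field_simp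
  have e3 : r * RH v r x z τ om g al ga sg κ =
      -(r * (√2 * (v z - v x) * tt v z - qq v x * (dd v z - dd v x))) +
      r * (√2 * v x * (1 - NN v x) ^ 2 * ((tt v z - 1 - NN v x ^ 2) / (2 * NN v x) -
        NN v x * sg * ⟪nu v x, om⟫)) +
      PC v r x om al ga sg κ * (r * T2 v x / NN v x) +
      r * (NN v x * sg * (2 * (1 + κ⁻¹) * (‖Pj (nu v x) om‖ ^ 2 * ‖Xv v r x τ om g al‖ ^ 2 +
        ‖τ‖ ^ 2 * ‖g‖ ^ 2)) / (sg * (r - dd v x) + ga * r)) +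
      r * (2 * sg * (al * r - dd v x) * ⟪AA v x om, Bu v x⟫) -
      r * (2 * NN v x * sg * ⟪al • g - NN v x • nu v x, AA v x om⟫) +
      r * (2 * NN v x * sg * ⟪nu v x, om⟫ * ⟪g, AA v x τ⟫) +
      r * (2 * sg * r * (NN v x * ⟪AA v x τ, AA v x om⟫ - ⟪nu v x, om⟫ * ⟪AA v x τ, Bu v x⟫)) +
      r * (NN v x * ‖Qv v r x g sg‖ ^ 2 / sg ^ 2 / (r - dd v x)) +
      r * (2 * (1 - sg) * ⟪Bu v x, nu v x⟫) +
      r * ((r - dd v x) * (1 - sg ^ 2) * ‖Bu v x‖ ^ 2 / NN v x) := by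
    rw [RH, PC]
    linear_combination (r * sg * (1 + κ) * (al * r - dd v x) ^ 2 /
      (sg * (r - dd v x) + ga * r)) * e0
  set N := NN v x
  set t := tt v x
  set s := ‖Pj (nu v x) om‖
  set u := |1 - sg|
  set G := ‖g‖
  set b := r * Bn v x with hb
  set T := r * t with hT
  set cs := ⟪nu v x, om⟫ with hcs
  set L := r - dd v x
  set a := al * r - dd v x
  have s0' : 0 ≤ s := norm_nonneg _
  have u0 : 0 ≤ u := abs_nonneg _
  have G0 : 0 ≤ G := norm_nonneg _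
  have tT : t ≤ T := le_mul_of_one_le_left t0 r1
  have T0 : 0 ≤ T := t0.trans tT
  have aN : |N| ≤ 1 := (abs_of_pos hN).trans_le N1
  have aS : |sg| ≤ 2 := abs_le.2 ⟨by linarith, by linarith⟩
  have aC : |cs| ≤ 1 := abs_le.2 ⟨by linarith, c1⟩
  have aR : |r| ≤ r := (abs_of_pos r0).le
  have a2 : |(2 : ℝ)| ≤ 2 := by norm_num
  have iN : |N⁻¹| ≤ 2 := by
    rw [abs_of_pos (inv_pos.2 hN), inv_le_comm₀ hN two_pos]; linarith
  -- term 2
  have h2 : r * (√2 * v x * (1 - N) ^ 2 * ((tt v z - 1 - N ^ 2) / (2 * N) - N * sg * cs)) ≤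
      8 * T ^ 2 := by
    have b1 : |√2| ≤ 2 := by
      rw [abs_of_nonneg (Real.sqrt_nonneg _)]; exact Real.sqrt_le_iff.2 ⟨by norm_num, by norm_num⟩
    have b2 : |(1 - N) ^ 2| ≤ t ^ 2 := by
      rw [abs_of_nonneg (sq_nonneg _)]; exact pow_le_pow_left₀ (by linarith) Nt 2
    have b3 := t2_bd N0 N1 tz0 tz1
    have b4 := (abs_sub _ _).trans (add_le_add b3 (mul_le' (mul_le' aN aS) aC))
    have b5 := (le_abs_self _).trans
      (mul_le' aR (mul_le' (mul_le' (mul_le' b1 (D.hv.lt x).le) b2) b4))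
    have b6 : r * t ^ 2 ≤ T ^ 2 :=
      (le_mul_of_one_le_left (by positivity) r1).trans_eq (by rw [hT]; ring)
    linarith
  -- term 3
  have hX : ‖Xv v r x τ om g al‖ ≤ 8 * (b * s) + T + s + 2 * G := by
    have b1 : |(1 + ⟪om, nu v x⟫)⁻¹| ≤ 1 := by
      rw [real_inner_comm, ← hcs, abs_of_pos (by positivity)]
      exact inv_le_one_of_one_le₀ (by linarith)
    have b2 := nsm aR At
    have b3 := nsm (c := 1 - N) (C := T) (abs_le.2 ⟨by linarith, by linarith⟩) hν.le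
    have b4 := nsm b1 (le_refl s)
    have b5 := nsm B.hal (le_refl G)
    refine (norm_sub_le _ _).trans (add_le_add ((norm_sub_le _ _).trans (add_le_add
      ((norm_sub_le _ _).trans (add_le_add (b2.trans_eq ?_) (b3.trans_eq ?_))) (b4.trans_eq ?_))) b5)
    · rw [hb]; ring
    · ring
    · ring
  have h3 : r * (N * sg * (2 * (1 + κ⁻¹) * (s ^ 2 * ‖Xv v r x τ om g al‖ ^ 2 + ‖τ‖ ^ 2 * G ^ 2)) /
      (sg * L + ga * r)) ≤
      8 * (1 + κ⁻¹) * (s ^ 2 * (256 * (b * s) ^ 2 + 4 * T ^ 2 + 4 * s ^ 2 + 32 * G ^ 2)) := by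
    have b1 : ‖Xv v r x τ om g al‖ ^ 2 ≤ 256 * (b * s) ^ 2 + 4 * T ^ 2 + 4 * s ^ 2 + 16 * G ^ 2 := by
      exact (pow_le_pow_left₀ (norm_nonneg _) hX 2).trans ((sq4 _ _ _ _).trans_eq (by ring))
    have b2 : ‖τ‖ ^ 2 ≤ 16 * s ^ 2 :=
      (pow_le_pow_left₀ (norm_nonneg _) B.tau 2).trans_eq (by ring)
    have b3 : N * sg ≤ 2 := (le_abs_self _).trans ((mul_le' aN aS).trans_eq (one_mul _))
    have b4 := B.y
    calc _ ≤ r * (2 * (2 * (1 + κ⁻¹) * (s ^ 2 * (256 * (b * s) ^ 2 + 4 * T ^ 2 + 4 * s ^ 2 +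
          16 * G ^ 2) + 16 * s ^ 2 * G ^ 2)) / (r / 2)) := by gcongr
      _ = _ := by field_simp; ring
  have h5 := (le_abs_self _).trans (mul_le' aR (mul_le' (mul_le' (mul_le' a2 aS) ha) (ip_le Ao hbu)))
  have An' : |⟪nu v x, AA v x om⟫| ≤ 2 * (K * t * s) := An.trans (by gcongr)
  have h6 : |⟪al • g - N • nu v x, AA v x om⟫| ≤ 2 * (G * (2 * (Bn v x * s))) + 1 * (2 * (K * t * s)) := by
    rw [inner_sub_left, real_inner_smul_left, real_inner_smul_left]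
    exact (abs_sub _ _).trans (add_le_add (mul_le' B.hal (ip_le le_rfl Ao)) (mul_le' aN An'))
  have h6' := (neg_le_abs _).trans (mul_le' aR (mul_le' (mul_le' (mul_le' a2 aN) aS) h6))
  have h7 := (le_abs_self _).trans (mul_le' aR (mul_le' (mul_le' (mul_le' (mul_le' a2 aN) aS) aC)
    (ip_le (le_refl G) At)))
  have h8 := (le_abs_self _).trans (mul_le' aR (mul_le' (mul_le' (mul_le' a2 aS) aR)
    ((abs_sub _ _).trans (add_le_add (mul_le' aN (ip_le At Ao)) (mul_le' aC (ip_le At hbu))))))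
  have aL : |L| ≤ 2 * r := (abs_of_pos hL).trans_le L1
  have hQ : ‖Qv v r x g sg‖ ≤ u * (2 * G + T + u + 6 * K * T) := by
    have b1 : |(1 - sg ^ 2) / 2| ≤ 2 * u := by rw [abs_div, abs_two]; linarith
    have b2 : |1 - N * (1 + sg) / 2| ≤ T + u := by
      rw [show 1 - N * (1 + sg) / 2 = (1 - N) + N * (1 - sg) / 2 by ring]
      refine (abs_add_le _ _).trans (add_le_add (abs_le.2 ⟨by linarith, by linarith⟩) ?_)
      have := mul_le' aN (le_refl u)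
      rw [abs_div, abs_two]; linarith
    have b3 : |L * (1 - sg ^ 2) / 2 / N| ≤ 6 * (r * u) := by
      have := mul_le' (mul_le' aL hF) iN
      rw [show L * (1 - sg ^ 2) / 2 / N = L * (1 - sg ^ 2) * N⁻¹ / 2 by ring, abs_div, abs_two]
      linarith
    refine norm_add₃_le.trans ((add_le_add (add_le_add (nsm b1 (le_refl G))
      (nsm (mul_le' (le_refl u) b2) hν.le)) (nsm b3 hbu)).trans_eq ?_)
    rw [hT]; ring
  have h9 : r * (N * ‖Qv v r x g sg‖ ^ 2 / sg ^ 2 / L) ≤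
      32 * (u ^ 2 * (4 * G ^ 2 + T ^ 2 + u ^ 2 + 36 * K ^ 2 * T ^ 2)) := by
    have b1 : ‖Qv v r x g sg‖ ^ 2 ≤ 4 * (u ^ 2 * (4 * G ^ 2 + T ^ 2 + u ^ 2 + 36 * K ^ 2 * T ^ 2)) := by
      refine (pow_le_pow_left₀ (norm_nonneg _) hQ 2).trans ?_
      rw [mul_pow]
      exact (mul_le_mul_of_nonneg_left (sq4 (2 * G) T u (6 * K * T)) (sq_nonneg u)).trans_eq
        (by ring)
    calc _ ≤ r * (1 * (4 * (u ^ 2 * (4 * G ^ 2 + T ^ 2 + u ^ 2 + 36 * K ^ 2 * T ^ 2))) /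
          (1 / 2) ^ 2 / (r / 2)) := by gcongr; linarith
      _ = _ := by field_simp; ring
  have h10 := (le_abs_self _).trans (mul_le' aR (mul_le' (mul_le' a2 (le_refl u)) (ip_le hbu hν.le)))
  have h11 : r * (L * (1 - sg ^ 2) * ‖Bu v x‖ ^ 2 / N) ≤ 12 * K ^ 2 * T ^ 2 := by
    have b1 : |‖Bu v x‖ ^ 2| ≤ (K * t) ^ 2 := by
      rw [abs_of_nonneg (sq_nonneg _)]; exact pow_le_pow_left₀ (norm_nonneg _) hbu 2
    have b2 : |1 - sg ^ 2| ≤ 3 := hF.trans (by linarith [B.u, B.θ1])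
    rw [div_eq_mul_inv]
    refine ((le_abs_self _).trans (mul_le' aR (mul_le' (mul_le' (mul_le' aL b2) b1) iN))).trans_eq ?_
    rw [hT]; ring
  have e2 : 0 ≤ r * (√2 * (v z - v x) * tt v z - qq v x * (dd v z - dd v x)) := by positivity
  rw [e3, Err]
  have f5 : r * (2 * 2 * (3 * r) * (2 * (Bn v x * s) * (K * t))) = 24 * K * (b * s * T) := by
    rw [hb, hT]; ring
  have f6 : r * (2 * 1 * 2 * (2 * (G * (2 * (Bn v x * s))) + 1 * (2 * (K * t * s)))) =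
      16 * (G * (b * s)) + 8 * K * (s * T) := by rw [hb, hT]; ring
  have f7 : r * (2 * 1 * 2 * 1 * (G * (8 * (Bn v x * s)))) = 32 * (G * (b * s)) := by
    rw [hb]; ring
  have f8 : r * (2 * 2 * r * (1 * (8 * (Bn v x * s) * (2 * (Bn v x * s))) +
      1 * (8 * (Bn v x * s) * (K * t)))) = 64 * (b * s) ^ 2 + 32 * K * (b * s * T) := by
    rw [hb, hT]; ring
  have f10 : r * (2 * u * (K * t * 1)) = 2 * K * (u * T) := by rw [hT]; ring
  linarith

set_option maxHeartbeats 1000000 in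
/-- what `La • g = Ga` gives -/
theorem grad_bd (B : Bd v r x τ om al ga sg θ K) (D : SD v r x z τ om al ga sg)
    (hg : La v x τ om al ga sg • g = Ga v r x τ om al sg) :
    ‖g‖ ≤ 2 * ‖Pj (nu v x) om‖ + 2 * (r * tt v x) + 2 * |1 - sg| +
      28 * (r * Bn v x) * (|1 - sg| + ‖Pj (nu v x) om‖) ∧
    (r * Bn v x ≤ 1 / 1000 → |1 - sg| + ‖Pj (nu v x) om‖ ≤ 72 * (‖g‖ + r * tt v x)) := by
  obtain ⟨N0, N1, Nt, t0, s0, s1, c0, c1, L0, L1, ha, hF, Ao, At, -, hB, hν⟩ := B.num D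
  have hL := D.hL
  have hN := D.hN
  have r1 := B.r1
  have r0 : 0 < r := by linarith
  have B0 : 0 ≤ Bn v x := Real.sqrt_nonneg _
  have eN : tt v x = 1 - NN v x ^ 2 := rfl
  have tz0 := D.hv.tt_nonneg z
  have ez := D.tz
  have l1 : 1 ≤ La v x τ om al ga sg := by linarith [B.L1, B.θ1]
  have l2 := B.L2
  have oP := inner_Pj hν om
  set E : EE n := -(((r - dd v x) * (1 - sg ^ 2) / 2) • Bu v x) -
    (NN v x * sg * (al * r - dd v x)) • AA v x om +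
    (NN v x * sg * r * ⟪nu v x, om⟫) • AA v x τ with hE
  set m := NN v x - NN v x ^ 2 * (1 + sg ^ 2) / 2 + NN v x * sg * ⟪nu v x, om⟫ * (1 - NN v x)
    with hm
  have eG : La v x τ om al ga sg • g - E = -(NN v x * sg) • Pj (nu v x) om - m • nu v x := by
    rw [hg, Ga, hE, hm]; abel
  set N := NN v x
  set t := tt v x
  set P := Pj (nu v x) om
  set u := |1 - sg|
  set b := r * Bn v x with hb
  set cs := ⟪nu v x, om⟫
  set Λ := La v x τ om al ga sg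
  have s0' := norm_nonneg P
  have u0 : 0 ≤ u := abs_nonneg _
  have G0 := norm_nonneg g
  have b0 : 0 ≤ b := by positivity
  have tT : t ≤ r * t := le_mul_of_one_le_left t0 r1
  have aN : |N| ≤ 1 := (abs_of_pos hN).trans_le N1
  have aS : |sg| ≤ 2 := abs_le.2 ⟨by linarith, by linarith⟩
  have aC : |cs| ≤ 1 := abs_le.2 ⟨by linarith, c1⟩
  have aR : |r| ≤ r := (abs_of_pos r0).le
  have hE' : ‖E‖ ≤ 28 * b * (u + ‖P‖) := by
    have b1 : |(r - dd v x) * (1 - sg ^ 2) / 2| ≤ 3 * (r * u) := by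
      have := mul_le' ((abs_of_pos hL).trans_le L1) hF
      rw [abs_div, abs_two]; linarith
    have b2 := nsm b1 hB
    have b3 := nsm (mul_le' (mul_le' aN aS) ha) Ao
    have b4 := nsm (mul_le' (mul_le' (mul_le' aN aS) aR) aC) At
    refine ((norm_add_le _ _).trans (add_le_add ((norm_sub_le _ _).trans
      (add_le_add ((norm_neg _).trans_le b2) b3)) b4)).trans ?_
    have : 0 ≤ b * u := by positivity
    have e : 3 * (r * u) * Bn v x + 1 * 2 * (3 * r) * (2 * (Bn v x * ‖P‖)) +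
        1 * 2 * r * 1 * (8 * (Bn v x * ‖P‖)) = 3 * (b * u) + 28 * (b * ‖P‖) := by rw [hb]; ring
    linarith
  have n2 : ‖Λ • g - E‖ ^ 2 = (N * sg * ‖P‖) ^ 2 + m ^ 2 := by
    rw [eG, norm_sub_sq_real, real_inner_smul_left, real_inner_smul_right, oP, norm_smul, norm_smul,
      hν, Real.norm_eq_abs, Real.norm_eq_abs, mul_pow, mul_one, sq_abs, sq_abs]
    ring
  have nl : ‖Λ • g‖ = Λ * ‖g‖ := by rw [norm_smul, Real.norm_of_nonneg (by linarith)]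
  have q0 : 0 ≤ N * sg * cs := by positivity
  have q1 : N * sg * cs ≤ 2 := (le_abs_self _).trans ((mul_le' (mul_le' aN aS) aC).trans (by norm_num))
  have em : m = (t + tt v z) / 2 - (1 - N) * (1 - N * sg * cs) := by rw [hm, ez, eN]; ring
  have q2 : |(1 - N) * (1 - N * sg * cs)| ≤ t * 1 :=
    mul_le' (abs_le.2 ⟨by linarith, Nt⟩) (abs_le.2 ⟨by linarith, by linarith⟩)
  obtain ⟨q3, q4⟩ := abs_le.1 q2
  have ezt : tt v z - t = N ^ 2 * (1 - sg ^ 2) := by rw [ez, eN]; ring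
  constructor
  · have b1 : |tt v z - t| ≤ 1 * (3 * u) := by
      rw [ezt]
      exact mul_le' (by rw [abs_of_nonneg (sq_nonneg _)]; exact pow_le_one₀ hN.le N1) hF
    obtain ⟨b2, b3⟩ := abs_le.1 b1
    have b4 : |m| ≤ 2 * t + 2 * u := abs_le.2 ⟨by linarith, by linarith⟩
    have b5 : ‖Λ • g - E‖ ≤ 2 * ‖P‖ + (2 * t + 2 * u) * 1 := by
      rw [eG]
      refine (norm_sub_le _ _).trans (add_le_add (nsm ?_ le_rfl) (nsm b4 hν.le))
      rw [abs_neg]; exact (mul_le' aN aS).trans_eq (one_mul _)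
    have b6 := norm_sub_norm_le (Λ • g) E
    have b7 : ‖g‖ ≤ Λ * ‖g‖ := le_mul_of_one_le_left G0 l1
    linarith
  · intro hb1
    have b1 : ‖Λ • g - E‖ ≤ 3 * ‖g‖ + 28 * b * (u + ‖P‖) := by
      have := mul_le_mul_of_nonneg_right l2 G0
      linarith [norm_sub_le (Λ • g) E]
    obtain ⟨b2, b3⟩ := le_of_sq_add (norm_nonneg _) n2
    have b4 : 9 / 10 * (9 / 10) * ‖P‖ ≤ N * sg * ‖P‖ := by gcongr
    have b5 : u ≤ 2 * (t + tt v z) := by
      have c2 : N ^ 2 * ((1 + sg) * u) = |tt v z - t| := by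
        rw [ezt, show 1 - sg ^ 2 = (1 + sg) * (1 - sg) by ring, abs_mul, abs_mul,
          abs_of_nonneg (sq_nonneg N), abs_of_pos (by linarith : 0 < 1 + sg)]
      have c3 : |tt v z - t| ≤ t + tt v z := abs_le.2 ⟨by linarith, by linarith⟩
      have c4 : (9 / 10) ^ 2 * (1 * u) ≤ N ^ 2 * ((1 + sg) * u) := by gcongr; linarith
      linarith
    have b6 : b * (u + ‖P‖) ≤ 1 / 1000 * (u + ‖P‖) := by gcongr
    linarith

/-- the quadratic part of the bracket -/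
theorem br_ge {ε c : ℝ} (r0 : 0 < r) (a : EE n)
    (h : -(c * (r * ‖a‖) ^ 2) ≤ r ^ 3 * hb (dd v) x a a) {e : ℝ} (he : 0 < e)
    (hc : e + 2 * c ≤ 2 * (1 + ε)) : (2 + ε - 4 / e) * ‖g‖ ^ 2 ≤
    r * ((2 + ε) * ‖g‖ ^ 2 / r + 4 * ⟪g, a⟫ + 2 * r ^ 2 * hb (dd v) x a a +
      2 * (1 + ε) * r * ‖a‖ ^ 2) := by
  have h1 := (neg_le_abs _).trans (abs_real_inner_le_norm g a)
  have h2 := young (A := 4) (x := r * ‖a‖) (y := ‖g‖) he
  have h3 : r * -⟪g, a⟫ ≤ r * (‖g‖ * ‖a‖) := by gcongr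
  have h4 : (e + 2 * c) * (r * ‖a‖) ^ 2 ≤ 2 * (1 + ε) * (r * ‖a‖) ^ 2 := by gcongr
  have e1 : r * ((2 + ε) * ‖g‖ ^ 2 / r + 4 * ⟪g, a⟫ + 2 * r ^ 2 * hb (dd v) x a a +
      2 * (1 + ε) * r * ‖a‖ ^ 2) = (2 + ε) * ‖g‖ ^ 2 - 4 * (r * -⟪g, a⟫) +
      2 * (r ^ 3 * hb (dd v) x a a) + 2 * (1 + ε) * (r * ‖a‖) ^ 2 := by field_simp; ring
  have e2 : (4 : ℝ) ^ 2 / (4 * e) = 4 / e := by field_simp
  rw [e2] at h2
  rw [e1]; linarith

theorem num_eθ {e θ : ℝ} (e0 : 0 < e) (e1 : e ≤ 1) (s0 : 0 < θ) (s3 : θ ≤ e / 200)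
    (s4 : θ ≤ 1 / 1000) : θ ^ 2 / 2 ≤ θ / 2 ∧
    2 + e / 4 + 30 * θ ≤ (1 + e / 2) * (2 - 8 * θ) * (1 - θ) ∧
    (1 + e / 2) * (2 - 8 * θ) + e / 2 ≤ (2 - 8 * θ) * (1 + e) ∧ (1 + e / 2) * (2 - 8 * θ) ≤ 3 :=
  ⟨by nlinarith,
    by nlinarith [mul_nonneg (sub_nonneg.2 e1) s0.le, sq_nonneg θ, mul_nonneg e0.le (sq_nonneg θ)],
    by nlinarith, by nlinarith⟩

theorem num_N {N θ : ℝ} (N0 : 0 < N) (t0 : 0 ≤ 1 - N ^ 2) (t1 : 1 - N ^ 2 ≤ θ) :
    N ≤ 1 ∧ 1 - θ ≤ N := ⟨by nlinarith, by nlinarith⟩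

theorem num_La {N sg p θ : ℝ} (s0 : 0 < θ) (s4 : θ ≤ 1 / 1000) (N1 : N ≤ 1) (N2 : 1 - θ ≤ N)
    (hu : |1 - sg| ≤ θ) (p0 : 1 - θ ≤ p) (p1 : p ≤ 3 / 2) :
    2 - 8 * θ ≤ N * sg * p + N * (1 + sg ^ 2) / 2 ∧ N * sg * p + N * (1 + sg ^ 2) / 2 ≤ 3 := by
  obtain ⟨u1, u2⟩ := abs_le.1 hu
  have N0 : 0 < N := by linarith
  have a0 : 0 < sg := by linarith
  have a1 : (1 - θ) * (1 - θ) * (1 - θ) ≤ N * sg * p := by gcongr <;> linarith
  have a2 : (1 - θ) * (1 + (1 - θ) ^ 2) ≤ N * (1 + sg ^ 2) := by gcongr <;> linarith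
  have a3 : N * sg * p ≤ 1 * (11 / 10) * (3 / 2) := by gcongr <;> linarith
  have a4 : N * (1 + sg ^ 2) ≤ 1 * (1 + (11 / 10) ^ 2) := by gcongr; linarith
  constructor <;> nlinarith [sq_nonneg θ]

theorem num_y {r d sg θ ga : ℝ} (r0 : 0 < r) (s4 : θ ≤ 1 / 1000) (hd : |d| ≤ θ * r)
    (hu : |1 - sg| ≤ θ) (hg : -θ ≤ ga) : r / 2 ≤ sg * (r - d) + ga * r := by
  obtain ⟨u1, u2⟩ := abs_le.1 hu
  obtain ⟨d1, d2⟩ := abs_le.1 hd
  have d3 : θ * r ≤ 1 / 1000 * r := by gcongr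
  have y0 : 9 / 10 * (9 / 10 * r) ≤ sg * (r - d) := by gcongr <;> linarith
  nlinarith

theorem num_L {N r d θ e : ℝ} (r0 : 0 < r) (e0 : 0 < e) (e1 : e ≤ 1) (s3 : θ ≤ e / 200)
    (hd : |d| ≤ θ * r) (N1 : N ≤ 1) (hL : 0 < r - d) : N / (r - d) ≤ (1 + e / 2) / r := by
  rw [div_le_div_iff₀ hL r0]
  obtain ⟨-, d2⟩ := abs_le.1 hd
  have h1 : θ * r ≤ e / 200 * r := by gcongr
  have h2 : (1 + e / 2) * ((1 - e / 200) * r) ≤ (1 + e / 2) * (r - d) := by gcongr; linarith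
  have h3 : 1 * r ≤ (1 + e / 2) * (1 - e / 200) * r := by gcongr; nlinarith
  nlinarith

theorem num_s {c θ : ℝ} (c1 : c ≤ 1) (h : 1 - c ≤ θ ^ 2 / 2) : 1 ^ 2 - c ^ 2 ≤ θ ^ 2 := by
  nlinarith

theorem sq2 (a b : ℝ) : (72 * (a + b)) ^ 2 ≤ 72 ^ 2 * (2 * a ^ 2 + 2 * b ^ 2) := by
  nlinarith [sq_nonneg (a - b)]

/-- the bounds and the potential at a cap or rim contact -/
theorem bd_of {c e : ℝ} (D : SD v r x z τ om al ga sg) (S : Small v θ r x) (hu : |1 - sg| ≤ θ)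
    (s0 : 0 < θ) (s4 : θ ≤ 1 / 1000) (e0 : 0 < e) (e1 : e ≤ 1) (K0 : 0 ≤ K)
    (hK : 1 / 2 ≤ gN v x → ‖∇ (gN v) x‖ ≤ K * tt v x) (hcs : 1 - ⟪nu v x, om⟫ ≤ θ ^ 2 / 2)
    (hty : (al = -2 ∧ τ = 0 ∧ ∃ h, 0 ≤ h ∧ h ≤ θ ^ 2 / 2 ∧ ga = 3 - h) ∨
      ∃ η, 0 ≤ η ∧ η ≤ θ ^ 2 / 2 ∧ ga = -η ∧ |al - 1| ≤ η ∧ ‖τ‖ ≤ 4 * ‖Pj (nu v x) om‖ ∧
        c ≤ ‖Pj (nu v x) om‖ ^ 2 ∧ 1 - θ ^ 2 / 2 ≤ al * ⟪nu v x, om⟫ + ga + ⟪τ, om⟫ ∧
        al * ⟪nu v x, om⟫ + ga + ⟪τ, om⟫ ≤ 2) :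
    Bd v r x τ om al ga sg θ K ∧ PC v r x om al ga sg (e / 4) ≤ (2 + e / 4 + 30 * θ) * r ∧
      (PC v r x om al ga sg (e / 4) ≤ 0 ∨ c ≤ ‖Pj (nu v x) om‖ ^ 2) := by
  have θθ : θ ^ 2 / 2 ≤ θ / 2 := by nlinarith only [s0, s4]
  have hν := Wd.norm_nu D.hN
  have r1 := S.r
  have r0 : 0 < r := by linarith
  obtain ⟨N1, N2⟩ := num_N D.hN (D.hv.tt_nonneg x) S.t
  have c1' : ⟪nu v x, om⟫ ≤ 1 := (le_abs_self _).trans ((ip_le hν.le D.ho.le).trans_eq (one_mul _))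
  have hs : ‖Pj (nu v x) om‖ ≤ θ := by
    refine abs_le_of_sq_le_sq' ?_ s0.le |>.2
    rw [normSq_Pj hν, D.ho, real_inner_comm]; exact num_s c1' hcs
  have hbu : ‖Bu v x‖ ≤ K * tt v x := by
    rw [← (jN D.hv D.hN).grad]; exact hK (by change 1 / 2 ≤ NN v x; linarith)
  rcases hty with ⟨rfl, rfl, h, k0, k1, rfl⟩ | ⟨η', k0, k1, rfl, k2, k3, k4, k5, -⟩
  · have a1 := num_La (p := -2 * ⟪nu v x, om⟫ + (3 - h) + ⟪0, om⟫) s0 s4 N1 N2 hu
      (by rw [inner_zero_left]; linarith) (by rw [inner_zero_left]; linarith)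
    have a2 := pc_cap (κ := e / 4) (cs := ⟪nu v x, om⟫) r0 (by linarith) S.d hu (by linarith) k0
      (by linarith) (by positivity) (by linarith)
    exact ⟨⟨by linarith, r1, S.t, S.d, hu, hs, by linarith, by norm_num,
      num_y r0 s4 S.d hu (by linarith), by rw [norm_zero]; positivity, a1.1, a1.2, K0, hbu⟩,
      le_trans a2 (by positivity), Or.inl a2⟩
  · obtain ⟨l1, l2⟩ := abs_le.1 k2
    have k6 := (le_abs_self _).trans (ip_le k3 D.ho.le)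
    have k7 : al * ⟪nu v x, om⟫ ≤ (1 + η') * 1 := by gcongr <;> linarith
    have a1 := num_La (p := al * ⟪nu v x, om⟫ + -η' + ⟪τ, om⟫) s0 s4 N1 N2 hu (by linarith)
      (by linarith)
    exact ⟨⟨by linarith, r1, S.t, S.d, hu, hs, by linarith, abs_le.2 ⟨by linarith, by linarith⟩,
      num_y r0 s4 S.d hu (by linarith), k3, a1.1, a1.2, K0, hbu⟩,
      pc_rim r0 (by linarith) S.d hu (by linarith) c1' k0 (by linarith) (k2.trans (by linarith))
        (by positivity) (by linarith), Or.inr k4⟩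

set_option maxHeartbeats 1000000 in
/-- **EST** -/
theorem estS (n : ℕ) : EstS n := by
  intro ε hε
  obtain ⟨K, K0, hK⟩ := exists_grad_gN n
  obtain ⟨e, e0, e1, e2⟩ : ∃ e : ℝ, 0 < e ∧ e ≤ 1 ∧ e ≤ ε :=
    ⟨min 1 ε, by positivity, min_le_left _ _, min_le_right _ _⟩
  have κ0 : 0 < e / 4 := by positivity
  obtain ⟨θ1, C1, t0, t1, c1, h1⟩ := Err_thin K0 κ0 (by linarith) (half_pos e0)
  obtain ⟨η, η0, η1, η2⟩ : ∃ η : ℝ, 0 < η ∧ η ≤ θ1 ∧ η ≤ e / 2 :=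
    ⟨min θ1 (e / 2), by positivity, min_le_left _ _, min_le_right _ _⟩
  obtain ⟨θ2, C2, t2, c2, h2⟩ := Err_thick (A := 12 / e) K0 κ0 (by linarith) (half_pos e0) η0
    (by linarith) (by positivity)
  obtain ⟨θ, s0, s1, s2, s3⟩ : ∃ θ : ℝ, 0 < θ ∧ θ ≤ θ1 ∧ θ ≤ θ2 ∧ θ ≤ e / 200 :=
    ⟨min θ1 (min θ2 (e / 200)), by positivity, min_le_left _ _,
      (min_le_right _ _).trans (min_le_left _ _), (min_le_right _ _).trans (min_le_right _ _)⟩
  have s4 : θ ≤ 1 / 1000 := s1.trans t1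
  obtain ⟨-, n2, n3, n4⟩ := num_eθ e0 e1 s0 s3 s4
  refine ⟨θ ^ 2 / 2, by positivity, fun c hc => ⟨min η (√(e * c) / 1000), θ, 1 + C1 + C2 + e,
    e / 4, by positivity, s0, by linarith, κ0,
    fun v r ηt x z τ om g al ga sg D S hu _ hη ht psd hg hcs hty => ?_⟩⟩
  obtain ⟨B, p1, p2⟩ := bd_of D S hu s0 s4 e0 e1 K0 (hK v D.hv x) hcs hty
  clear hty hK
  have hν := Wd.norm_nu D.hN
  have r0 : 0 < r := one_pos.trans_le S.r
  have tt0 := D.hv.tt_nonneg x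
  have N0 := D.hN
  obtain ⟨N1, N2⟩ := num_N D.hN tt0 S.t
  have hs := B.s
  have T0 : 0 ≤ T2 v x := by
    have := (Bl.norm_hop D.hv x (nu v x)).trans_eq (by rw [hν, mul_one])
    rw [T2, ← Bl.Bn_sq, sub_nonneg]; exact pow_le_pow_left₀ (norm_nonneg _) this 2
  have T1 : T2 v x ≤ Bn v x ^ 2 := by rw [T2, Bl.Bn_sq]; exact sub_le_self _ (sq_nonneg _)
  have T3 : 0 ≤ r * T2 v x / NN v x := by positivity
  have l1 := B.L1
  have l2 := B.L2
  have l0 : 1 ≤ La v x τ om al ga sg := by linarith only [l1, s4]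
  have θ9 : 0 < 1 - θ := by linarith only [s4]
  have θ8 : 0 < 2 - 8 * θ := by linarith only [s4]
  refine ⟨l0, fun a => le_of_mul_le_mul_left ((RH_le B D ht κ0).trans ?_) r0⟩
  obtain ⟨g1, g2⟩ := grad_bd B D hg
  have B0 : 0 ≤ Bn v x := Real.sqrt_nonneg _
  have q1 : PC v r x om al ga sg (e / 4) * (r * T2 v x / NN v x) ≤
      (1 + e / 2) * (2 - 8 * θ) * (r * Bn v x) ^ 2 := by
    have a1 : r * T2 v x / NN v x ≤ r * Bn v x ^ 2 / (1 - θ) := by gcongr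
    calc _ ≤ (2 + e / 4 + 30 * θ) * r * (r * Bn v x ^ 2 / (1 - θ)) :=
          (mul_le_mul_of_nonneg_right p1 T3).trans (by gcongr)
      _ ≤ (1 + e / 2) * (2 - 8 * θ) * (1 - θ) * r * (r * Bn v x ^ 2 / (1 - θ)) := by gcongr
      _ = _ := by field_simp
  have eb : r * (r * ((1 + ε) * hsq (dd v) x)) = (1 + ε) * (r * Bn v x) ^ 2 := by
    rw [← Bl.Bn_sq]; ring
  have eq : ∀ P : ℝ, r * (La v x τ om al ga sg * (r * P + (2 + ε) * ‖g‖ ^ 2 / r + 4 * ⟪g, a⟫ +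
      2 * r ^ 2 * hb (dd v) x a a + 2 * (1 + ε) * r * ‖a‖ ^ 2 + (1 + C1 + C2 + e) * r * tt v x ^ 2)) =
      La v x τ om al ga sg * (r * (r * P)) + La v x τ om al ga sg * (r * ((2 + ε) * ‖g‖ ^ 2 / r +
        4 * ⟪g, a⟫ + 2 * r ^ 2 * hb (dd v) x a a + 2 * (1 + ε) * r * ‖a‖ ^ 2)) +
        La v x τ om al ga sg * ((1 + C1 + C2 + e) * (r * tt v x) ^ 2) := fun P => by ring
  rw [eq]
  have T4 : 0 ≤ r * tt v x := by positivity
  have b0 : 0 ≤ r * Bn v x := by positivity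
  have w1 : (1 + C1 + C2 + e) * (r * tt v x) ^ 2 ≤
      La v x τ om al ga sg * ((1 + C1 + C2 + e) * (r * tt v x) ^ 2) :=
    le_mul_of_one_le_left (by positivity) l0
  have w2 : (1 + e / 2) * (2 - 8 * θ) * (r * Bn v x) ^ 2 + e / 2 * (r * Bn v x) ^ 2 ≤
      La v x τ om al ga sg * ((1 + ε) * (r * Bn v x) ^ 2) := by
    calc _ = ((1 + e / 2) * (2 - 8 * θ) + e / 2) * (r * Bn v x) ^ 2 := by ring
      _ ≤ ((2 - 8 * θ) * (1 + e)) * (r * Bn v x) ^ 2 := by gcongr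
      _ ≤ (La v x τ om al ga sg * (1 + ε)) * (r * Bn v x) ^ 2 := by gcongr
      _ = _ := by ring
  have w3 := mul_nonneg e0.le (sq_nonneg (r * Bn v x))
  have w4 := mul_nonneg c1 (sq_nonneg (r * tt v x))
  have w5 := mul_nonneg c2 (sq_nonneg (r * tt v x))
  have w6 := mul_nonneg e0.le (sq_nonneg (r * tt v x))
  have w7 := sq_nonneg (r * tt v x)
  have G0 := norm_nonneg g
  rcases le_or_gt (r * Bn v x) η with hb1 | hb1
  · have a1 := g2 ((hb1.trans η1).trans t1)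
    have a2 := h1 _ _ _ _ _ b0 G0 (norm_nonneg _) (abs_nonneg _) T4 (hb1.trans η1) (hs.trans s1)
      (hu.trans s1) a1
    have a3 := br_ge (g := g) (x := x) (v := v) (ε := ε) (c := r * Bn v x) r0 a (by
      have k1 := (neg_le_abs _).trans (Bl.abs_hb_le D.hv x a a)
      have k2 := mul_le_mul_of_nonneg_left k1 (pow_pos r0 3).le
      linarith only [k2]) two_pos (by linarith only [hb1, η2, e2, e0])
    have a4 : e * ‖g‖ ^ 2 ≤ (2 + ε - 4 / 2) * ‖g‖ ^ 2 := by gcongr; linarith only [e2]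
    have a5 := le_mul_of_one_le_left (((mul_nonneg e0.le (sq_nonneg _)).trans a4).trans a3) l0
    have a5' := (a4.trans a3).trans a5
    have a6 := mul_nonneg e0.le (sq_nonneg ‖g‖)
    split_ifs with hb2
    · rw [mul_zero, mul_zero, mul_zero]
      rcases p2 with p2 | p2
      · have a7 := mul_nonpos_of_nonpos_of_nonneg p2 T3
        linarith only [a7, a2, a5', a6, w1, w5, w6, w7]
      · have a7 : (r * Bn v x) ^ 2 ≤ e * c / 10 ^ 6 := by
          refine (pow_le_pow_left₀ b0 (hb2.trans (hη.trans (min_le_right _ _))) 2).trans_eq ?_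
          rw [div_pow, Real.sq_sqrt (by positivity)]; norm_num
        have a8 := (pow_le_pow_left₀ (norm_nonneg _)
          ((le_add_of_nonneg_left (abs_nonneg _)).trans a1) 2).trans (sq2 _ _)
        have a9 := mul_le_mul_of_nonneg_left (p2.trans a8) e0.le
        have a10 := mul_le_mul_of_nonneg_right n4 (sq_nonneg (r * Bn v x))
        linarith only [a7, a9, a10, q1, a2, a5', a6, w1, w5, w6, w7]
    · rw [eb]; linarith only [q1, a2, a5', a6, w1, w2, w3, w5, w6, w7]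
  · have a2 := h2 _ _ _ _ _ G0 (norm_nonneg _) (abs_nonneg _) T4 hb1.le (hs.trans s2)
      (hu.trans s2) g1
    have a3 := br_ge (g := g) (x := x) (v := v) (ε := ε) (c := 1 + e / 2) r0 a (by
      have b2 := mul_le_mul_of_nonneg_right (num_L r0 e0 e1 s3 S.d N1 D.hL) (sq_nonneg ‖a‖)
      have b3 := mul_le_mul_of_nonneg_left (show -((1 + e / 2) / r * ‖a‖ ^ 2) ≤ hb (dd v) x a a by
        linarith only [psd a, b2]) (pow_pos r0 3).le
      refine le_trans (le_of_eq ?_) b3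
      field_simp) e0 (by linarith only [e2])
    have a4 : -(4 / e * ‖g‖ ^ 2) ≤ (2 + ε - 4 / e) * ‖g‖ ^ 2 := by
      have : 0 ≤ (2 + ε) * ‖g‖ ^ 2 := by positivity
      linarith only [this]
    have a5 := mul_le_mul_of_nonneg_left (a4.trans a3) (zero_le_one.trans l0)
    have a6 : La v x τ om al ga sg * (4 / e * ‖g‖ ^ 2) ≤ 3 * (4 / e * ‖g‖ ^ 2) := by gcongr
    have a7 : 3 * (4 / e * ‖g‖ ^ 2) = 12 / e * ‖g‖ ^ 2 := by ring
    rw [if_neg (not_le.2 (lt_of_le_of_lt (hη.trans (min_le_left _ _)) hb1)), eb]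
    linarith only [a2, a5, a6, a7, q1, w1, w2, w4, w6, w7]

/-- **cap and rim supports** -/
theorem cr (n : ℕ) : CRStmt n := cr_of (estS n)

end

end Crest.Agent.N067.X3
end

-- ▼ part N067/M/All89

/-!
# Row 67 (helper89): the master inequality `MIStmt` from all blocks
-/

set_option autoImplicit false
set_option linter.dupNamespace false

namespace Crest.Agent.N067.M

theorem mi89 : MIStmt := mi_of desS fun n hn =>
  ⟨fl n, x0 n, Bl.x1_of (fl n) (x0 n) (X3.cr n) (X2.fx n), stab hn, flux (by omega),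
    err (fl n) (x0 n), pot (fl n) (x0 n), thS n, testS n, mainS n, finS n, psplit n, lowG n,
    gtS n, coreS n, midS (Y.x5 (by omega) (by omega)) (bad_of (by omega) (x0 n)), jS n, convS n,
    limG n⟩

end Crest.Agent.N067.M
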